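import Crest.Agent.R290.Defs
import Crest.Agent.Lib.PolyTime.Enc

/-!
# Row 290: the codes of graphs determine the graphs
-/

set_option autoImplicit false

namespace Crest.Agent.R290

open Crest.WLRefine Crest.Enc Crest.Agent.Lib.PolyTime

variable {n m k : ℕ}

theorem pSquare_adjMatrixCode (G : Fin n → Fin n → Bool) (r : List Bool) :
    pSquare pBool (adjMatrixCode G ++ r) = ((n, rows G), r) := by
  exact pSquare_bits n G r

theorem length_adjMatrixCode (G : Fin n → Fin n → Bool) :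
    (adjMatrixCode G).length = (natCode n).length + n * n := by
  simp [adjMatrixCode, List.length_flatMap]

theorem adjMatrixCode_eq (G : Fin n → Fin n → Bool) :
    adjMatrixCode G = natCode n ++ (rows G).flatten := by
  simp [adjMatrixCode, rows, List.ofFn_eq_map, List.flatMap_def]

theorem length_rows (G : Fin n → Fin n → Bool) : (rows G).length = n := by
  simp [rows]

theorem rows_getD (G : Fin n → Fin n → Bool) (i j : Fin n) :
    ((rows G).getD i []).getD j false = G i j := by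
  simp [rows]

theorem rows_injective : Function.Injective (rows : (Fin n → Fin n → Bool) → _) := by
  intro G H h
  funext i j
  rw [← rows_getD G, h, rows_getD]

/-- A code followed by anything determines the graph and the rest. -/
theorem adjMatrixCode_append_inj {G : Fin n → Fin n → Bool} {H : Fin m → Fin m → Bool}
    {r r' : List Bool} (h : adjMatrixCode G ++ r = adjMatrixCode H ++ r') :
    (⟨n, G⟩ : Σ n, Fin n → Fin n → Bool) = ⟨m, H⟩ ∧ r = r' := by
  have := congrArg (pSquare pBool) h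
  simp only [pSquare_adjMatrixCode, Prod.mk.injEq] at this
  obtain ⟨⟨rfl, h2⟩, h3⟩ := this
  exact ⟨by rw [rows_injective h2], h3⟩

theorem adjMatrixCode_inj {G : Fin n → Fin n → Bool} {H : Fin m → Fin m → Bool}
    (h : adjMatrixCode G = adjMatrixCode H) : (⟨n, G⟩ : Σ n, Fin n → Fin n → Bool) = ⟨m, H⟩ :=
  (adjMatrixCode_append_inj (r := []) (r' := []) (by rw [h])).1

theorem natCode_append_inj {a b : ℕ} {r r' : List Bool} (h : natCode a ++ r = natCode b ++ r') :
    a = b ∧ r = r' := by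
  simpa using congrArg pNat h

theorem mem_jointEquivLang_iff (G : Fin n → Fin n → Bool) (H : Fin m → Fin m → Bool) :
    adjMatrixCode G ++ adjMatrixCode H ∈ jointEquivLang k ↔
      IsSimple G ∧ IsSimple H ∧ JEquiv k G H := by
  refine ⟨?_, fun h => ⟨_, _, G, H, h.1, h.2.1, h.2.2, rfl⟩⟩
  rintro ⟨n', m', G', H', h1, h2, h3, h4⟩
  obtain ⟨h5, h6⟩ := adjMatrixCode_append_inj h4
  cases h5
  cases adjMatrixCode_inj h6
  exact ⟨h1, h2, h3⟩

theorem mem_sepEquivLang_iff (G : Fin n → Fin n → Bool) (H : Fin m → Fin m → Bool) :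
    adjMatrixCode G ++ adjMatrixCode H ∈ sepEquivLang k ↔
      IsSimple G ∧ IsSimple H ∧ SEquiv k G H := by
  refine ⟨?_, fun h => ⟨_, _, G, H, h.1, h.2.1, h.2.2, rfl⟩⟩
  rintro ⟨n', m', G', H', h1, h2, h3, h4⟩
  obtain ⟨h5, h6⟩ := adjMatrixCode_append_inj h4
  cases h5
  cases adjMatrixCode_inj h6
  exact ⟨h1, h2, h3⟩

theorem mem_varDimEquivLang_iff (G : Fin n → Fin n → Bool) (H : Fin m → Fin m → Bool) :
    natCode k ++ adjMatrixCode G ++ adjMatrixCode H ∈ varDimEquivLang ↔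
      2 ≤ k ∧ IsSimple G ∧ IsSimple H ∧ JEquiv k G H := by
  refine ⟨?_, fun h => ⟨_, _, _, G, H, h.1, h.2.1, h.2.2.1, h.2.2.2, rfl⟩⟩
  rintro ⟨k', n', m', G', H', h0, h1, h2, h3, h4⟩
  rw [List.append_assoc, List.append_assoc] at h4
  obtain ⟨rfl, h7⟩ := natCode_append_inj h4
  obtain ⟨h5, h6⟩ := adjMatrixCode_append_inj h7
  cases h5
  cases adjMatrixCode_inj h6
  exact ⟨h0, h1, h2, h3⟩

theorem mem_subcubicVarDimEquivLang_iff (G H : Fin n → Fin n → Bool) :
    natCode k ++ adjMatrixCode G ++ adjMatrixCode H ∈ subcubicVarDimEquivLang ↔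
      2 ≤ k ∧ 0 < n ∧ SimpleConnSubcubic G ∧ SimpleConnSubcubic H ∧ JEquiv k G H := by
  refine ⟨?_, fun h => ⟨_, _, G, H, h.1, h.2.1, h.2.2.1, h.2.2.2.1, h.2.2.2.2, rfl⟩⟩
  rintro ⟨k', n', G', H', h0, h0', h1, h2, h3, h4⟩
  rw [List.append_assoc, List.append_assoc] at h4
  obtain ⟨rfl, h7⟩ := natCode_append_inj h4
  obtain ⟨h5, h6⟩ := adjMatrixCode_append_inj h7
  cases h5
  cases adjMatrixCode_inj h6
  exact ⟨h0, h0', h1, h2, h3⟩

theorem mem_wlDimLeLang_iff (G : Fin n → Fin n → Bool) :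
    natCode k ++ adjMatrixCode G ∈ wlDimLeLang ↔
      1 ≤ k ∧ 0 < n ∧ IsSimple G ∧ ∃ k', 1 ≤ k' ∧ k' ≤ k ∧ Identifies k' G := by
  refine ⟨?_, fun h => ⟨_, _, G, h.1, h.2.1, h.2.2.1, h.2.2.2, rfl⟩⟩
  rintro ⟨k', n', G', h0, h1, h2, h3, h4⟩
  obtain ⟨rfl, h7⟩ := natCode_append_inj h4
  cases adjMatrixCode_inj h7
  exact ⟨h0, h1, h2, h3⟩

end Crest.Agent.R290
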