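import Crest.Agent.R290.CoreCompAux

/-!
# Row 290: if all keys are true, consistency for `m + 2` pebbles gives a solution
-/

set_option autoImplicit false

namespace Crest.Agent.R290

namespace CC

open Finset

theorem alg_rows {I J B : Type} [Fintype I] [Fintype J] [Fintype B] [DecidableEq J]
    (gp : I → J) (rep : J → I) (hrep : ∀ j, gp (rep j) = j) (u d : I → B → ZMod 2)
    (live : J → B → Prop) (ε : ZMod 2) (hu : ∀ i a, u i a = u (rep (gp i)) a)
    (h0 : ∀ i a, ¬ live (gp i) a → u i a = 0) (hε : ∀ i, ∑ a, u i a = ε)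
    (hne : ∀ j, ∃ a, live j a)
    (hd : ∀ p : J → B, (∀ j, live j (p j)) → ∑ i, d i (p (gp i)) = 0) :
    ∑ i, ∑ a, u i a * d i a = 0 := by
  choose p₀ hp₀ using hne
  set D : J → B → ZMod 2 := fun j a => ∑ i ∈ univ.filter (fun i => gp i = j), d i a with hD
  have hd' : ∀ p : J → B, (∀ j, live j (p j)) → ∑ j, D j (p j) = 0 := by
    intro p hp
    rw [← hd p hp, ← sum_fiberwise univ gp]
    refine sum_congr rfl fun j _ => sum_congr rfl fun i hi => ?_
    rw [(mem_filter.1 hi).2]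
  have hc : ∀ j a, live j a → D j a = D j (p₀ j) := by
    intro j a ha
    have e1 := hd' p₀ hp₀
    have e2 := hd' (Function.update p₀ j a) fun j' => by
      by_cases h : j' = j
      · subst h; simpa using ha
      · rw [Function.update_of_ne h]; exact hp₀ j'
    rw [← add_sum_erase _ _ (mem_univ j)] at e1 e2
    rw [Function.update_self, sum_congr rfl (g := fun j' => D j' (p₀ j'))
      fun j' hj' => by rw [Function.update_of_ne (ne_of_mem_erase hj')]] at e2
    linear_combination e2 - e1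
  calc ∑ i, ∑ a, u i a * d i a = ∑ j, ∑ a, u (rep j) a * D j a := by
        rw [← sum_fiberwise univ gp]
        refine sum_congr rfl fun j _ => ?_
        rw [sum_comm]
        refine sum_congr rfl fun a _ => ?_
        rw [hD, mul_sum]
        refine sum_congr rfl fun i hi => ?_
        rw [hu i a, (mem_filter.1 hi).2]
    _ = ∑ j, ε * D j (p₀ j) := by
        refine sum_congr rfl fun j _ => ?_
        rw [← hε (rep j), sum_mul]
        refine sum_congr rfl fun a _ => ?_
        by_cases ha : live j a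
        · rw [hc j a ha]
        · rw [h0 (rep j) a (by rwa [hrep]), zero_mul, zero_mul]
    _ = 0 := by rw [← mul_sum, hd' p₀ hp₀, mul_zero]

section
variable {S : CS} {m : ℕ}

theorem ev_dead {ρ : Fin S.nR} {i : Fin m} {a : Fin S.nA} (h : S.f ρ (S.grp i) a = none)
    (c : Fin (ncol m)) (α : Var → ZMod 2) : ev (S.sl m) α (ρ, i, a, c) = α (.dd ρ i a c) := by
  rw [ev_eq (sl_dead h c)]
  linear_combination α (.dd ρ i a c) * two_eq

theorem ev_live {ρ : Fin S.nR} {i : Fin m} {a : Fin S.nA} {a' : ℕ}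
    (h : S.f ρ (S.grp i) a = some a') {c : ℕ} (hc : c < 2 * m + 15) (α : Var → ZMod 2) :
    ev (S.sl m) α (ρ, i, a, col m c) =
      (if c = 0 then 0 else α (.hh ρ i a (c - 1))) + (if c = 2 * m + 14 then 0 else α (.hh ρ i a c)) +
      (if c = 0 ∨ c = 2 * m + 14 then α (.ww (S.k1 ρ) i a) + α (.ww (S.k2 ρ) i a)
        else if c = 1 then α (.ww (S.out ρ) i a')
        else if c % 2 = 0 then α (.vv ρ (c / 2) (prv i) (S.tag m (prv i) a))
        else α (.vv ρ (c / 2) i (S.tag m i a))) := by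
  rcases col_cases hc with rfl | rfl | rfl | ⟨t, ht, rfl⟩ | ⟨t, ht, rfl⟩
  · rw [ev_eq (sl_zero h)]; simp [add_assoc]
  · rw [ev_eq (sl_one h)]; simp
  · rw [ev_eq (sl_last h)]; simp [add_assoc]
  · rw [ev_eq (sl_even h ht), if_neg (by omega), if_neg (by omega), if_neg (by omega),
      if_neg (by omega), if_pos (by omega), show (2 * t + 2) / 2 = t + 1 by omega]
    rfl
  · rw [ev_eq (sl_odd h ht), if_neg (by omega), if_neg (by omega), if_neg (by omega),
      if_neg (by omega), if_neg (by omega), show (2 * t + 3) / 2 = t + 1 by omega]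
    rfl

variable {U : S.Con m → ZMod 2} (hU : ∀ α : Var → ZMod 2, ∑ z, U z * ev (S.sl m) α z = 0)
include hU

theorem closed_dead {ρ : Fin S.nR} {i : Fin m} {a : Fin S.nA} (h : S.f ρ (S.grp i) a = none)
    (c : Fin (ncol m)) : U (ρ, i, a, c) = 0 := by
  have e := hU fun x => if x = .dd ρ i a c then 1 else 0
  rw [sum_eq_single (ρ, i, a, c), ev_dead h, if_pos rfl, mul_one] at e
  · exact e
  · rintro ⟨ρ', i', a', c'⟩ - hne
    rcases h' : S.f ρ' (S.grp i') a' with _ | a''
    · rw [ev_dead h', if_neg, mul_zero]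
      intro h2
      simp only [Var.dd.injEq, Fin.val_inj] at h2
      exact hne (by simp [h2])
    · rw [← col_self c', ev_live h' c'.2]
      simp
  · simp

theorem closed_hh {ρ : Fin S.nR} {i : Fin m} {a : Fin S.nA} {c : ℕ} (hc : c < 2 * m + 14) :
    U (ρ, i, a, col m (c + 1)) = U (ρ, i, a, col m c) := by
  rcases h : S.f ρ (S.grp i) a with _ | a₁
  · rw [closed_dead hU h, closed_dead hU h]
  have e := hU fun x => if x = .hh ρ i a c then 1 else 0
  have hne : (ρ, i, a, col m (c + 1)) ≠ (ρ, i, a, col m c) := by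
    intro h2
    have := congrArg (fun z : S.Con m => (z.2.2.2 : ℕ)) h2
    simp only [col_val (m := m) (c := c + 1) (by omega), col_val (m := m) (c := c) (by omega)] at this
    omega
  rw [sum_eq_add (ρ, i, a, col m (c + 1)) (ρ, i, a, col m c) hne, ev_live h (by omega),
    ev_live h (by omega)] at e
  · have e1 : ¬ c - 1 = c ∨ c = 0 := by omega
    have e2 : ¬ c = 2 * m + 14 := by omega
    rcases e1 with e1 | e1 <;> simp [e1, e2] at e
    · linear_combination e - U (ρ, i, a, col m c) * two_eq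
    · subst e1
      linear_combination e - U (ρ, i, a, col m 0) * two_eq
  · rintro ⟨ρ', i', a', c'⟩ - hn
    rcases h' : S.f ρ' (S.grp i') a' with _ | a''
    · rw [ev_dead h']; simp
    · rw [← col_self c', ev_live h' c'.2]
      have n1 : ¬ (c' : ℕ) = 0 → ¬ Var.hh ρ' i' a' (c' - 1) = Var.hh ρ i a c := by
        intro h0 h2
        simp only [Var.hh.injEq, Fin.val_inj] at h2
        refine hn.1 ?_
        have : c' = col m (c + 1) := Fin.ext (by rw [col_val (by omega)]; omega)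
        simp [h2, this]
      have n2 : ¬ Var.hh ρ' i' a' c' = Var.hh ρ i a c := by
        intro h2
        simp only [Var.hh.injEq, Fin.val_inj] at h2
        refine hn.2 ?_
        have : c' = col m c := Fin.ext (by rw [col_val (by omega)]; omega)
        simp [h2, this]
      rw [if_neg n2]
      by_cases h0 : (c' : ℕ) = 0
      · simp [h0]
      · rw [if_neg h0, if_neg (n1 h0)]; simp
  · simp
  · simp

theorem closed_row (ρ : Fin S.nR) (i : Fin m) (a : Fin S.nA) (c : Fin (ncol m)) :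
    U (ρ, i, a, c) = U (ρ, i, a, col m 0) := by
  have : ∀ c < 2 * m + 15, U (ρ, i, a, col m c) = U (ρ, i, a, col m 0) := by
    intro c
    induction c with
    | zero => intro _; rfl
    | succ c ih => intro hc; rw [closed_hh hU (by omega), ih (by omega)]
  rw [← col_self c]
  exact this c c.2

theorem closed_sum (α : Var → ZMod 2) (R : Fin S.nR → Fin m → Fin S.nA → ZMod 2)
    (hR : ∀ (ρ : Fin S.nR) (i : Fin m) (a : Fin S.nA) (a' : ℕ), S.f ρ (S.grp i) a = some a' →
      ∑ c ∈ range (2 * m + 15), ev (S.sl m) α (ρ, i, a, col m c) = R ρ i a) :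
    ∑ ρ, ∑ i, ∑ a, U (ρ, i, a, col m 0) * R ρ i a = 0 := by
  rw [← hU α]
  simp only [Fintype.sum_prod_type]
  refine sum_congr rfl fun ρ _ => sum_congr rfl fun i _ => sum_congr rfl fun a _ => ?_
  simp only [closed_row hU ρ i a, ← mul_sum]
  rcases h : S.f ρ (S.grp i) a with _ | a'
  · rw [closed_dead hU h, zero_mul, zero_mul]
  · rw [sum_col, hR ρ i a a' h]

theorem closed_vv (ρ : Fin S.nR) (i : Fin m) (τ : Option ℕ) :
    ∑ a : Fin S.nA, (if S.tag m (prv i) a = τ then
      U (ρ, i, a, col m 0) + U (ρ, prv i, a, col m 0) else 0) = 0 := by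
  have e := closed_sum hU (fun x => if x = .vv ρ 1 (prv i) τ then 1 else 0)
    (fun ρ' i' a => (if ρ' = ρ ∧ i' = i ∧ S.tag m (prv i) a = τ then 1 else 0) +
      (if ρ' = ρ ∧ i' = prv i ∧ S.tag m (prv i) a = τ then 1 else 0)) (by
    intro ρ' i' a a' h
    rw [sum_eq_add 2 3 (by norm_num), ev_live h (by omega), ev_live h (by omega)]
    · have e1 : ¬ 2 = 2 * m + 14 := by omega
      have e2 : ¬ 3 = 2 * m + 14 := by omega
      simp only [e1, e2, reduceCtorEq, if_false, OfNat.ofNat_ne_zero, or_self,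
        OfNat.ofNat_ne_one, Nat.mod_self, if_true, zero_add, Var.vv.injEq, Fin.val_inj,
        prv_bij.1.eq_iff, Nat.reduceMod, Nat.reduceDiv, true_and, one_ne_zero]
      congr 1
      · refine if_congr ?_ rfl rfl
        constructor <;> rintro ⟨h1, rfl, h3⟩ <;> exact ⟨h1, rfl, h3⟩
      · refine if_congr ?_ rfl rfl
        constructor <;> rintro ⟨h1, rfl, h3⟩ <;> exact ⟨h1, rfl, h3⟩
    · intro c hc hn
      rw [ev_live h (mem_range.1 hc)]
      have : ¬ c / 2 = 1 := by omega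
      simp [this]
    · intro h2; exact absurd (mem_range.2 (by omega)) h2
    · intro h2; exact absurd (mem_range.2 (by omega)) h2)
  rw [sum_eq_single ρ] at e
  · simp only [true_and, mul_add, sum_add_distrib] at e
    rw [sum_eq_single i, sum_eq_single (prv i)] at e
    · rw [← sum_add_distrib] at e
      refine Eq.trans (sum_congr rfl fun a _ => ?_) e
      by_cases h1 : S.tag m (prv i) a = τ <;> simp [h1]
    · intro j _ hj; simp [hj]
    · simp
    · intro j _ hj; simp [hj]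
    · simp
  · intro j _ hj; simp [hj]
  · simp

theorem closed_same (ρ : Fin S.nR) (i : Fin m) (h : S.grp (prv i) = S.grp i) (a : Fin S.nA) :
    U (ρ, i, a, col m 0) = U (ρ, prv i, a, col m 0) := by
  have e := closed_vv hU ρ i (some a)
  simp only [CS.tag, prv_succ_mod, h, if_true, Option.some.injEq, Fin.val_inj, sum_ite_eq',
    mem_univ] at e
  linear_combination e - U (ρ, prv i, a, col m 0) * two_eq

theorem closed_par (ρ : Fin S.nR) (i : Fin m) :
    ∑ a, U (ρ, i, a, col m 0) = ∑ a, U (ρ, prv i, a, col m 0) := by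
  by_cases h : S.grp (prv i) = S.grp i
  · exact sum_congr rfl fun a _ => closed_same hU ρ i h a
  · have e := closed_vv hU ρ i none
    simp only [CS.tag, prv_succ_mod, h, if_false, if_true, sum_add_distrib] at e
    linear_combination e - (∑ a, U (ρ, prv i, a, col m 0)) * two_eq

theorem closed_ww (G : Wire → ℕ → ℕ → ZMod 2) :
    ∑ ρ : Fin S.nR, ∑ i : Fin m, ∑ a : Fin S.nA,
      U (ρ, i, a, col m 0) * G (S.out ρ) i ((S.f ρ (S.grp i) a).getD 0) = 0 := by
  refine closed_sum hU (fun x => Var.casesOn x (fun _ _ _ _ => 0) (fun _ _ _ _ => 0) G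
    (fun _ _ _ _ => 0)) _ fun ρ i a a' h => ?_
  have e : 2 * m + 15 = 2 * m + 12 + 1 + 1 + 1 := by ring
  rw [e, sum_range_succ, sum_range_succ', sum_range_succ', sum_eq_zero, ev_live h (by omega),
    ev_live h (by omega), ev_live h (by omega), h]
  · simp
    linear_combination (G (S.k1 ρ) i a + G (S.k2 ρ) i a) * two_eq
  · intro c hc
    have := mem_range.1 hc
    rw [ev_live h (by omega), if_neg (by omega), if_neg (by omega), if_neg (by omega),
      if_neg (by omega)]
    simp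

end

/-- The coordinate of a row. -/
def gp {S : CS} (hS : S.WF) {m : ℕ} (i : Fin m) : Fin S.k :=
  ⟨S.grp i, by have := hS.kpos; unfold CS.grp; omega⟩

theorem step_rule {S : CS} (hS : S.WF) {m : ℕ} (hm : 16 * S.k ≤ m) {b : S.Con m → ZMod 2}
    {A : Set (Finset (S.Con m) × (Var → ZMod 2))} (h : Cons (S.sl m) b (m + 2) A) (ρ : Fin S.nR)
    {p q : Fin S.k → ℕ} (hs : S.Step ρ p q)
    (hk : S.k1 ρ = S.k2 ρ ∨ ∃ z₁ z₂, Holds A (S.k1 ρ) (fun i => p (gp hS i)) z₁ ∧
      Holds A (S.k2 ρ) (fun i => p (gp hS i)) z₂) :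
    Holds A (S.out ρ) (fun i => q (gp hS i))
      (∑ i, ∑ c, b (ρ, i, ⟨p (gp hS i), (hs _).1⟩, c)) :=
  rule (by have := hS.kpos; omega) h ρ (fun i => ⟨p (gp hS i), (hs _).1⟩) _
    (fun i => (hs (gp hS i)).2)
    (fun i j e => Fin.ext (congrArg p (Fin.ext e : gp hS i = gp hS j))) hk

theorem tr_holds {S : CS} (hS : S.WF) {m : ℕ} (hm : 16 * S.k ≤ m) {b : S.Con m → ZMod 2}
    {A : Set (Finset (S.Con m) × (Var → ZMod 2))} (h : Cons (S.sl m) b (m + 2) A)
    {y : Wire} {q : Fin S.k → ℕ} (ht : S.Tr y q) : ∃ z, Holds A y (fun i => q (gp hS i)) z := by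
  induction ht with
  | src _ h2 h3 h4 => exact ⟨_, step_rule hS hm h ⟨_, h2⟩ h4 (Or.inl h3)⟩
  | both _ h2 _ _ h5 ih1 ih2 =>
    obtain ⟨z₁, a⟩ := ih1
    obtain ⟨z₂, b⟩ := ih2
    exact ⟨_, step_rule hS hm h ⟨_, h2⟩ h5 (Or.inr ⟨z₁, z₂, a, b⟩)⟩

end CC

open CC Finset

theorem core_unsat {S : CS} (hS : S.WF) {m : ℕ} (hm : 16 * S.k ≤ m) :
    ¬ Solvable (S.sl m) (S.bst m) := by
  rintro ⟨α, hα⟩
  have hm0 : 0 < m := by have := hS.kpos; omega
  have h : Cons (S.sl m) (S.bst m) (m + 2) {x | x.2 = α} :=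
    ⟨⟨α, rfl⟩, fun _ _ h _ _ => h, fun _ β h c _ => by rw [show β = α from h]; exact hα c,
      fun _ β h _ _ => ⟨β, h, fun _ _ _ _ => rfl⟩⟩
  obtain ⟨a, ha, -⟩ := hS.dom 0 hS.rpos 0 hS.kpos
  obtain ⟨ρ', r1, r2, r3, r4⟩ := hS.idp 0 hS.rpos
  have s0 : S.Step (⟨0, hS.rpos⟩ : Fin S.nR) (fun _ => a) (fun _ => a) :=
    fun j => ⟨ha, hS.antif j a⟩
  have s1 : S.Step (⟨ρ', r2⟩ : Fin S.nR) (fun _ => a) (fun _ => a) := fun j => ⟨ha, r4 j a⟩
  have h0 := step_rule hS hm h _ s0 (Or.inl hS.anti)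
  have h1 := step_rule hS hm h _ s1 (Or.inr ⟨_, _,
    ⟨fun i => (⟨ρ', r2⟩, i, ⟨a, ha⟩, col m 0),
      fun i => by rw [sl_zero (r4 _ _)]; simp, fun β hβ => by rw [show β = α from hβ]⟩,
    ⟨fun i => (⟨ρ', r2⟩, i, ⟨a, ha⟩, col m 0),
      fun i => by rw [sl_zero (r4 _ _)]; simp, fun β hβ => by rw [show β = α from hβ]⟩⟩)
  simp only [r3] at h1
  have e := h0.unique hm0 h h1
  rw [sum_eq_single ⟨0, hm0⟩, sum_eq_single (col m 0), sum_eq_zero] at e
  · simp [CS.bst, col] at e
  · intro i _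
    exact sum_eq_zero fun c _ => by simp [CS.bst, r1.ne']
  · intro c _ hc
    have : (c : ℕ) ≠ 0 := fun h => hc (Fin.ext (by rw [h, col_val (by omega)]))
    simp [CS.bst, this]
  · simp
  · intro i _ hi
    have : (i : ℕ) ≠ 0 := fun h => hi (Fin.ext h)
    exact sum_eq_zero fun c _ => by simp [CS.bst, this]
  · simp

theorem core_sat {S : CS} (hS : S.WF) {m : ℕ} (hm : 16 * S.k ≤ m) (h : S.AllTrue)
    {b : S.Con m → ZMod 2} (hb : Consistent (S.sl m) b (m + 2)) : Solvable (S.sl m) b := by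
  obtain ⟨A, hA⟩ := hb
  have hk := hS.kpos
  have hm0 : 0 < m := by omega
  refine solvable_of_closed fun U hU0 => ?_
  have hU : ∀ α : Var → ZMod 2, ∑ z, U z * ev (S.sl m) α z = 0 := fun α => by
    rw [sum_ev_eq U α ∅ fun x _ => hU0 x, sum_empty]
  have hch : ∀ y : Wire, ∃ ρ' : Fin S.nR, (∃ ρ : Fin S.nR, S.out ρ = y) →
      S.out ρ' = y ∧ ∀ j a, S.f ρ' j a = some a := by
    intro y
    by_cases hy : ∃ ρ : Fin S.nR, S.out ρ = y
    · obtain ⟨ρ, rfl⟩ := hy
      obtain ⟨ρ', -, r2, r3, r4⟩ := hS.idp ρ ρ.2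
      exact ⟨⟨ρ', r2⟩, fun _ => ⟨r3, r4⟩⟩
    · exact ⟨⟨0, hS.rpos⟩, fun h => absurd h hy⟩
  choose π hπ using hch
  have allrule : ∀ (ρ : Fin S.nR) (p q : Fin S.k → ℕ) (hs : S.Step ρ p q),
      Holds A (S.out ρ) (fun i => q (gp hS i))
        (∑ i, ∑ c, b (ρ, i, ⟨p (gp hS i), (hs _).1⟩, c)) := by
    intro ρ p q hs
    refine step_rule hS hm hA ρ hs ?_
    by_cases hk : S.k1 ρ = S.k2 ρ
    · exact Or.inl hk
    · obtain ⟨t1, t2⟩ := h ρ ρ.2 hk p fun j => (hs j).1
      obtain ⟨z₁, a1⟩ := tr_holds hS hm hA t1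
      obtain ⟨z₂, a2⟩ := tr_holds hS hm hA t2
      exact Or.inr ⟨z₁, z₂, a1, a2⟩
  set G : Wire → ℕ → ℕ → ZMod 2 := fun y i a =>
    if h : i < m ∧ a < S.nA then ∑ c, b (π y, ⟨i, h.1⟩, ⟨a, h.2⟩, c) else 0 with hG
  have hw := closed_ww hU G
  have key : ∀ ρ : Fin S.nR, ∑ i : Fin m, ∑ a : Fin S.nA, U (ρ, i, a, col m 0) *
      (∑ c, b (ρ, i, a, c) + G (S.out ρ) i ((S.f ρ (S.grp i) a).getD 0)) = 0 := by
    intro ρ
    refine alg_rows (gp hS) (fun j => ⟨16 * j, by have := j.2; omega⟩) (fun j => ?_)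
      (fun i a => U (ρ, i, a, col m 0)) _ (fun j a => ∃ a', S.f ρ j a = some a')
      (∑ a, U (ρ, ⟨0, hm0⟩, a, col m 0)) (fun i a => ?_) (fun i a hl => ?_) (fun i => ?_)
      (fun j => ?_) fun p hp => ?_
    · have := j.2
      apply Fin.ext
      simp only [gp, CS.grp]
      omega
    · obtain ⟨i, hi⟩ := i
      induction i with
      | zero => simp [gp, CS.grp]
      | succ i ih =>
        by_cases h1 : i + 1 = 16 * S.grp (i + 1)
        · congr 3
          exact Fin.ext h1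
        · have e : prv (⟨i + 1, hi⟩ : Fin m) = ⟨i, by omega⟩ := Fin.ext (by rw [prv_val]; simp)
          have h2 : S.grp i = S.grp (i + 1) := by
            simp only [CS.grp] at h1 ⊢
            omega
          rw [closed_same hU ρ ⟨i + 1, hi⟩ (by rw [e]; exact h2), e, ih (by omega)]
          simp only [gp, h2]
    · refine closed_dead hU ?_ _
      rcases h' : S.f ρ (S.grp i) a with _ | a'
      · rfl
      · exact absurd ⟨a', h'⟩ hl
    · obtain ⟨i, hi⟩ := i
      induction i with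
      | zero => rfl
      | succ i ih =>
        have e : prv (⟨i + 1, hi⟩ : Fin m) = ⟨i, by omega⟩ := Fin.ext (by rw [prv_val]; simp)
        rw [closed_par hU ρ ⟨i + 1, hi⟩, e, ih (by omega)]
    · obtain ⟨a, ha, h'⟩ := hS.dom ρ ρ.2 j j.2
      exact ⟨⟨a, ha⟩, h'⟩
    · choose q hq using hp
      have s1 : S.Step ρ (fun j => p j) q := fun j => ⟨(p j).2, hq j⟩
      obtain ⟨o1, o2⟩ := hπ (S.out ρ) ⟨ρ, rfl⟩
      have hqb : ∀ j, q j < S.nA := fun j => hS.bnd ρ ρ.2 j j.2 _ (p j).2 _ (hq j)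
      have s2 : S.Step (π (S.out ρ)) q q := fun j => ⟨hqb j, o2 j _⟩
      have h1 := allrule ρ _ _ s1
      have h2 := allrule _ _ _ s2
      rw [o1] at h2
      have e := h1.unique hm0 hA h2
      rw [sum_add_distrib]
      have e2 : ∑ i : Fin m, G (S.out ρ) i ((S.f ρ (S.grp i) (p (gp hS i))).getD 0) =
          ∑ i, ∑ c, b (π (S.out ρ), i, ⟨q (gp hS i), (s2 _).1⟩, c) := by
        refine sum_congr rfl fun i _ => ?_
        have : S.f ρ (S.grp i) (p (gp hS i)) = some (q (gp hS i)) := hq (gp hS i)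
        rw [this, Option.getD_some, hG]
        exact dif_pos ⟨i.2, hqb _⟩
      rw [e2, ← e, ← two_mul, two_eq, zero_mul]
  have tot : ∑ ρ : Fin S.nR, ∑ i : Fin m, ∑ a : Fin S.nA, U (ρ, i, a, col m 0) *
      (∑ c, b (ρ, i, a, c) + G (S.out ρ) i ((S.f ρ (S.grp i) a).getD 0)) = 0 :=
    sum_eq_zero fun ρ _ => key ρ
  simp only [mul_add, sum_add_distrib] at tot
  rw [hw, add_zero] at tot
  rw [← tot]
  simp only [Fintype.sum_prod_type]
  refine sum_congr rfl fun ρ _ => sum_congr rfl fun i _ => sum_congr rfl fun a _ => ?_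
  rw [mul_sum]
  exact sum_congr rfl fun c _ => by rw [closed_row hU]

end Crest.Agent.R290
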