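import Crest.Agent.R290.Xor

/-!
# Row 290: values of linear forms in the pebble game; the rule lemma for a wall
-/

set_option autoImplicit false

namespace Crest.Agent.R290

namespace CC

open Finset

section Gen
variable {Con X : Type} [DecidableEq Con] {sl : Con → Multiset X} {b : Con → ZMod 2} {K : ℕ}
  {A : Set (Finset Con × (X → ZMod 2))}

/-- The form `l` has the value `z` on all winning positions with support `S`. -/
def Val (A : Set (Finset Con × (X → ZMod 2))) (l : (X → ZMod 2) → ZMod 2) (z : ZMod 2)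
    (S : Finset Con) : Prop := ∀ α, (S, α) ∈ A → l α = z

/-- The form `l` only depends on the variables of `S`. -/
def Det (sl : Con → Multiset X) (l : (X → ZMod 2) → ZMod 2) (S : Finset Con) : Prop :=
  ∀ α α' : X → ZMod 2, (∀ c ∈ S, ∀ x ∈ sl c, α' x = α x) → l α' = l α

theorem val_trans (h : Cons sl b K A) {l : (X → ZMod 2) → ZMod 2} {z : ZMod 2} {S S' T : Finset Con}
    (hS : S ⊆ T) (hS' : S' ⊆ T) (hT : T.card ≤ K) (hd : Det sl l S') (hv : Val A l z S) :
    Val A l z S' := by
  intro α hα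
  obtain ⟨α', h1, h2⟩ := h.exists_ext hα hS' hT
  rw [← hd α α' h2]
  exact hv α' (h.sub _ _ h1 _ hS)

theorem val_move {m : ℕ} (h : Cons sl b (m + 2) A) {l : (X → ZMod 2) → ZMod 2} {z : ZMod 2}
    (g g' : Fin m → Con) (e : Con)
    (hd : ∀ j : ℕ, Det sl l (insert e (univ.image fun i : Fin m => if (i : ℕ) < j then g' i else g i)))
    (hg : Det sl l (univ.image g)) (hg' : Det sl l (univ.image g')) :
    Val A l z (univ.image g) ↔ Val A l z (univ.image g') := by
  set T : ℕ → Finset Con := fun j =>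
    insert e (univ.image fun i : Fin m => if (i : ℕ) < j then g' i else g i) with hT
  have hc : ∀ j, (T j).card ≤ m + 1 := fun j =>
    (card_insert_le _ _).trans (Nat.succ_le_succ (card_image_le.trans (by simp)))
  have step : ∀ j, Val A l z (T j) ↔ Val A l z (T (j + 1)) := by
    intro j
    by_cases hj : j < m
    · have s1 : T (j + 1) ⊆ insert (g' ⟨j, hj⟩) (T j) := by
        intro c hc
        simp only [hT, mem_insert, mem_image, mem_univ, true_and] at hc ⊢
        rcases hc with rfl | ⟨i, rfl⟩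
        · exact Or.inr (Or.inl rfl)
        · by_cases hi : (i : ℕ) = j
          · left
            rw [if_pos (by omega)]
            exact congrArg g' (Fin.ext hi)
          · refine Or.inr (Or.inr ⟨i, ?_⟩)
            by_cases hi' : (i : ℕ) < j
            · rw [if_pos hi', if_pos (by omega)]
            · rw [if_neg hi', if_neg (by omega)]
      have s2 : (insert (g' ⟨j, hj⟩) (T j)).card ≤ m + 2 :=
        (card_insert_le _ _).trans (Nat.succ_le_succ (hc j))
      exact ⟨val_trans h (subset_insert _ _) s1 s2 (hd _), val_trans h s1 (subset_insert _ _) s2 (hd _)⟩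
    · have : T (j + 1) = T j := by
        simp only [hT]
        congr 2
        funext i
        have := i.2
        rw [if_pos (by omega), if_pos (by omega)]
      rw [this]
  have chain : ∀ j, Val A l z (T 0) ↔ Val A l z (T j) := by
    intro j
    induction j with
    | zero => rfl
    | succ j ih => exact ih.trans (step j)
  have e0 : T 0 = insert e (univ.image g) := by simp [hT]
  have em : T m = insert e (univ.image g') := by
    simp only [hT]
    congr 2
    funext i
    rw [if_pos i.2]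
  have drop : ∀ g : Fin m → Con, Det sl l (univ.image g) →
      (Val A l z (univ.image g) ↔ Val A l z (insert e (univ.image g))) := by
    intro g hg
    have c1 : (insert e (univ.image g)).card ≤ m + 2 :=
      (card_insert_le _ _).trans (Nat.succ_le_succ (card_image_le.trans (by simp)))
    exact ⟨fun hv α hα => hv α (h.sub _ _ hα _ (subset_insert _ _)),
      val_trans h subset_rfl (subset_insert _ _) c1 hg⟩
  rw [drop g hg, drop g' hg', ← e0, ← em]
  exact chain m

omit [DecidableEq Con] in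
theorem det_sum {m : ℕ} {x : Fin m → X} {S : Finset Con} (hx : ∀ i, ∃ c ∈ S, x i ∈ sl c) :
    Det sl (fun α => ∑ i, α (x i)) S := fun α α' h =>
  sum_congr rfl fun i _ => by
    obtain ⟨c, hc, hi⟩ := hx i
    exact h c hc _ hi

omit [DecidableEq Con] in
theorem Det.add {l l' : (X → ZMod 2) → ZMod 2} {S : Finset Con} (h : Det sl l S)
    (h' : Det sl l' S) : Det sl (fun α => l α + l' α) S := fun α α' e => by
  show l α' + l' α' = l α + l' α
  rw [h α α' e, h' α α' e]

theorem val_switch {m : ℕ} (hm : 0 < m) (h : Cons sl b (m + 2) A) {z : ZMod 2} {x : Fin m → X}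
    {g g' : Fin m → Con} (hg : ∀ i, x i ∈ sl (g i)) (hg' : ∀ i, x i ∈ sl (g' i))
    (hv : Val A (fun α => ∑ i, α (x i)) z (univ.image g)) :
    Val A (fun α => ∑ i, α (x i)) z (univ.image g') := by
  refine (val_move h g g' (g ⟨0, hm⟩) (fun j => det_sum fun i => ?_)
    (det_sum fun i => ⟨g i, mem_image_of_mem _ (mem_univ i), hg i⟩)
    (det_sum fun i => ⟨g' i, mem_image_of_mem _ (mem_univ i), hg' i⟩)).1 hv
  refine ⟨_, mem_insert_of_mem (mem_image_of_mem _ (mem_univ i)), ?_⟩
  split_ifs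
  exacts [hg' i, hg i]

end Gen

/-- The column number `c`. -/
def col (m c : ℕ) : Fin (ncol m) := ⟨c % ncol m, Nat.mod_lt _ (by unfold ncol; omega)⟩

theorem col_val {m c : ℕ} (h : c < 2 * m + 15) : (col m c : ℕ) = c := Nat.mod_eq_of_lt h

theorem col_self {m : ℕ} (c : Fin (ncol m)) : col m c = c := Fin.ext (col_val c.2)

theorem sum_col {m : ℕ} (F : Fin (ncol m) → ZMod 2) :
    ∑ c, F c = ∑ c ∈ range (2 * m + 15), F (col m c) := by
  rw [Finset.sum_range]
  exact sum_congr rfl fun c _ => by rw [col_self (m := m) c]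

/-- The previous row. -/
def prv {m : ℕ} (i : Fin m) : Fin m := ⟨(i + m - 1) % m, Nat.mod_lt _ i.pos⟩

theorem prv_val {m : ℕ} (i : Fin m) : (prv i : ℕ) = if (i : ℕ) = 0 then m - 1 else i - 1 := by
  have := i.2
  show (i + m - 1) % m = _
  split_ifs with h
  · rw [h, Nat.zero_add, Nat.mod_eq_of_lt (by omega)]
  · have e : (i : ℕ) + m - 1 = (i - 1) + m := by omega
    rw [e, Nat.add_mod_right, Nat.mod_eq_of_lt (by omega)]

theorem prv_succ_mod {m : ℕ} (i : Fin m) : ((prv i : ℕ) + 1) % m = i := by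
  have := i.2
  rw [prv_val]
  split_ifs with h
  · have e : m - 1 + 1 = m := by omega
    rw [e, Nat.mod_self, h]
  · have e : (i : ℕ) - 1 + 1 = i := by omega
    rw [e, Nat.mod_eq_of_lt this]

theorem prv_bij {m : ℕ} : Function.Bijective (prv : Fin m → Fin m) := by
  refine Finite.injective_iff_bijective.1 fun i j h => Fin.ext ?_
  rw [← prv_succ_mod i, h, prv_succ_mod]

section Sl
variable {S : CS} {m : ℕ} {ρ : Fin S.nR} {i : Fin m} {a : Fin S.nA} {a' : ℕ}

theorem sl_dead (h : S.f ρ (S.grp i) a = none) (c : Fin (ncol m)) :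
    S.sl m (ρ, i, a, c) = {.dd ρ i a c, .dd ρ i a c, .dd ρ i a c} := by
  simp only [CS.sl, CS.slot, h]

theorem sl_zero (h : S.f ρ (S.grp i) a = some a') :
    S.sl m (ρ, i, a, col m 0) = {.hh ρ i a 0, .ww (S.k1 ρ) i a, .ww (S.k2 ρ) i a} := by
  simp [CS.sl, CS.slot, h, col_val (m := m) (c := 0) (by omega)]

theorem sl_one (h : S.f ρ (S.grp i) a = some a') :
    S.sl m (ρ, i, a, col m 1) = {.hh ρ i a 0, .hh ρ i a 1, .ww (S.out ρ) i a'} := by
  simp [CS.sl, CS.slot, h, col_val (m := m) (c := 1) (by omega)]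

theorem sl_last (h : S.f ρ (S.grp i) a = some a') :
    S.sl m (ρ, i, a, col m (2 * m + 14)) =
      {.hh ρ i a (2 * m + 13), .ww (S.k1 ρ) i a, .ww (S.k2 ρ) i a} := by
  simp [CS.sl, CS.slot, h, col_val (m := m) (c := 2 * m + 14) (by omega)]

theorem sl_even (h : S.f ρ (S.grp i) a = some a') {t : ℕ} (ht : t < m + 6) :
    S.sl m (ρ, i, a, col m (2 * t + 2)) =
      {.hh ρ i a (2 * t + 1), .hh ρ i a (2 * t + 2), .vv ρ (t + 1) (prv i) (S.tag m (prv i) a)} := by
  have e1 : ¬ 2 * t = 2 * m + 12 := by omega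
  have e2 : (2 * t + 2) / 2 = t + 1 := by omega
  have e3 : (2 * t + 2) % 2 = 0 := by omega
  simp [CS.sl, CS.slot, h, col_val (m := m) (c := 2 * t + 2) (by omega), e1, e2, e3, prv]

theorem sl_odd (h : S.f ρ (S.grp i) a = some a') {t : ℕ} (ht : t < m + 6) :
    S.sl m (ρ, i, a, col m (2 * t + 3)) =
      {.hh ρ i a (2 * t + 2), .hh ρ i a (2 * t + 3), .vv ρ (t + 1) i (S.tag m i a)} := by
  have e1 : ¬ 2 * t = 2 * m + 11 := by omega
  have e2 : (2 * t + 3) / 2 = t + 1 := by omega
  simp [CS.sl, CS.slot, h, col_val (m := m) (c := 2 * t + 3) (by omega), e1, e2]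

theorem col_cases {m c : ℕ} (hc : c < 2 * m + 15) : c = 0 ∨ c = 1 ∨ c = 2 * m + 14 ∨
    (∃ t < m + 6, c = 2 * t + 2) ∨ ∃ t < m + 6, c = 2 * t + 3 := by
  by_cases h0 : c = 0
  · exact Or.inl h0
  by_cases h1 : c = 1
  · exact Or.inr (Or.inl h1)
  by_cases h2 : c = 2 * m + 14
  · exact Or.inr (Or.inr (Or.inl h2))
  by_cases h3 : c % 2 = 0
  · exact Or.inr (Or.inr (Or.inr (Or.inl ⟨c / 2 - 1, by omega, by omega⟩)))
  · exact Or.inr (Or.inr (Or.inr (Or.inr ⟨c / 2 - 1, by omega, by omega⟩)))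

theorem hh_mem_left (h : S.f ρ (S.grp i) a = some a') {c : ℕ} (hc : c < 2 * m + 14) :
    Var.hh ρ i a c ∈ S.sl m (ρ, i, a, col m c) := by
  rcases col_cases (m := m) (c := c) (by omega) with rfl | rfl | rfl | ⟨t, ht, rfl⟩ | ⟨t, ht, rfl⟩
  · simp [sl_zero h]
  · simp [sl_one h]
  · omega
  · simp [sl_even h ht]
  · simp [sl_odd h ht]

theorem hh_mem_right (h : S.f ρ (S.grp i) a = some a') {c : ℕ} (hc : c < 2 * m + 14) :
    Var.hh ρ i a c ∈ S.sl m (ρ, i, a, col m (c + 1)) := by
  rcases col_cases (m := m) (c := c + 1) (by omega) with e | e | e | ⟨t, ht, e⟩ | ⟨t, ht, e⟩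
  · omega
  · rw [e, sl_one h]; simp; omega
  · rw [e, sl_last h]; simp; omega
  · rw [e, sl_even h ht]; simp; omega
  · rw [e, sl_odd h ht]; simp; omega

end Sl

theorem ev_eq {Con X : Type} {sl : Con → Multiset X} {c : Con} {x y w : X} (h : sl c = {x, y, w})
    (α : X → ZMod 2) : ev sl α c = α x + α y + α w := by
  simp [ev, h, add_assoc]

theorem two_eq : (2 : ZMod 2) = 0 := rfl

section Rule
variable {S : CS} {m : ℕ} {b : S.Con m → ZMod 2} {A : Set (Finset (S.Con m) × (Var → ZMod 2))}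

/-- The sum of the wire bits of `y` at the symbols `r` is known to be `z`. -/
def Holds (A : Set (Finset (S.Con m) × (Var → ZMod 2))) (y : Wire) (r : Fin m → ℕ) (z : ZMod 2) :
    Prop :=
  ∃ g : Fin m → S.Con m, (∀ i, Var.ww y i (r i) ∈ S.sl m (g i)) ∧
    Val A (fun α => ∑ i : Fin m, α (.ww y i (r i))) z (univ.image g)

theorem Holds.unique (hm : 0 < m) (h : Cons (S.sl m) b (m + 2) A) {y : Wire} {r : Fin m → ℕ}
    {z z' : ZMod 2} (h1 : Holds A y r z) (h2 : Holds A y r z') : z = z' := by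
  obtain ⟨g, a1, a2⟩ := h1
  obtain ⟨g', b1, b2⟩ := h2
  obtain ⟨α, hα⟩ := h.exists_mem (univ.image g') (card_image_le.trans (by simp))
  exact (val_switch hm h a1 b1 a2 α hα).symm.trans (b2 α hα)

theorem rule (hm : 0 < m) (h : Cons (S.sl m) b (m + 2) A) (ρ : Fin S.nR) (a : Fin m → Fin S.nA)
    (a' : Fin m → ℕ) (hl : ∀ i : Fin m, S.f ρ (S.grp i) (a i) = some (a' i))
    (hg : ∀ i j : Fin m, S.grp i = S.grp j → a i = a j)
    (hk : S.k1 ρ = S.k2 ρ ∨ ∃ z₁ z₂, Holds A (S.k1 ρ) (fun i => a i) z₁ ∧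
      Holds A (S.k2 ρ) (fun i => a i) z₂) :
    Holds A (S.out ρ) a' (∑ i, ∑ c, b (ρ, i, a i, c)) := by
  set w : ℕ → Fin m → S.Con m := fun c i => (ρ, i, a i, col m c) with hw
  set B : ℕ → ZMod 2 := fun c => ∑ i, b (w c i) with hB
  set H : ℕ → (Var → ZMod 2) → ZMod 2 := fun c α => ∑ i : Fin m, α (.hh ρ i (a i) c) with hH
  have colsum : ∀ c α, (univ.image (w c), α) ∈ A → ∀ x y u : Fin m → Var,
      (∀ i, S.sl m (w c i) = {x i, y i, u i}) →
      ∑ i, α (x i) + ∑ i, α (y i) + ∑ i, α (u i) = B c := by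
    intro c α hα x y u hs
    rw [← sum_add_distrib, ← sum_add_distrib]
    refine sum_congr rfl fun i _ => ?_
    rw [← ev_eq (hs i)]
    exact h.sat _ _ hα _ (mem_image_of_mem _ (mem_univ i))
  obtain ⟨z, hz⟩ : ∃ z, ∀ g : Fin m → S.Con m, (∀ i, Var.ww (S.k1 ρ) i (a i) ∈ S.sl m (g i)) →
      (∀ i, Var.ww (S.k2 ρ) i (a i) ∈ S.sl m (g i)) → ∀ α, (univ.image g, α) ∈ A →
      ∑ i : Fin m, α (.ww (S.k1 ρ) i (a i)) + ∑ i : Fin m, α (.ww (S.k2 ρ) i (a i)) = z := by
    rcases hk with hk | ⟨z₁, z₂, ⟨g₁, a1, a2⟩, ⟨g₂, b1, b2⟩⟩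
    · exact ⟨0, fun g _ _ α _ => by rw [hk, ← two_mul, two_eq, zero_mul]⟩
    · exact ⟨z₁ + z₂, fun g h1 h2 α hα =>
        congrArg₂ (· + ·) (val_switch hm h a1 h1 a2 α hα) (val_switch hm h b1 h2 b2 α hα)⟩
  have sw1 : ∀ c < 2 * m + 14, ∀ v, Val A (H c) v (univ.image (w c)) →
      Val A (H c) v (univ.image (w (c + 1))) := fun c hc v =>
    val_switch hm h (fun i => hh_mem_left (hl i) hc) (fun i => hh_mem_right (hl i) hc)
  have sw2 : ∀ c < 2 * m + 14, ∀ v, Val A (H c) v (univ.image (w (c + 1))) →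
      Val A (H c) v (univ.image (w c)) := fun c hc v =>
    val_switch hm h (fun i => hh_mem_right (hl i) hc) (fun i => hh_mem_left (hl i) hc)
  have v0 : Val A (H 0) (B 0 + z) (univ.image (w 1)) := by
    refine sw1 0 (by omega) _ fun α hα => ?_
    have e1 := colsum 0 α hα _ _ _ fun i => sl_zero (hl i)
    have e2 := hz (w 0) (fun i => by simp [hw, sl_zero (hl i)])
      (fun i => by simp [hw, sl_zero (hl i)]) α hα
    simp only [hH]
    linear_combination e1 + e2 - (∑ i : Fin m, α (.ww (S.k1 ρ) i (a i)) +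
      ∑ i : Fin m, α (.ww (S.k2 ρ) i (a i))) * two_eq
  have vl : Val A (H (2 * (m + 6) + 1)) (B (2 * m + 14) + z) (univ.image (w (2 * (m + 6) + 2))) := by
    intro α hα
    have e1 := colsum (2 * m + 14) α hα _ _ _ fun i => sl_last (hl i)
    have e2 := hz (w (2 * m + 14)) (fun i => by simp [hw, sl_last (hl i)])
      (fun i => by simp [hw, sl_last (hl i)]) α hα
    have e3 : 2 * (m + 6) + 1 = 2 * m + 13 := by ring
    simp only [hH, e3]
    linear_combination e1 + e2 - (∑ i : Fin m, α (.ww (S.k1 ρ) i (a i)) +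
      ∑ i : Fin m, α (.ww (S.k2 ρ) i (a i))) * two_eq
  have step : ∀ t < m + 6, ∀ v, Val A (H (2 * t + 3)) v (univ.image (w (2 * t + 4))) →
      Val A (H (2 * t + 1)) (v + B (2 * t + 2) + B (2 * t + 3)) (univ.image (w (2 * t + 2))) := by
    intro t ht v hv
    set y : Fin m → Var := fun i => .vv ρ (t + 1) i (S.tag m i (a i)) with hy
    have htag : ∀ i, S.tag m (prv i) (a i) = S.tag m (prv i) (a (prv i)) := by
      intro i
      unfold CS.tag
      split_ifs with h1
      · rw [prv_succ_mod] at h1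
        rw [hg _ _ h1]
      · rfl
    have se : ∀ i, S.sl m (w (2 * t + 2) i) =
        {.hh ρ i (a i) (2 * t + 1), .hh ρ i (a i) (2 * t + 2), y (prv i)} := fun i => by
      simp only [hw, hy]
      rw [sl_even (hl i) ht, htag]
    have so : ∀ i, S.sl m (w (2 * t + 3) i) =
        {.hh ρ i (a i) (2 * t + 2), .hh ρ i (a i) (2 * t + 3), y i} := fun i => sl_odd (hl i) ht
    have h1 := sw2 (2 * t + 3) (by omega) v hv
    have h2 : Val A (fun α => H (2 * t + 2) α + ∑ i, α (y i)) (v + B (2 * t + 3))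
        (univ.image (w (2 * t + 3))) := by
      intro α hα
      have e1 := colsum _ α hα _ _ _ so
      have e2 := h1 α hα
      simp only [hH] at e2 ⊢
      linear_combination e1 + e2 - (∑ i : Fin m, α (.hh ρ i (a i) (2 * t + 3))) * two_eq
    have h3 := (val_move h (w (2 * t + 2)) (w (2 * t + 3)) (w (2 * t + 2) ⟨0, hm⟩)
      (l := fun α => H (2 * t + 2) α + ∑ i, α (y i)) (z := v + B (2 * t + 3))
      (fun j => Det.add (det_sum fun i => ?_) (det_sum fun i => ?_))
      (Det.add (det_sum fun i => ⟨_, mem_image_of_mem _ (mem_univ i), by simp [se]⟩)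
        (det_sum fun i => ?_))
      (Det.add (det_sum fun i => ⟨_, mem_image_of_mem _ (mem_univ i), by simp [so]⟩)
        (det_sum fun i => ⟨_, mem_image_of_mem _ (mem_univ i), by simp [so]⟩))).2 h2
    · intro α hα
      have e1 := colsum _ α hα _ _ _ se
      have e2 := h3 α hα
      have e3 : ∑ i, α (y (prv i)) = ∑ i, α (y i) := prv_bij.sum_comp fun i => α (y i)
      simp only [hH] at e2 ⊢
      rw [e3] at e1
      linear_combination e1 + e2 - (∑ i : Fin m, α (.hh ρ i (a i) (2 * t + 2)) +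
        ∑ i, α (y i)) * two_eq
    · refine ⟨_, mem_insert_of_mem (mem_image_of_mem _ (mem_univ i)), ?_⟩
      split_ifs
      · simp [so]
      · simp [se]
    · by_cases hi : (i : ℕ) < j
      · refine ⟨_, mem_insert_of_mem (mem_image_of_mem _ (mem_univ i)), ?_⟩
        rw [if_pos hi]; simp [so]
      · by_cases hi' : (i : ℕ) + 1 < m
        · refine ⟨_, mem_insert_of_mem (mem_image_of_mem _ (mem_univ ⟨i + 1, hi'⟩)), ?_⟩
          have e : prv (⟨i + 1, hi'⟩ : Fin m) = i := Fin.ext (by rw [prv_val]; simp)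
          rw [if_neg (by simp only; omega), se, e]; simp
        · refine ⟨_, mem_insert_self _ _, ?_⟩
          have e : prv (⟨0, hm⟩ : Fin m) = i := Fin.ext (by
            have := i.2
            rw [prv_val]; simp; omega)
          rw [se, e]; simp
    · obtain ⟨i', rfl⟩ := prv_bij.2 i
      exact ⟨_, mem_image_of_mem _ (mem_univ i'), by simp [se]⟩
  have ind : ∀ t ≤ m + 6, ∀ v, Val A (H (2 * t + 1)) v (univ.image (w (2 * t + 2))) →
      Val A (H 1) (v + ∑ c ∈ range (2 * t), B (c + 2)) (univ.image (w 2)) := by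
    intro t
    induction t with
    | zero => intro _ v hv; simpa using hv
    | succ t ih =>
      intro ht v hv
      have := ih (by omega) _ (step t (by omega) v hv)
      have e : 2 * (t + 1) = 2 * t + 1 + 1 := by ring
      rw [e, sum_range_succ, sum_range_succ]
      convert this using 1
      ring
  have v1 := sw2 1 (by omega) _ (ind _ le_rfl _ vl)
  refine ⟨w 1, fun i => by simp [hw, sl_one (hl i)], fun α hα => ?_⟩
  have e1 := colsum 1 α hα _ _ _ fun i => sl_one (hl i)
  have e2 := v0 α hα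
  have e3 := v1 α hα
  have e4 : ∑ i, ∑ c, b (ρ, i, a i, c) =
      B 0 + B 1 + ∑ c ∈ range (2 * (m + 6)), B (c + 2) + B (2 * m + 14) := by
    rw [sum_comm, sum_col]
    have e : 2 * m + 15 = 2 * (m + 6) + 1 + 1 + 1 := by ring
    have e' : 2 * m + 14 = 2 * (m + 6) + 1 + 1 := by ring
    rw [e, sum_range_succ, sum_range_succ', sum_range_succ', e']
    simp only [hB, hw]
    ring
  simp only [hH] at e2 e3
  rw [e4]
  linear_combination e1 + e2 + e3 - (∑ i : Fin m, α (.hh ρ i (a i) 0) +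
    ∑ i : Fin m, α (.hh ρ i (a i) 1) - z) * two_eq

end Rule

end CC

end Crest.Agent.R290
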