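import Crest.Agent.R290.Defs

/-!
# Row 290: the local equations of a combination of constraints of the brick-wall system
-/

set_option autoImplicit false

namespace Crest.Agent.R290

namespace CS

open Finset

variable (S : CS) (m : ℕ)

/-- The part of `U` on the proper constraints, with natural numbers as indices. -/
def uu (U : S.Con m → ZMod 2) (ρ i a c : ℕ) : ZMod 2 :=
  if h : ρ < S.nR ∧ i < m ∧ a < S.nA ∧ c < ncol m then
    (if (S.f ρ (S.grp i) a).isSome = true then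
      U (⟨ρ, h.1⟩, ⟨i, h.2.1⟩, ⟨a, h.2.2.1⟩, ⟨c, h.2.2.2⟩) else 0) else 0

/-- There is a pebble on the constraint `(ρ, i, a, c)`. -/
def Peb (P : Finset (S.Con m)) (ρ i a c : ℕ) : Prop :=
  ∃ z ∈ P, (z.1 : ℕ) = ρ ∧ (z.2.1 : ℕ) = i ∧ (z.2.2.1 : ℕ) = a ∧ (z.2.2.2 : ℕ) = c

/-- The number of slots holding the variable `x`. -/
def cnt (x : Var) (ρ i a c : ℕ) : ZMod 2 :=
  (if S.slot m ρ i a c 0 = x then 1 else 0) + (if S.slot m ρ i a c 1 = x then 1 else 0) +
    (if S.slot m ρ i a c 2 = x then 1 else 0)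

/-- The symbol that the track `(ρ, i, a)` carries for the wire `y`. -/
def IsVal (y : Wire) (ρ i a v : ℕ) : Prop :=
  ∃ a', S.f ρ (S.grp i) a = some a' ∧
    ((S.out ρ = y ∧ v = a') ∨ ((S.k1 ρ = y ∨ S.k2 ρ = y) ∧ v = a))

theorem anchorLoc : True := by
  have := @uu.eq_1
  have := @Peb.eq_1
  have := @cnt.eq_1
  have := @IsVal.eq_1
  trivial

variable {S m}

theorem uu_ne_zero {U : S.Con m → ZMod 2} {ρ i a c : ℕ} (h : S.uu m U ρ i a c ≠ 0) :
    ρ < S.nR ∧ i < m ∧ a < S.nA ∧ c < ncol m ∧ ∃ a', S.f ρ (S.grp i) a = some a' := by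
  unfold uu at h
  split_ifs at h with h1 h2
  · exact ⟨h1.1, h1.2.1, h1.2.2.1, h1.2.2.2, Option.isSome_iff_exists.1 h2⟩
  · exact absurd rfl h
  · exact absurd rfl h

theorem uu_zero (ρ i a c : ℕ) : S.uu m 0 ρ i a c = 0 := by
  unfold uu; split_ifs <;> rfl

theorem uu_add (U U' : S.Con m → ZMod 2) (ρ i a c : ℕ) :
    S.uu m (U + U') ρ i a c = S.uu m U ρ i a c + S.uu m U' ρ i a c := by
  unfold uu; split_ifs <;> simp

theorem uu_single {z : S.Con m} {ρ i a c : ℕ} (h : S.uu m (Pi.single z 1) ρ i a c ≠ 0) :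
    (z.1 : ℕ) = ρ ∧ (z.2.1 : ℕ) = i ∧ (z.2.2.1 : ℕ) = a ∧ (z.2.2.2 : ℕ) = c := by
  unfold uu at h
  split_ifs at h with h1 h2
  · rw [Pi.single_apply] at h
    split_ifs at h with h3
    · subst h3; exact ⟨rfl, rfl, rfl, rfl⟩
    · exact absurd rfl h
  · exact absurd rfl h
  · exact absurd rfl h

theorem count_sl (x : Var) (z : S.Con m) :
    (((S.sl m z).count x : ℕ) : ZMod 2) = S.cnt m x z.1 z.2.1 z.2.2.1 z.2.2.2 := by
  simp only [sl, cnt, Multiset.insert_eq_cons, Multiset.count_cons, Multiset.count_singleton,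
    eq_comm (a := x)]
  push_cast
  ring

theorem cnt_dummy {x : Var} (hx : ∀ ρ i a c, x ≠ .dd ρ i a c) {ρ i a : ℕ}
    (h : S.f ρ (S.grp i) a = none) (c : ℕ) : S.cnt m x ρ i a c = 0 := by
  simp [cnt, slot, h, (hx _ _ _ _).symm]

theorem bd_eq (U : S.Con m → ZMod 2) {x : Var} (hx : ∀ ρ i a c, x ≠ .dd ρ i a c) :
    bd (S.sl m) U x = ∑ ρ ∈ range S.nR, ∑ i ∈ range m, ∑ a ∈ range S.nA, ∑ c ∈ range (ncol m),
      S.uu m U ρ i a c * S.cnt m x ρ i a c := by
  unfold bd
  simp only [count_sl, Fintype.sum_prod_type, ← Fin.sum_univ_eq_sum_range]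
  refine sum_congr rfl fun ρ _ => sum_congr rfl fun i _ => sum_congr rfl fun a _ =>
    sum_congr rfl fun c _ => ?_
  unfold uu
  rw [dif_pos ⟨ρ.2, i.2, a.2, c.2⟩]
  split_ifs with h
  · rfl
  · rw [cnt_dummy hx (Option.not_isSome_iff_eq_none.1 h), mul_zero, mul_zero]

/-- Replace the counts by any function that agrees with them on proper constraints. -/
theorem bd_eq' (U : S.Con m → ZMod 2) {x : Var} (hx : ∀ ρ i a c, x ≠ .dd ρ i a c)
    (F : ℕ → ℕ → ℕ → ℕ → ZMod 2)
    (hF : ∀ ρ i a c a', ρ < S.nR → i < m → a < S.nA → c < ncol m →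
      S.f ρ (S.grp i) a = some a' → S.cnt m x ρ i a c = F ρ i a c) :
    bd (S.sl m) U x = ∑ ρ ∈ range S.nR, ∑ i ∈ range m, ∑ a ∈ range S.nA, ∑ c ∈ range (ncol m),
      S.uu m U ρ i a c * F ρ i a c := by
  rw [bd_eq U hx]
  refine sum_congr rfl fun ρ _ => sum_congr rfl fun i _ => sum_congr rfl fun a _ =>
    sum_congr rfl fun c _ => ?_
  by_cases h : S.uu m U ρ i a c = 0
  · rw [h, zero_mul, zero_mul]
  · obtain ⟨h1, h2, h3, h4, a', h5⟩ := uu_ne_zero h
    rw [hF ρ i a c a' h1 h2 h3 h4 h5]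

theorem sum_col (U : S.Con m → ZMod 2) (ρ i a c' : ℕ) (κ : ZMod 2) :
    ∑ c ∈ range (ncol m), S.uu m U ρ i a c * (if c = c' then κ else 0) = S.uu m U ρ i a c' * κ := by
  rw [sum_eq_single c']
  · simp
  · intro c _ hc; simp [hc]
  · intro hc
    by_cases h : S.uu m U ρ i a c' = 0
    · simp [h]
    · exact absurd (mem_range.2 (uu_ne_zero h).2.2.2.1) hc

theorem sum_row (U : S.Con m → ZMod 2) (ρ i' : ℕ) (F : ℕ → ℕ → ZMod 2) :
    ∑ i ∈ range m, ∑ a ∈ range S.nA, ∑ c ∈ range (ncol m),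
      S.uu m U ρ i a c * (if i = i' then F a c else 0) =
    ∑ a ∈ range S.nA, ∑ c ∈ range (ncol m), S.uu m U ρ i' a c * F a c := by
  rw [sum_eq_single i']
  · simp
  · intro i _ hi; simp [hi]
  · intro hi
    refine sum_eq_zero fun a _ => sum_eq_zero fun c _ => ?_
    by_cases h : S.uu m U ρ i' a c = 0
    · simp [h]
    · exact absurd (mem_range.2 (uu_ne_zero h).2.1) hi

theorem sum_rule (U : S.Con m → ZMod 2) (ρ' : ℕ) (F : ℕ → ℕ → ℕ → ZMod 2) :
    ∑ ρ ∈ range S.nR, ∑ i ∈ range m, ∑ a ∈ range S.nA, ∑ c ∈ range (ncol m),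
      S.uu m U ρ i a c * (if ρ = ρ' then F i a c else 0) =
    ∑ i ∈ range m, ∑ a ∈ range S.nA, ∑ c ∈ range (ncol m), S.uu m U ρ' i a c * F i a c := by
  rw [sum_eq_single ρ']
  · simp
  · intro i _ hi; simp [hi]
  · intro hi
    refine sum_eq_zero fun i _ => sum_eq_zero fun a _ => sum_eq_zero fun c _ => ?_
    by_cases h : S.uu m U ρ' i a c = 0
    · simp [h]
    · exact absurd (mem_range.2 (uu_ne_zero h).1) hi

theorem sum_sym (U : S.Con m → ZMod 2) (ρ i a' : ℕ) (F : ℕ → ZMod 2) :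
    ∑ a ∈ range S.nA, ∑ c ∈ range (ncol m), S.uu m U ρ i a c * (if a = a' then F c else 0) =
    ∑ c ∈ range (ncol m), S.uu m U ρ i a' c * F c := by
  rw [sum_eq_single a']
  · simp
  · intro i _ hi; simp [hi]
  · intro hi
    refine sum_eq_zero fun c _ => ?_
    by_cases h : S.uu m U ρ i a' c = 0
    · simp [h]
    · exact absurd (mem_range.2 (uu_ne_zero h).2.2.1) hi

/-! ### The slots -/

theorem slot_some {ρ i a a' : ℕ} (h : S.f ρ (S.grp i) a = some a') (c e : ℕ) :
    S.slot m ρ i a c e =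
      if c = 0 then (if e = 0 then .hh ρ i a 0 else if e = 1 then .ww (S.k1 ρ) i a else .ww (S.k2 ρ) i a)
      else if e = 0 then .hh ρ i a (c - 1)
      else if c = 2 * m + 14 then (if e = 1 then .ww (S.k1 ρ) i a else .ww (S.k2 ρ) i a)
      else if e = 1 then .hh ρ i a c
      else if c = 1 then .ww (S.out ρ) i a'
      else if c % 2 = 0 then .vv ρ (c / 2) ((i + m - 1) % m) (S.tag m ((i + m - 1) % m) a)
      else .vv ρ (c / 2) i (S.tag m i a) := by
  simp only [slot, h]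

theorem slot_none {ρ i a : ℕ} (h : S.f ρ (S.grp i) a = none) (c e : ℕ) :
    S.slot m ρ i a c e = .dd ρ i a c := by
  simp only [slot, h]

theorem mem_sl {x : Var} {z : S.Con m} (h : x ∈ S.sl m z) :
    ∃ e, S.slot m z.1 z.2.1 z.2.2.1 z.2.2.2 e = x := by
  simp only [sl, Multiset.insert_eq_cons, Multiset.mem_cons, Multiset.mem_singleton] at h
  rcases h with h | h | h <;> exact ⟨_, h.symm⟩

theorem slot_hh {ρ i a c e ρ' i' a' c' : ℕ} (h : S.slot m ρ i a c e = .hh ρ' i' a' c') :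
    ρ = ρ' ∧ i = i' ∧ a = a' ∧ (c = c' ∨ c = c' + 1) := by
  cases hf : S.f ρ (S.grp i) a with
  | none => rw [slot_none hf] at h; cases h
  | some a'' =>
    rw [slot_some hf] at h
    split_ifs at h <;> cases h <;> refine ⟨rfl, rfl, rfl, ?_⟩ <;> omega

theorem slot_vv {ρ i a c e ρ' t j : ℕ} {tg : Option ℕ} (h : S.slot m ρ i a c e = .vv ρ' t j tg) :
    c / 2 = t := by
  cases hf : S.f ρ (S.grp i) a with
  | none => rw [slot_none hf] at h; cases h
  | some a'' =>
    rw [slot_some hf] at h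
    split_ifs at h <;> cases h <;> rfl

theorem slot_ww {ρ i a c e i' v : ℕ} {y : Wire} (h : S.slot m ρ i a c e = .ww y i' v) :
    i = i' ∧ (c < 2 ∨ c = 2 * m + 14) ∧ S.IsVal y ρ i a v := by
  cases hf : S.f ρ (S.grp i) a with
  | none => rw [slot_none hf] at h; cases h
  | some a'' =>
    rw [slot_some hf] at h
    split_ifs at h <;> cases h <;> refine ⟨rfl, by omega, _, hf, ?_⟩ <;> simp

theorem cnt_hh {ρ i a c a'' : ℕ} (hf : S.f ρ (S.grp i) a = some a'') (ρ' i' a' c' : ℕ)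
    (hc' : c' + 1 < ncol m) :
    S.cnt m (.hh ρ' i' a' c') ρ i a c = if ρ = ρ' then if i = i' then if a = a' then
      (if c = c' then 1 else 0) + (if c = c' + 1 then 1 else 0) else 0 else 0 else 0 := by
  unfold ncol at hc'
  simp only [cnt, slot_some hf]
  by_cases h1 : ρ = ρ' <;> by_cases h2 : i = i' <;> by_cases h3 : a = a' <;>
    simp only [h1, h2, h3, if_true, if_false] <;>
    split_ifs <;> simp_all <;> omega

theorem pred_mod {i j : ℕ} (hi : i < m) (hj : j + 1 < m) : (i + m - 1) % m = j ↔ i = j + 1 := by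
  rcases Nat.eq_zero_or_pos i with rfl | h
  · rw [Nat.zero_add, Nat.mod_eq_of_lt (by omega)]; omega
  · rw [show i + m - 1 = (i - 1) + m by omega, Nat.add_mod_right, Nat.mod_eq_of_lt (by omega)]
    omega

theorem cnt_vv {ρ i a c a'' : ℕ} (hf : S.f ρ (S.grp i) a = some a'') (hi : i < m) (ρ' : ℕ) {t j : ℕ}
    (tg : Option ℕ) (ht : 1 ≤ t) (ht' : t ≤ m + 6) (hj : j + 1 < m) :
    S.cnt m (.vv ρ' t j tg) ρ i a c = if ρ = ρ' then
      (if i = j then (if S.tag m j a = tg then (if c = 2 * t + 1 then 1 else 0) else 0) else 0) +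
      (if i = j + 1 then (if S.tag m j a = tg then (if c = 2 * t then 1 else 0) else 0) else 0)
      else 0 := by
  have h0 : S.slot m ρ i a c 0 ≠ .vv ρ' t j tg := by
    rw [slot_some hf]; split_ifs <;> simp_all
  have h1 : S.slot m ρ i a c 1 ≠ .vv ρ' t j tg := by
    rw [slot_some hf]; split_ifs <;> simp_all
  have hp := pred_mod hi hj
  simp only [cnt, h0, h1, if_false, zero_add]
  by_cases hc : c / 2 = t
  · have e : S.slot m ρ i a c 2 = if c % 2 = 0 then
        .vv ρ t ((i + m - 1) % m) (S.tag m ((i + m - 1) % m) a) else .vv ρ t i (S.tag m i a) := by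
      rw [slot_some hf, if_neg (by omega), if_neg (by omega), if_neg (by omega), if_neg (by omega),
        if_neg (by omega), hc]
    rw [e]
    by_cases h2 : c % 2 = 0
    · have e1 : c = 2 * t := by omega
      have e2 : ¬ c = 2 * t + 1 := by omega
      rw [if_pos h2]
      by_cases h3 : i = j + 1
      · rw [hp.2 h3]
        have h4 : ¬ i = j := by omega
        simp only [Var.vv.injEq, true_and, h3, if_true, if_pos e1, if_neg e2]
        by_cases h5 : ρ = ρ' <;> by_cases h6 : S.tag m j a = tg <;> simp [h5, h6]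
      · have h4 : ¬ (i + m - 1) % m = j := fun h => h3 (hp.1 h)
        simp [h3, h4, e2]
    · have e1 : ¬ c = 2 * t := by omega
      have e2 : c = 2 * t + 1 := by omega
      rw [if_neg h2]
      by_cases h3 : i = j
      · subst h3
        simp only [Var.vv.injEq, true_and, if_true, if_neg e1, if_pos e2]
        by_cases h5 : ρ = ρ' <;> by_cases h6 : S.tag m i a = tg <;> simp [h5, h6]
      · simp [h3, e1]
  · have h2 : S.slot m ρ i a c 2 ≠ .vv ρ' t j tg := fun h => hc (slot_vv h)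
    have e1 : ¬ c = 2 * t := by omega
    have e2 : ¬ c = 2 * t + 1 := by omega
    simp [h2, e1, e2]

/-- How often `y` is a key of the rule `ρ`. -/
def kk (S : CS) (y : Wire) (ρ : ℕ) : ZMod 2 :=
  (if S.k1 ρ = y then 1 else 0) + (if S.k2 ρ = y then 1 else 0)

theorem anchorKK : True := by
  have := @kk.eq_1
  trivial

theorem cnt_ww {ρ i a c a'' : ℕ} (hf : S.f ρ (S.grp i) a = some a'') (y : Wire) (i' v : ℕ) :
    S.cnt m (.ww y i' v) ρ i a c = if i = i' then
      (if c = 1 then (if S.out ρ = y ∧ S.f ρ (S.grp i') a = some v then 1 else 0) else 0) +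
      (if a = v then (if c = 0 then S.kk y ρ else 0) + (if c = 2 * m + 14 then S.kk y ρ else 0)
        else 0) else 0 := by
  simp only [cnt, slot_some hf, kk]
  by_cases h2 : i = i'
  · subst h2
    rw [hf]
    by_cases c0 : c = 0
    · subst c0
      by_cases h3 : a = v <;> simp [h3]
    · by_cases c1 : c = 1
      · subst c1
        simp
      · by_cases c2 : c = 2 * m + 14
        · by_cases h3 : a = v <;> simp [h3, c2]
        · simp only [c0, c1, c2, if_false]
          split_ifs <;> simp_all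
  · simp only [h2, if_false]
    split_ifs <;> simp_all

/-! ### The local equations -/

variable {P : Finset (S.Con m)} {U : S.Con m → ZMod 2}

theorem zmod_eq_of_add {x y : ZMod 2} (h : x + y = 0) : x = y := by
  revert x y; decide

theorem loc_hh (hZ : Zs (S.sl m) P U) {ρ i a c : ℕ} (hc : c + 1 < ncol m)
    (h1 : ¬ S.Peb m P ρ i a c) (h2 : ¬ S.Peb m P ρ i a (c + 1)) :
    S.uu m U ρ i a c = S.uu m U ρ i a (c + 1) := by
  have h := hZ (.hh ρ i a c) (fun z hz hx => by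
    obtain ⟨e, he⟩ := mem_sl hx
    obtain ⟨e1, e2, e3, e4 | e4⟩ := slot_hh he
    · exact h1 ⟨z, hz, e1, e2, e3, e4⟩
    · exact h2 ⟨z, hz, e1, e2, e3, e4⟩)
  rw [bd_eq' U (by simp) _ (fun ρ' i' a' c' a'' _ _ _ _ hf => cnt_hh hf ρ i a c hc), sum_rule,
    sum_row, sum_sym] at h
  simp only [mul_add, sum_add_distrib, sum_col, mul_one] at h
  exact zmod_eq_of_add h

theorem loc_vv (hZ : Zs (S.sl m) P U) {t j : ℕ} (ρ : ℕ) (tg : Option ℕ) (ht : 1 ≤ t) (ht' : t ≤ m + 6)
    (hfree : ∀ z ∈ P, (z.2.2.2 : ℕ) / 2 ≠ t) (hj : j + 1 < m) :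
    ∑ a ∈ range S.nA, (if S.tag m j a = tg then S.uu m U ρ j a (2 * t + 1) else 0) =
      ∑ a ∈ range S.nA, (if S.tag m j a = tg then S.uu m U ρ (j + 1) a (2 * t) else 0) := by
  have h := hZ (.vv ρ t j tg) (fun z hz hx => by
    obtain ⟨e, he⟩ := mem_sl hx
    exact hfree z hz (slot_vv he))
  rw [bd_eq' U (by simp) _ (fun ρ' i' a' c' a'' _ hi _ _ hf => cnt_vv hf hi ρ tg ht ht' hj),
    sum_rule] at h
  simp only [mul_add, sum_add_distrib] at h
  rw [sum_row U ρ j (fun a c => if S.tag m j a = tg then (if c = 2 * t + 1 then 1 else 0) else 0),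
    sum_row U ρ (j + 1) (fun a c => if S.tag m j a = tg then (if c = 2 * t then 1 else 0) else 0)]
    at h
  refine Eq.trans ?_ ((zmod_eq_of_add h).trans ?_) <;> refine sum_congr rfl fun a _ => ?_ <;>
    split_ifs <;> simp only [sum_col, mul_one, mul_zero, sum_const_zero]

theorem loc_ww (hZ : Zs (S.sl m) P U) (y : Wire) (i v : ℕ)
    (h : ∀ z ∈ P, (z.2.1 : ℕ) = i → ((z.2.2.2 : ℕ) < 2 ∨ (z.2.2.2 : ℕ) = 2 * m + 14) →
      ¬ S.IsVal y z.1 i z.2.2.1 v) :
    ∑ ρ ∈ range S.nR, ((∑ a ∈ range S.nA,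
      if S.out ρ = y ∧ S.f ρ (S.grp i) a = some v then S.uu m U ρ i a 1 else 0) +
      S.kk y ρ * (S.uu m U ρ i v 0 + S.uu m U ρ i v (2 * m + 14))) = 0 := by
  have h := hZ (.ww y i v) (fun z hz hx => by
    obtain ⟨e, he⟩ := mem_sl hx
    obtain ⟨e1, e2, e3⟩ := slot_ww he
    exact h z hz e1 e2 (e1 ▸ e3))
  rw [bd_eq' U (by simp) _ (fun ρ' i' a' c' a'' _ _ _ _ hf => cnt_ww hf y i v)] at h
  refine Eq.trans (sum_congr rfl fun ρ _ => ?_) h
  rw [sum_row U ρ i (fun a c =>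
    (if c = 1 then (if S.out ρ = y ∧ S.f ρ (S.grp i) a = some v then 1 else 0) else 0) +
      (if a = v then (if c = 0 then S.kk y ρ else 0) + (if c = 2 * m + 14 then S.kk y ρ else 0)
        else 0))]
  simp only [mul_add, sum_add_distrib]
  rw [sum_sym U ρ i v (fun c => (if c = 0 then S.kk y ρ else 0) +
    (if c = 2 * m + 14 then S.kk y ρ else 0))]
  simp only [mul_add, sum_add_distrib, sum_col, mul_comm (S.kk y ρ)]
  congr 1
  refine sum_congr rfl fun a _ => ?_
  split_ifs <;> simp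

end CS

end Crest.Agent.R290
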