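import Crest.Agent.R290.Xor
import Crest.Agent.R290.CoreLoc

/-!
# Row 290: if the goal is never true, the twisted system is consistent for `m + 5` pebbles
-/

set_option autoImplicit false

namespace Crest.Agent.R290

namespace CS

open Finset

variable (S : CS) (m : ℕ)

/-- The column pair `t` carries no pebble. -/
def Free (P : Finset (S.Con m)) (t : ℕ) : Prop :=
  1 ≤ t ∧ t ≤ m + 6 ∧ ∀ z ∈ P, (z.2.2.2 : ℕ) / 2 ≠ t

/-- The parity of the wall `ρ` in row `i`, column `c`. -/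
def par (U : S.Con m → ZMod 2) (ρ i c : ℕ) : ZMod 2 := ∑ a ∈ range S.nA, S.uu m U ρ i a c

/-- The total parity of the producers of the wire `y`. -/
def om (U : S.Con m → ZMod 2) (t : ℕ) (y : Wire) : ZMod 2 :=
  ∑ ρ ∈ range S.nR, if 0 < ρ ∧ S.out ρ = y then S.par m U ρ 0 (2 * t) else 0

/-- The pebbles point to the position `q` of the wire `y`. -/
def Pos (P : Finset (S.Con m)) (y : Wire) (q : ℕ → ℕ) : Prop :=
  ∀ i < m, ∃ z ∈ P, (z.2.1 : ℕ) = i ∧ S.IsVal y z.1 i z.2.2.1 (q (S.grp i))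

/-- The pebbles point to a true position of the wire `y`. -/
def TT (P : Finset (S.Con m)) (y : Wire) : Prop :=
  ∃ q : ℕ → ℕ, S.Pos m P y q ∧ S.Tr y fun j => q j

/-- The weight of the symbol `v` among the producers of `y` in row `i`, column `c`. -/
def Om (U : S.Con m → ZMod 2) (y : Wire) (i v c : ℕ) : ZMod 2 :=
  ∑ ρ ∈ range S.nR, ∑ a ∈ range S.nA,
    if S.out ρ = y ∧ S.f ρ (S.grp i) a = some v then S.uu m U ρ i a c else 0

theorem anchorSound : True := by
  have := @Free.eq_1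
  have := @par.eq_1
  have := @om.eq_1
  have := @Pos.eq_1
  have := @TT.eq_1
  have := @Om.eq_1
  trivial

variable {S m} {P P' : Finset (S.Con m)} {U : S.Con m → ZMod 2}

theorem zmod_ne {x y : ZMod 2} (h : x ≠ y) : x + y = 1 := by
  revert x y; decide

theorem zmod_ne_zero {x : ZMod 2} (h : x ≠ 0) : x = 1 := by
  revert x; decide

theorem zmod_add_self (x : ZMod 2) : x + x = 0 := by
  revert x; decide

/-! ### Counting pebbles -/

theorem exists_free (hP : P.card ≤ m + 5) : ∃ t, S.Free m P t := by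
  by_contra h
  have hsub : Icc 1 (m + 6) ⊆ P.image fun z => (z.2.2.2 : ℕ) / 2 := by
    intro t ht
    rw [mem_Icc] at ht
    by_contra h2
    exact h ⟨t, ht.1, ht.2, fun z hz e => h2 (mem_image.2 ⟨z, hz, e⟩)⟩
  have h1 := card_le_card hsub
  have h2 := card_image_le (s := P) (f := fun z : S.Con m => (z.2.2.2 : ℕ) / 2)
  rw [Nat.card_Icc] at h1
  omega

theorem Free.anti {t : ℕ} (h : S.Free m P' t) (hP : P ⊆ P') : S.Free m P t :=
  ⟨h.1, h.2.1, fun z hz => h.2.2 z (hP hz)⟩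

theorem Free.not_peb {t ρ i a c : ℕ} (h : S.Free m P t) (hc : c / 2 = t) : ¬ S.Peb m P ρ i a c := by
  rintro ⟨z, hz, -, -, -, e⟩
  exact h.2.2 z hz (e ▸ hc)

/-- If all rows carry a pebble and the rows in `A` carry two, there are `m + |A|` pebbles. -/
theorem card_ge (A : Finset ℕ) (hA : A ⊆ range m) (h1 : ∀ i < m, ∃ z ∈ P, (z.2.1 : ℕ) = i)
    (h2 : ∀ i ∈ A, ∃ z ∈ P, ∃ z' ∈ P, z ≠ z' ∧ (z.2.1 : ℕ) = i ∧ (z'.2.1 : ℕ) = i) :
    m + A.card ≤ P.card := by
  rw [card_eq_sum_card_fiberwise (f := fun z : S.Con m => (z.2.1 : ℕ)) (t := range m)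
    (fun z _ => mem_coe.2 (mem_range.2 z.2.1.2))]
  have e : m + A.card = ∑ i ∈ range m, (1 + if i ∈ A then 1 else 0) := by
    rw [sum_add_distrib, sum_ite_mem, inter_eq_right.2 hA]; simp
  rw [e]
  refine sum_le_sum fun i hi => ?_
  split_ifs with hi'
  · obtain ⟨z, hz, z', hz', hne, e1, e2⟩ := h2 i hi'
    exact one_lt_card.2 ⟨z, mem_filter.2 ⟨hz, e1⟩, z', mem_filter.2 ⟨hz', e2⟩, hne⟩
  · obtain ⟨z, hz, e1⟩ := h1 i (mem_range.1 hi)
    exact card_pos.2 ⟨z, mem_filter.2 ⟨hz, e1⟩⟩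

theorem exists_clean (hm : 6 ≤ m) (hP : P.card ≤ m + 5) (h1 : ∀ i < m, ∃ z ∈ P, (z.2.1 : ℕ) = i) :
    ∃ i < m, ∀ z ∈ P, ∀ z' ∈ P, (z.2.1 : ℕ) = i → (z'.2.1 : ℕ) = i → z = z' := by
  by_contra h
  push Not at h
  have := card_ge (range m) subset_rfl h1 fun i hi => by
    obtain ⟨z, hz, z', hz', e1, e2, hne⟩ := h i (mem_range.1 hi)
    exact ⟨z, hz, z', hz', hne, e1, e2⟩
  rw [card_range] at this
  omega

theorem grp_lt (hS : S.WF) (i : ℕ) : S.grp i < S.k := by
  have := hS.kpos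
  unfold grp; omega

theorem grp_eq {j i : ℕ} (hj : j < S.k) (h1 : 16 * j ≤ i) (h2 : i < 16 * j + 16) : S.grp i = j := by
  unfold grp; omega

theorem IsVal.unique (hS : S.WF) {y : Wire} {ρ i a v v' : ℕ} (hρ : ρ < S.nR)
    (h : S.IsVal y ρ i a v) (h' : S.IsVal y ρ i a v') : v = v' := by
  obtain ⟨b, hb, h⟩ := h
  obtain ⟨b', hb', h'⟩ := h'
  rw [hb, Option.some.injEq] at hb'
  have h1 := hS.out1 ρ hρ
  have h2 := hS.out2 ρ hρ
  rcases h with ⟨e1, e2⟩ | ⟨e1 | e1, e2⟩ <;> rcases h' with ⟨e3, e4⟩ | ⟨e3 | e3, e4⟩ <;> simp_all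

theorem Pos.mono {y : Wire} {q : ℕ → ℕ} (h : S.Pos m P y q) (hP : P ⊆ P') : S.Pos m P' y q :=
  fun i hi => let ⟨z, hz, e⟩ := h i hi; ⟨z, hP hz, e⟩

theorem Pos.unique (hS : S.WF) (hm : 16 * S.k ≤ m) (hP : P.card ≤ m + 5) {y : Wire} {q q' : ℕ → ℕ}
    (h : S.Pos m P y q) (h' : S.Pos m P y q') :
    (fun j : Fin S.k => q j) = fun j : Fin S.k => q' j := by
  funext j
  by_contra hne
  have hj := j.2
  have := card_ge (P := P) (Ico (16 * j) (16 * j + 16))
    (fun i hi => by rw [mem_Ico] at hi; rw [mem_range]; omega)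
    (fun i hi => let ⟨z, hz, e, _⟩ := h i hi; ⟨z, hz, e⟩) fun i hi => by
      rw [mem_Ico] at hi
      have hg := grp_eq hj hi.1 hi.2
      obtain ⟨z, hz, e, hv⟩ := h i (by omega)
      obtain ⟨z', hz', e', hv'⟩ := h' i (by omega)
      refine ⟨z, hz, z', hz', ?_, e, e'⟩
      rintro rfl
      rw [hg] at hv hv'
      exact hne (hv.unique hS z.1.2 hv')
  rw [Nat.card_Ico] at this
  omega

/-! ### Tracks, groups and parities -/

theorem track_const (hZ : Zs (S.sl m) P U) {ρ i a c c' : ℕ} (hc : c ≤ c') (hc' : c' < ncol m)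
    (h : ∀ e, c ≤ e → e ≤ c' → ¬ S.Peb m P ρ i a e) : S.uu m U ρ i a c = S.uu m U ρ i a c' := by
  induction c', hc using Nat.le_induction with
  | base => rfl
  | succ n hn ih =>
    rw [ih (by omega) fun e h1 h2 => h e h1 (by omega)]
    exact loc_hh hZ hc' (h n hn (by omega)) (h (n + 1) (by omega) le_rfl)

theorem track_const' (hZ : Zs (S.sl m) P U) {ρ i a c c' : ℕ} (hc : c < ncol m) (hc' : c' < ncol m)
    (h : ∀ e, ¬ S.Peb m P ρ i a e) : S.uu m U ρ i a c = S.uu m U ρ i a c' := by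
  rcases le_total c c' with h1 | h1
  · exact track_const hZ h1 hc' fun e _ _ => h e
  · exact (track_const hZ h1 hc fun e _ _ => h e).symm

theorem Free.lt {t : ℕ} (h : S.Free m P t) : 2 * t + 1 < ncol m := by
  have := h.2.1
  unfold ncol; omega

theorem pair_eq (hZ : Zs (S.sl m) P U) {t : ℕ} (ht : S.Free m P t) (ρ i a : ℕ) :
    S.uu m U ρ i a (2 * t) = S.uu m U ρ i a (2 * t + 1) :=
  loc_hh hZ ht.lt (ht.not_peb (by omega)) (ht.not_peb (by omega))

theorem step_eq (hZ : Zs (S.sl m) P U) {t : ℕ} (ht : S.Free m P t) (ρ a : ℕ) {j : ℕ} (hj : j + 1 < m)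
    (hg : S.grp j = S.grp (j + 1)) : S.uu m U ρ j a (2 * t) = S.uu m U ρ (j + 1) a (2 * t) := by
  have h := loc_vv hZ ρ (some a) ht.1 ht.2.1 ht.2.2 hj
  have e : ∀ b, S.tag m j b = some b := fun b => by
    unfold tag; rw [Nat.mod_eq_of_lt hj, if_pos hg]
  simp only [e, Option.some.injEq, sum_ite_eq', mem_range] at h
  rw [pair_eq hZ ht]
  split_ifs at h with ha
  · exact h
  · by_contra hne
    by_cases h1 : S.uu m U ρ j a (2 * t + 1) = 0
    · exact ha (uu_ne_zero fun h2 => hne (h1.trans h2.symm)).2.2.1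
    · exact ha (uu_ne_zero h1).2.2.1

theorem step_par (hZ : Zs (S.sl m) P U) {t : ℕ} (ht : S.Free m P t) (ρ : ℕ) {j : ℕ} (hj : j + 1 < m) :
    S.par m U ρ j (2 * t) = S.par m U ρ (j + 1) (2 * t) := by
  by_cases hg : S.grp j = S.grp (j + 1)
  · exact sum_congr rfl fun a _ => step_eq hZ ht ρ a hj hg
  · have h := loc_vv hZ ρ none ht.1 ht.2.1 ht.2.2 hj
    have e : ∀ b, S.tag m j b = none := fun b => by
      unfold tag; rw [Nat.mod_eq_of_lt hj, if_neg hg]
    simp only [e, if_true] at h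
    exact (sum_congr rfl fun a _ => pair_eq hZ ht ρ j a).trans h

theorem par_eq (hZ : Zs (S.sl m) P U) {t : ℕ} (ht : S.Free m P t) (ρ : ℕ) {i : ℕ} (hi : i < m) :
    S.par m U ρ i (2 * t) = S.par m U ρ 0 (2 * t) := by
  induction i with
  | zero => rfl
  | succ i ih => rw [← step_par hZ ht ρ hi, ih (by omega)]

theorem group_eq (hZ : Zs (S.sl m) P U) {t : ℕ} (ht : S.Free m P t) (ρ a : ℕ) {i : ℕ} (hi : i < m) :
    S.uu m U ρ i a (2 * t) = S.uu m U ρ (16 * S.grp i) a (2 * t) := by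
  have key : ∀ j, 16 * S.grp i ≤ j → j ≤ i →
      S.uu m U ρ j a (2 * t) = S.uu m U ρ (16 * S.grp i) a (2 * t) := by
    intro j hj
    induction j, hj using Nat.le_induction with
    | base => intro _; rfl
    | succ n hn ih =>
      intro h
      rw [← step_eq hZ ht ρ a (by omega) (by unfold grp at hn ⊢; omega), ih (by omega)]
  exact key i (by unfold grp; omega) le_rfl

theorem grp_grp (i : ℕ) : S.grp (16 * S.grp i) = S.grp i := by
  simp only [grp]; omega

theorem Om_group (hZ : Zs (S.sl m) P U) {t : ℕ} (ht : S.Free m P t) (y : Wire) (v : ℕ) {i : ℕ}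
    (hi : i < m) : S.Om m U y i v (2 * t) = S.Om m U y (16 * S.grp i) v (2 * t) := by
  unfold Om
  rw [grp_grp]
  exact sum_congr rfl fun ρ _ => sum_congr rfl fun a _ => by rw [group_eq hZ ht ρ a hi]

theorem sum_sym_out (hS : S.WF) (y : Wire) {ρ : ℕ} (hρ : ρ < S.nR) (i c : ℕ) :
    ∑ v ∈ range S.nA, ∑ a ∈ range S.nA,
      (if S.out ρ = y ∧ S.f ρ (S.grp i) a = some v then S.uu m U ρ i a c else 0) =
      if S.out ρ = y then S.par m U ρ i c else 0 := by
  rw [sum_comm]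
  split_ifs with hy
  · refine sum_congr rfl fun a ha => ?_
    by_cases h : S.uu m U ρ i a c = 0
    · simp [h]
    · obtain ⟨-, -, -, -, v, hv⟩ := uu_ne_zero h
      have hv' := hS.bnd ρ hρ _ (grp_lt hS i) a (mem_range.1 ha) v hv
      simp [hy, hv, hv']
  · simp [hy]

theorem sum_Om (hS : S.WF) (y : Wire) (i c : ℕ) :
    ∑ v ∈ range S.nA, S.Om m U y i v c =
      ∑ ρ ∈ range S.nR, if S.out ρ = y then S.par m U ρ i c else 0 := by
  unfold Om
  rw [sum_comm]
  exact sum_congr rfl fun ρ hρ => sum_sym_out hS y (mem_range.1 hρ) i c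

theorem om_eq (hZ : Zs (S.sl m) P U) {t : ℕ} (ht : S.Free m P t) {y : Wire} (hy : y ≠ S.out 0)
    {i : ℕ} (hi : i < m) :
    S.om m U t y = ∑ ρ ∈ range S.nR, if S.out ρ = y then S.par m U ρ i (2 * t) else 0 := by
  refine sum_congr rfl fun ρ _ => ?_
  rw [par_eq hZ ht ρ hi]
  rcases Nat.eq_zero_or_pos ρ with rfl | h
  · simp [hy.symm]
  · simp [h]

/-- A row without a pebble pointing to the symbol `v` of `y` gives this symbol weight zero. -/
theorem Om_eq_zero (hZ : Zs (S.sl m) P U) {c : ℕ} (hc : c < ncol m) {y : Wire} {i v : ℕ}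
    (h : ∀ z ∈ P, (z.2.1 : ℕ) = i → ¬ S.IsVal y z.1 i z.2.2.1 v) : S.Om m U y i v c = 0 := by
  refine Eq.trans (sum_congr rfl fun ρ _ => ?_) (loc_ww hZ y i v fun z hz e _ => h z hz e)
  have hn : 2 * m + 14 < ncol m := by unfold ncol; omega
  have e2 : S.kk y ρ * (S.uu m U ρ i v 0 + S.uu m U ρ i v (2 * m + 14)) = 0 := by
    by_cases hk : S.k1 ρ = y ∨ S.k2 ρ = y
    · cases hf : S.f ρ (S.grp i) v with
      | none =>
        have : ∀ e, S.uu m U ρ i v e = 0 := fun e => by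
          by_contra h1
          obtain ⟨-, -, -, -, v', hv'⟩ := uu_ne_zero h1
          rw [hf] at hv'; cases hv'
        simp [this]
      | some v' =>
        rw [track_const' hZ (by omega) hn, zmod_add_self, mul_zero]
        rintro e ⟨z, hz, rfl, e1, rfl, -⟩
        exact h z hz e1 ⟨v', hf, Or.inr ⟨hk, rfl⟩⟩
    · push Not at hk
      simp [kk, hk.1, hk.2]
  rw [e2, add_zero]
  refine sum_congr rfl fun a _ => ?_
  split_ifs with h1
  · refine track_const' hZ hc (by omega) ?_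
    rintro e ⟨z, hz, rfl, e1, rfl, -⟩
    exact h z hz e1 ⟨v, h1.2, Or.inl ⟨h1.1, rfl⟩⟩
  · rfl

/-- An odd wire other than the goal is pointed to. -/
theorem exists_pos (hS : S.WF) (hZ : Zs (S.sl m) P U) {t : ℕ} (ht : S.Free m P t) {y : Wire}
    (hy : y ≠ S.out 0) (h : S.om m U t y = 1) : ∃ q, S.Pos m P y q := by
  have key : ∀ j, ∃ v, 16 * j < m → S.Om m U y (16 * j) v (2 * t) ≠ 0 := by
    intro j
    by_cases hj : 16 * j < m
    · by_contra h1
      push Not at h1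
      rw [om_eq hZ ht hy hj, ← sum_Om hS, sum_eq_zero fun v _ => (h1 v).2] at h
      exact zero_ne_one h
    · exact ⟨0, fun h => absurd h hj⟩
  choose q hq using key
  refine ⟨q, fun i hi => ?_⟩
  by_contra h1
  push Not at h1
  have h2 := Om_eq_zero hZ (c := 2 * t) (by have := ht.lt; omega) h1
  rw [Om_group hZ ht y _ hi] at h2
  exact hq _ (by unfold grp; omega) h2

/-- A wall whose parity changes between two free pairs carries a pebble in each row. -/
theorem exists_cross (hZ : Zs (S.sl m) P U) {t t' : ℕ} (ht : S.Free m P t) (ht' : S.Free m P t')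
    (htt : t ≤ t') {ρ : ℕ} (h : S.par m U ρ 0 (2 * t) ≠ S.par m U ρ 0 (2 * t')) :
    ∃ p : ℕ → ℕ, ∀ i < m, ρ < S.nR ∧ p (S.grp i) < S.nA ∧
      (∃ v, S.f ρ (S.grp i) (p (S.grp i)) = some v) ∧
      ∃ c, 2 * t ≤ c ∧ c ≤ 2 * t' ∧ S.Peb m P ρ i (p (S.grp i)) c := by
  have key : ∀ j, ∃ a, 16 * j < m →
      S.uu m U ρ (16 * j) a (2 * t) ≠ S.uu m U ρ (16 * j) a (2 * t') := by
    intro j
    by_cases hj : 16 * j < m
    · by_contra h1
      push Not at h1
      rw [← par_eq hZ ht ρ hj, ← par_eq hZ ht' ρ hj] at h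
      exact h (sum_congr rfl fun a _ => (h1 a).2)
    · exact ⟨0, fun h => absurd h hj⟩
  choose p hp using key
  refine ⟨p, fun i hi => ?_⟩
  have h1 := hp (S.grp i) (by unfold grp; omega)
  rw [← group_eq hZ ht ρ _ hi, ← group_eq hZ ht' ρ _ hi] at h1
  have h2 : ∃ c, S.uu m U ρ i (p (S.grp i)) c ≠ 0 := by
    by_contra h2
    push Not at h2
    exact h1 ((h2 _).trans (h2 _).symm)
  obtain ⟨c, hc⟩ := h2
  obtain ⟨h3, -, h4, -, h5⟩ := uu_ne_zero hc
  refine ⟨h3, h4, h5, ?_⟩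
  by_contra h6
  push Not at h6
  exact h1 (track_const hZ (by omega) (by have := ht'.lt; omega) h6)

/-- The keys of a wall whose parity changes are odd. -/
theorem om_key (hS : S.WF) (hZ : Zs (S.sl m) P U) {t t' s : ℕ} (ht : S.Free m P t)
    (ht' : S.Free m P t') (hs : S.Free m P s) {ρ : ℕ} (hρ : ρ < S.nR)
    (h : S.par m U ρ 0 (2 * t) ≠ S.par m U ρ 0 (2 * t')) {i a c : ℕ} (hi : i < m)
    (hcl : ∀ z ∈ P, ∀ z' ∈ P, (z.2.1 : ℕ) = i → (z'.2.1 : ℕ) = i → z = z')
    (hc : 2 * t ≤ c) (hc' : c ≤ 2 * t') (hp : S.Peb m P ρ i a c) {x : Wire} (hx : S.kk x ρ = 1) :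
    S.om m U s x = 1 := by
  have hn : 2 * m + 14 < ncol m := by unfold ncol; omega
  have hk : S.k1 ρ = x ∨ S.k2 ρ = x := by
    by_contra h1
    push Not at h1
    simp [kk, h1.1, h1.2] at hx
  have hxg : x ≠ S.out 0 := by
    rcases hk with rfl | rfl
    · exact hS.goal1 ρ hρ
    · exact hS.goal2 ρ hρ
  have hxo : S.out ρ ≠ x := by
    rcases hk with rfl | rfl
    · exact hS.out1 ρ hρ
    · exact hS.out2 ρ hρ
  have l1 := ht.lt
  have l2 := ht'.lt
  have l3 := hs.lt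
  have l4 := ht.1
  have l5 := ht'.2.1
  have c1 : c / 2 ≠ t := fun e => ht.not_peb e hp
  have c2 : c / 2 ≠ t' := fun e => ht'.not_peb e hp
  obtain ⟨z, hz, z1, z2, z3, z4⟩ := hp
  have uniq : ∀ ρ' a' e, S.Peb m P ρ' i a' e → ρ' = ρ ∧ e = c := by
    rintro ρ' a' e ⟨z', hz', e1, e2, -, e4⟩
    obtain rfl := hcl z hz z' hz' z2 e2
    exact ⟨e1.symm.trans z1, e4.symm.trans z4⟩
  have hw : ∀ v ∈ range S.nA, ∑ ρ' ∈ range S.nR, ((∑ a ∈ range S.nA,
      if S.out ρ' = x ∧ S.f ρ' (S.grp i) a = some v then S.uu m U ρ' i a 1 else 0) +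
      S.kk x ρ' * (S.uu m U ρ' i v 0 + S.uu m U ρ' i v (2 * m + 14))) = 0 := fun v _ =>
    loc_ww hZ x i v fun z' hz' e1 e2 _ => by
      obtain rfl := hcl z hz z' hz' z2 e1
      omega
  have hw2 := sum_eq_zero hw
  rw [sum_comm] at hw2
  have hw3 : ∀ ρ' ∈ range S.nR, ∑ v ∈ range S.nA, ((∑ a ∈ range S.nA,
      if S.out ρ' = x ∧ S.f ρ' (S.grp i) a = some v then S.uu m U ρ' i a 1 else 0) +
      S.kk x ρ' * (S.uu m U ρ' i v 0 + S.uu m U ρ' i v (2 * m + 14))) =
      (if S.out ρ' = x then S.par m U ρ' i (2 * s) else 0) + if ρ' = ρ then 1 else 0 := by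
    intro ρ' hρ'
    rw [sum_add_distrib, sum_sym_out hS x (mem_range.1 hρ')]
    by_cases e : ρ' = ρ
    · subst e
      rw [if_neg hxo, if_neg hxo, if_pos rfl, hx]
      simp only [one_mul, zero_add, sum_add_distrib]
      rw [← zmod_ne h, ← par_eq hZ ht ρ' hi, ← par_eq hZ ht' ρ' hi]
      congr 1
      · refine sum_congr rfl fun v _ => track_const hZ (by omega) (by omega) fun e _ _ he => ?_
        have := (uniq _ _ _ he).2
        omega
      · refine sum_congr rfl fun v _ => (track_const hZ (by omega) hn fun e _ _ he => ?_).symm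
        have := (uniq _ _ _ he).2
        omega
    · have hno : ∀ v e', ¬ S.Peb m P ρ' i v e' := fun v e' he => e (uniq _ _ _ he).1
      rw [if_neg e]
      congr 1
      · split_ifs
        · exact sum_congr rfl fun v _ => track_const' hZ (by omega) (by omega) (hno v)
        · rfl
      · refine sum_eq_zero fun v _ => ?_
        rw [track_const' hZ (by omega) hn (hno v), zmod_add_self, mul_zero]
  rw [sum_congr rfl hw3, sum_add_distrib, ← om_eq hZ hs hxg hi] at hw2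
  simp only [sum_ite_eq', mem_range, hρ, if_true] at hw2
  exact zmod_eq_of_add hw2

/-- The output of a wall whose parity changes is true at the position of the pebbles. -/
theorem tt_of_cross (hS : S.WF) (hm : 16 * S.k ≤ m) (hP : P.card ≤ m + 5) (hZ : Zs (S.sl m) P U)
    {t t' s : ℕ} (ht : S.Free m P t) (ht' : S.Free m P t') (hs : S.Free m P s) (htt : t ≤ t')
    (hD : ∀ y, S.om m U s y = 1 → S.TT m P y) {ρ : ℕ} (h0 : 0 < ρ)
    (h : S.par m U ρ 0 (2 * t) ≠ S.par m U ρ 0 (2 * t')) : S.TT m P (S.out ρ) := by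
  have hk := hS.kpos
  obtain ⟨p, hp⟩ := exists_cross hZ ht ht' htt h
  have hρ : ρ < S.nR := (hp 0 (by omega)).1
  let q : ℕ → ℕ := fun j => (S.f ρ j (p j)).getD 0
  have hq : ∀ i < m, S.f ρ (S.grp i) (p (S.grp i)) = some (q (S.grp i)) := fun i hi => by
    obtain ⟨v, hv⟩ := (hp i hi).2.2.1
    simp only [q, hv, Option.getD_some]
  have hstep : S.Step ρ (fun j => p j) fun j => q j := fun j => by
    have hj := j.2
    have e : S.grp (16 * j) = j := grp_eq hj le_rfl (by omega)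
    have h1 := (hp (16 * j) (by omega)).2.1
    have h2 := hq (16 * j) (by omega)
    rw [e] at h1 h2
    exact ⟨h1, h2⟩
  have hposq : S.Pos m P (S.out ρ) q := fun i hi => by
    obtain ⟨c, -, -, z, hz, e1, e2, e3, -⟩ := (hp i hi).2.2.2
    exact ⟨z, hz, e2, by rw [e1, e3]; exact ⟨_, hq i hi, Or.inl ⟨rfl, rfl⟩⟩⟩
  refine ⟨q, hposq, ?_⟩
  by_cases hkk : S.k1 ρ = S.k2 ρ
  · exact Tr.src h0 hρ hkk hstep
  · obtain ⟨i, hi, hcl⟩ := exists_clean (by omega) hP fun i hi =>
      let ⟨z, hz, e, _⟩ := hposq i hi; ⟨z, hz, e⟩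
    obtain ⟨c, hc, hc', hpc⟩ := (hp i hi).2.2.2
    have key : ∀ x, (S.k1 ρ = x ∨ S.k2 ρ = x) → S.Tr x fun j => p j := by
      intro x hx
      have hx1 : S.kk x ρ = 1 := by
        rcases hx with rfl | rfl
        · simp [kk, Ne.symm hkk]
        · simp [kk, hkk]
      obtain ⟨q', hq', hT⟩ := hD x (om_key hS hZ ht ht' hs hρ h hi hcl hc hc' hpc hx1)
      have hpp : S.Pos m P x p := fun i hi => by
        obtain ⟨c, -, -, z, hz, e1, e2, e3, -⟩ := (hp i hi).2.2.2
        exact ⟨z, hz, e2, by rw [e1, e3]; exact ⟨_, hq i hi, Or.inr ⟨hx, rfl⟩⟩⟩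
      rwa [hpp.unique hS hm hP hq']
    exact Tr.both h0 hρ (key _ (Or.inl rfl)) (key _ (Or.inr rfl)) hstep

/-- The condition does not depend on the free pair. -/
theorem tt_of_free (hS : S.WF) (hm : 16 * S.k ≤ m) (hP : P.card ≤ m + 5) (hZ : Zs (S.sl m) P U)
    {t s : ℕ} (ht : S.Free m P t) (hs : S.Free m P s) (hD : ∀ y, S.om m U s y = 1 → S.TT m P y)
    {y : Wire} (hy : S.om m U t y = 1) : S.TT m P y := by
  by_cases e : S.om m U s y = S.om m U t y
  · exact hD y (e.trans hy)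
  · have key : ∃ ρ, 0 < ρ ∧ S.out ρ = y ∧ S.par m U ρ 0 (2 * s) ≠ S.par m U ρ 0 (2 * t) := by
      by_contra h1
      push Not at h1
      refine e (sum_congr rfl fun ρ _ => ?_)
      split_ifs with h2
      · exact h1 ρ h2.1 h2.2
      · rfl
    obtain ⟨ρ, h0, rfl, hρ⟩ := key
    rcases le_total s t with h1 | h1
    · exact tt_of_cross hS hm hP hZ hs ht hs h1 hD h0 hρ
    · exact tt_of_cross hS hm hP hZ ht hs hs h1 hD h0 hρ.symm

theorem om_zero (t : ℕ) (y : Wire) : S.om m 0 t y = 0 := by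
  simp [om, par, uu_zero]

theorem om_add (U U' : S.Con m → ZMod 2) (t : ℕ) (y : Wire) :
    S.om m (U + U') t y = S.om m U t y + S.om m U' t y := by
  unfold om par
  rw [← sum_add_distrib]
  refine sum_congr rfl fun ρ _ => ?_
  split_ifs
  · simp only [uu_add, sum_add_distrib]
  · simp

theorem om_single {z : S.Con m} (hz : z ∈ P) {t : ℕ} (ht : S.Free m P t) (y : Wire) :
    S.om m (Pi.single z 1) t y = 0 := by
  refine sum_eq_zero fun ρ _ => ?_
  split_ifs
  · refine sum_eq_zero fun a _ => ?_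
    by_contra h
    exact ht.2.2 z hz (by rw [(uu_single h).2.2.2]; omega)
  · rfl

/-- The charge of a combination is the parity of the special wall at its corner. -/
theorem charge_eq (hS : S.WF) (U : S.Con m → ZMod 2) :
    ∑ z, U z * S.bst m z = S.par m U 0 0 0 := by
  have e : ∑ z, U z * S.bst m z = ∑ ρ ∈ range S.nR, ∑ i ∈ range m, ∑ a ∈ range S.nA,
      ∑ c ∈ range (ncol m), S.uu m U ρ i a c *
        (if ρ = 0 then (if i = 0 then (if c = 0 then 1 else 0) else 0) else 0) := by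
    simp only [Fintype.sum_prod_type, ← Fin.sum_univ_eq_sum_range]
    refine sum_congr rfl fun ρ _ => sum_congr rfl fun i _ => sum_congr rfl fun a _ =>
      sum_congr rfl fun c _ => ?_
    unfold uu bst
    rw [dif_pos ⟨ρ.2, i.2, a.2, c.2⟩]
    by_cases h0 : (ρ : ℕ) = 0
    · have h1 : (S.f ρ (S.grp i) a).isSome = true := by rw [h0, hS.antif]; rfl
      rw [if_pos h1]
      congr 1
      by_cases h2 : (i : ℕ) = 0 <;> by_cases h3 : (c : ℕ) = 0 <;> simp [h0, h2, h3]
    · simp [h0]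
  rw [e, sum_rule U 0 (fun i _ c => if i = 0 then (if c = 0 then 1 else 0) else 0),
    sum_row U 0 0 (fun _ c => if c = 0 then 1 else 0)]
  simp only [sum_col, mul_one, par]

end CS

open Finset in
theorem core_sound {S : CS} (hS : S.WF) {m : ℕ} (hm : 16 * S.k ≤ m)
    (h : ∀ q, ¬ S.Tr (S.out 0) q) : Consistent (S.sl m) (S.bst m) (m + 5) := by
  have hk := hS.kpos
  refine consistent_of_dual (fun P U => ∀ t, S.Free m P t → ∀ y, S.om m U t y = 1 → S.TT m P y)
    ?_ ?_ ?_ ?_ ?_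
  · intro P t _ y hy
    rw [CS.om_zero] at hy
    exact absurd hy zero_ne_one
  · intro P U U' _ _ _ h1 h2 t ht y hy
    rw [CS.om_add] at hy
    by_cases e : S.om m U t y = 0
    · exact h2 t ht y (by rwa [e, zero_add] at hy)
    · exact h1 t ht y (CS.zmod_ne_zero e)
  · intro P z hz _ t ht y hy
    rw [CS.om_single hz ht] at hy
    exact absurd hy zero_ne_one
  · intro P P' U hPP hP' hZ
    constructor
    · intro hD t ht y hy
      obtain ⟨q, hq, hT⟩ := hD t (ht.anti hPP) y hy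
      exact ⟨q, hq.mono hPP, hT⟩
    · intro hD t ht y hy
      obtain ⟨s, hs⟩ := CS.exists_free hP'
      refine CS.tt_of_free hS hm ((card_le_card hPP).trans hP') hZ ht (hs.anti hPP) ?_ hy
      intro x hx
      obtain ⟨q', hq', hT⟩ := hD s hs x hx
      obtain ⟨q, hq⟩ := CS.exists_pos hS hZ (hs.anti hPP) (y := x) (fun e => h _ (e ▸ hT)) hx
      exact ⟨q, hq, by rw [(hq.mono hPP).unique hS hm hP' hq']; exact hT⟩
  · intro U hZ hD
    have hf : S.Free m ∅ 1 := ⟨le_rfl, by omega, fun z hz => absurd hz (notMem_empty z)⟩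
    have l1 := hf.lt
    have h1 : S.om m U 1 (S.out 0) = 0 := by
      by_contra e
      obtain ⟨q, -, hT⟩ := hD 1 hf _ (CS.zmod_ne_zero e)
      exact h _ hT
    have h2 : ∑ v ∈ range S.nA, S.Om m U (S.out 0) 0 v (2 * 1) = 0 :=
      sum_eq_zero fun v _ => CS.Om_eq_zero hZ (by omega) fun z hz => absurd hz (notMem_empty z)
    rw [CS.sum_Om hS] at h2
    have h3 : ∑ ρ ∈ range S.nR, (if S.out ρ = S.out 0 then S.par m U ρ 0 (2 * 1) else 0) =
        S.om m U 1 (S.out 0) + ∑ ρ ∈ range S.nR, if ρ = 0 then S.par m U 0 0 (2 * 1) else 0 := by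
      unfold CS.om
      rw [← sum_add_distrib]
      refine sum_congr rfl fun ρ _ => ?_
      rcases Nat.eq_zero_or_pos ρ with rfl | h0
      · simp
      · simp [h0, h0.ne']
    rw [h3, h1, zero_add] at h2
    simp only [sum_ite_eq', mem_range, hS.rpos, if_true] at h2
    rw [CS.charge_eq hS, ← h2]
    exact sum_congr rfl fun a _ => CS.track_const' hZ (by omega) (by omega)
      fun e ⟨z, hz, _⟩ => absurd hz (notMem_empty z)

end Crest.Agent.R290
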