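import Mathlib
import Crest.Prelude.Def_WL
import Crest.Prelude.Def_ParityLift

/-!
# Row 290 (hardness of Weisfeiler-Leman refinement): shared definitions

Overview of the chain of reductions.
* `Tbl`: a table-driven stack machine; `brules tbl w` is a monotone closure system on pairs
  (time, cell) describing its run (`Tr2`); `csB` writes both numbers in base `nA` with `d` digits each,
  giving a closure system `CS` on digit vectors (`CS.Tr`).
* `CS.slot`: a system of parity constraints with three slots each (one brick wall per rule).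
* `nadj`: the subcubic graph of such a system; `padN` adds isolated vertices and a universal one.
* `Game`/`PEquiv`: the bijective pebble game; `Cons`/`Consistent`: the pebble game on parity constraints.
-/

set_option autoImplicit false

namespace Crest.Agent.R290

/-! ### The bijective pebble game -/

/-- A winning strategy of Duplicator in the bijective game with `K` pebbles. -/
structure Game {V W : Type} [DecidableEq V] [DecidableEq W] (G : V → V → Bool) (H : W → W → Bool)
    (K : ℕ) (P : Set (Finset (V × W))) : Prop where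
  empty : ∅ ∈ P
  sub : ∀ p ∈ P, ∀ q, q ⊆ p → q ∈ P
  iso : ∀ p ∈ P, ∀ a ∈ p, ∀ b ∈ p, (a.1 = b.1 ↔ a.2 = b.2) ∧ G a.1 b.1 = H a.2 b.2
  ext : ∀ p ∈ P, p.card < K → ∃ φ : V ≃ W, ∀ z, insert (z, φ z) p ∈ P

/-- Duplicator wins the bijective game with `K` pebbles. -/
def PEquiv {V W : Type} [DecidableEq V] [DecidableEq W] (G : V → V → Bool) (H : W → W → Bool)
    (K : ℕ) : Prop := ∃ P, Game G H K P

/-- Isomorphism of Boolean adjacency functions. -/
def BIso {V W : Type} (G : V → V → Bool) (H : W → W → Bool) : Prop :=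
  ∃ e : V ≃ W, ∀ a b, H (e a) (e b) = G a b

/-- A clique all of whose triples have `3 mod 4` common neighbours. -/
def Good {V : Type} [Fintype V] {t : ℕ} (G : V → V → Bool) (v : Fin t → V) : Prop :=
  (∀ i j, i ≠ j → G (v i) (v j) = true) ∧ ∀ i j l, i ≠ j → i ≠ l → j ≠ l →
    (Finset.univ.filter fun z => G (v i) z = true ∧ G (v j) z = true ∧ G (v l) z = true).card % 4 = 3

/-- The matrix of an adjacency function on the natural numbers. -/
def mat (n : ℕ) (adj : ℕ → ℕ → Bool) : Fin n → Fin n → Bool := fun x y => adj x y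

/-- A matrix as a list of rows. -/
def rows {n : ℕ} (G : Fin n → Fin n → Bool) : List (List Bool) :=
  List.ofFn fun i => List.ofFn fun j => G i j

/-! ### Systems of parity constraints -/

/-- The value of the constraint `c` (a multiset of variables) under `α`. -/
def ev {Con Var : Type} (sl : Con → Multiset Var) (α : Var → ZMod 2) (c : Con) : ZMod 2 :=
  ((sl c).map α).sum

/-- A winning strategy of Duplicator in the game with `K` pebbles on constraints. -/
structure Cons {Con Var : Type} [DecidableEq Con] (sl : Con → Multiset Var) (b : Con → ZMod 2)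
    (K : ℕ) (A : Set (Finset Con × (Var → ZMod 2))) : Prop where
  ne : ∃ α, (∅, α) ∈ A
  sub : ∀ S α, (S, α) ∈ A → ∀ S', S' ⊆ S → (S', α) ∈ A
  sat : ∀ S α, (S, α) ∈ A → ∀ c ∈ S, ev sl α c = b c
  ext : ∀ S α, (S, α) ∈ A → S.card < K → ∀ c,
    ∃ α', (insert c S, α') ∈ A ∧ ∀ c' ∈ S, ∀ x ∈ sl c', α' x = α x

/-- The system is consistent for `K` pebbles. -/
def Consistent {Con Var : Type} [DecidableEq Con] (sl : Con → Multiset Var) (b : Con → ZMod 2)
    (K : ℕ) : Prop := ∃ A, Cons sl b K A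

/-- The system has a solution. -/
def Solvable {Con Var : Type} (sl : Con → Multiset Var) (b : Con → ZMod 2) : Prop :=
  ∃ α, ∀ c, ev sl α c = b c

/-- The coefficient of the variable `x` in the sum of the constraints selected by `U`. -/
def bd {Con Var : Type} [Fintype Con] [DecidableEq Var] (sl : Con → Multiset Var)
    (U : Con → ZMod 2) (x : Var) : ZMod 2 := ∑ c, U c * ((sl c).count x : ZMod 2)

/-- The sum of the constraints selected by `U` only involves variables of constraints in `S`. -/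
def Zs {Con Var : Type} [Fintype Con] [DecidableEq Var] (sl : Con → Multiset Var)
    (S : Finset Con) (U : Con → ZMod 2) : Prop := ∀ x, (∀ c ∈ S, x ∉ sl c) → bd sl U x = 0

/-! ### Closure systems on digit vectors -/

/-- Names of wires. -/
abbrev Wire := ℕ × ℕ × ℕ

/-- A closure system: `nR` rules over vectors of `k` digits below `nA`. Rule `ρ` has the keys
`k1 ρ`, `k2 ρ`, the output `out ρ` and the partial digit maps `f ρ j`. Rule `0` is special (it does not
take part in the closure; its output is the goal). -/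
structure CS where
  nA : ℕ
  k : ℕ
  nR : ℕ
  k1 : ℕ → Wire
  k2 : ℕ → Wire
  out : ℕ → Wire
  f : ℕ → ℕ → ℕ → Option ℕ

namespace CS

/-- Rule `ρ` moves the position `p` to `q`. -/
def Step (S : CS) (ρ : ℕ) (p q : Fin S.k → ℕ) : Prop :=
  ∀ j : Fin S.k, p j < S.nA ∧ S.f ρ j (p j) = some (q j)

/-- The true pairs (wire, position). A rule with equal keys is a source. -/
inductive Tr (S : CS) : Wire → (Fin S.k → ℕ) → Prop
  | src {ρ : ℕ} {p q : Fin S.k → ℕ} : 0 < ρ → ρ < S.nR → S.k1 ρ = S.k2 ρ → S.Step ρ p q →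
      Tr S (S.out ρ) q
  | both {ρ : ℕ} {p q : Fin S.k → ℕ} : 0 < ρ → ρ < S.nR → Tr S (S.k1 ρ) p → Tr S (S.k2 ρ) p →
      S.Step ρ p q → Tr S (S.out ρ) q

/-- Well-formed closure systems. -/
structure WF (S : CS) : Prop where
  kpos : 0 < S.k
  rpos : 0 < S.nR
  out1 : ∀ ρ < S.nR, S.out ρ ≠ S.k1 ρ
  out2 : ∀ ρ < S.nR, S.out ρ ≠ S.k2 ρ
  goal1 : ∀ ρ < S.nR, S.k1 ρ ≠ S.out 0
  goal2 : ∀ ρ < S.nR, S.k2 ρ ≠ S.out 0
  anti : S.k1 0 = S.k2 0
  antif : ∀ j a, S.f 0 j a = some a
  bnd : ∀ ρ < S.nR, ∀ j < S.k, ∀ a < S.nA, ∀ a', S.f ρ j a = some a' → a' < S.nA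
  dom : ∀ ρ < S.nR, ∀ j < S.k, ∃ a < S.nA, ∃ a', S.f ρ j a = some a'
  idp : ∀ ρ < S.nR, ∃ ρ', 0 < ρ' ∧ ρ' < S.nR ∧ S.out ρ' = S.out ρ ∧ ∀ j a, S.f ρ' j a = some a

/-- All keys are true everywhere. -/
def AllTrue (S : CS) : Prop :=
  ∀ ρ < S.nR, S.k1 ρ ≠ S.k2 ρ → ∀ p : Fin S.k → ℕ, (∀ j, p j < S.nA) →
    S.Tr (S.k1 ρ) p ∧ S.Tr (S.k2 ρ) p

end CS

/-! ### The parity system of a closure system -/

/-- Variables: horizontal, vertical, wire and dummy bits. -/
inductive Var : Type
  | hh (ρ i a c : ℕ) : Var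
  | vv (ρ t i : ℕ) (tag : Option ℕ) : Var
  | ww (y : Wire) (i a : ℕ) : Var
  | dd (ρ i a c : ℕ) : Var
  deriving DecidableEq

/-- The number of columns of a wall with `m` rows. -/
def ncol (m : ℕ) : ℕ := 2 * m + 15

namespace CS

/-- The coordinate carried by row `i`. -/
def grp (S : CS) (i : ℕ) : ℕ := min (i / 16) (S.k - 1)

/-- The tag of the vertical bit between row `i` and the next row, on the track `a`. -/
def tag (S : CS) (m i a : ℕ) : Option ℕ := if S.grp i = S.grp ((i + 1) % m) then some a else none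

/-- Slot `e` of the constraint of rule `ρ`, row `i`, symbol `a`, column `c`. -/
def slot (S : CS) (m ρ i a c e : ℕ) : Var :=
  match S.f ρ (S.grp i) a with
  | none => .dd ρ i a c
  | some a' =>
    if c = 0 then (if e = 0 then .hh ρ i a 0 else if e = 1 then .ww (S.k1 ρ) i a else .ww (S.k2 ρ) i a)
    else if e = 0 then .hh ρ i a (c - 1)
    else if c = 2 * m + 14 then (if e = 1 then .ww (S.k1 ρ) i a else .ww (S.k2 ρ) i a)
    else if e = 1 then .hh ρ i a c
    else if c = 1 then .ww (S.out ρ) i a'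
    else if c % 2 = 0 then .vv ρ (c / 2) ((i + m - 1) % m) (S.tag m ((i + m - 1) % m) a)
    else .vv ρ (c / 2) i (S.tag m i a)

/-- Constraints: rule, row, symbol, column. -/
abbrev Con (S : CS) (m : ℕ) : Type := Fin S.nR × Fin m × Fin S.nA × Fin (ncol m)

/-- The variables of a constraint. -/
def sl (S : CS) (m : ℕ) (z : S.Con m) : Multiset Var :=
  {S.slot m z.1 z.2.1 z.2.2.1 z.2.2.2 0, S.slot m z.1 z.2.1 z.2.2.1 z.2.2.2 1,
    S.slot m z.1 z.2.1 z.2.2.1 z.2.2.2 2}

/-- The twisted right-hand side. -/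
def bst (S : CS) (m : ℕ) (z : S.Con m) : ZMod 2 :=
  if (z.1 : ℕ) = 0 ∧ (z.2.1 : ℕ) = 0 ∧ (z.2.2.2 : ℕ) = 0 then 1 else 0

/-- The number of constraints. -/
def nC (S : CS) (m : ℕ) : ℕ := S.nR * (m * (S.nA * ncol m))

/-- The variable of the occurrence `o` (slot `o % 3` of the constraint number `o / 3`). -/
def sv (S : CS) (m o : ℕ) : Var :=
  S.slot m (o / 3 / (m * (S.nA * ncol m))) (o / 3 % (m * (S.nA * ncol m)) / (S.nA * ncol m))
    (o / 3 % (m * (S.nA * ncol m)) % (S.nA * ncol m) / ncol m)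
    (o / 3 % (m * (S.nA * ncol m)) % (S.nA * ncol m) % ncol m) (o % 3)

/-- The right-hand side of the constraint number `c` (twisted if `tw`). -/
def bN (S : CS) (m : ℕ) (tw : Bool) (c : ℕ) : ZMod 2 :=
  if tw = true ∧ c < S.nA * ncol m ∧ c % ncol m = 0 then 1 else 0

end CS

/-! ### The subcubic graph of a system with three slots per constraint -/

/-- The system with constraints `c < C` on the variables `sv (3c)`, `sv (3c+1)`, `sv (3c+2)`. -/
def sl3 {X : Type} (C : ℕ) (sv : ℕ → X) (c : Fin C) : Multiset X :=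
  {sv (3 * c), sv (3 * c + 1), sv (3 * c + 2)}

/-- The 31 vertices owned by a constraint. -/
inductive Loc : Type
  | a (e : Fin 3) (β : ZMod 2) : Loc
  | P (e : Fin 3) (β : ZMod 2) : Loc
  | Q (e : Fin 3) (β : ZMod 2) : Loc
  | w (e : Fin 3) : Loc
  | u (e : Fin 3) : Loc
  | d (e : Fin 3) : Loc
  | mid (β₀ β₁ : ZMod 2) : Loc
  deriving DecidableEq, Fintype

/-- All local vertices, in the order of their numbers. -/
def locList : List Loc :=
  [.a 0 0, .a 0 1, .a 1 0, .a 1 1, .a 2 0, .a 2 1, .P 0 0, .P 0 1, .P 1 0, .P 1 1, .P 2 0, .P 2 1,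
    .Q 0 0, .Q 0 1, .Q 1 0, .Q 1 1, .Q 2 0, .Q 2 1, .w 0, .w 1, .w 2, .u 0, .u 1, .u 2,
    .d 0, .d 1, .d 2, .mid 0 0, .mid 0 1, .mid 1 0, .mid 1 1]

/-- The local vertex number `l`. -/
def locOf (l : ℕ) : Loc := locList.getD l (.d 0)

/-- The three bits of a middle vertex of a constraint with right-hand side `b`. -/
def mbit (b β₀ β₁ : ZMod 2) (e : Fin 3) : ZMod 2 :=
  if e = 0 then β₀ else if e = 1 then β₁ else β₀ + β₁ + b

/-- `o'` is the next occurrence of the variable of the occurrence `o`. -/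
def Nxt {X : Type} (sv : ℕ → X) (o o' : ℕ) : Prop :=
  o < o' ∧ sv o = sv o' ∧ ∀ o'' < o', o < o'' → sv o'' ≠ sv o

instance {X : Type} [DecidableEq X] (sv : ℕ → X) (o o' : ℕ) : Decidable (Nxt sv o o') := by
  unfold Nxt; infer_instance

/-- One orientation of the edges. -/
def nadj0 {X : Type} [DecidableEq X] (sv : ℕ → X) (b : ℕ → ZMod 2) (x y : ℕ × Loc) : Bool :=
  match x.2, y.2 with
  | .mid β₀ β₁, .a e β => decide (x.1 = y.1 ∧ β = mbit (b x.1) β₀ β₁ e)
  | .a e β, .P e' β' => decide (x.1 = y.1 ∧ e = e' ∧ β = β')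
  | .P e β, .Q e' β' =>
      decide (β = β' ∧ ((x.1 = y.1 ∧ e = e') ∨ Nxt sv (3 * x.1 + e) (3 * y.1 + e')))
  | .Q e _, .w e' => decide (x.1 = y.1 ∧ e = e')
  | .w e, .u e' => decide (x.1 = y.1 ∧ e = e')
  | .u e, .d e' => decide ((x.1 = y.1 ∧ e = e') ∨ 3 * y.1 + e' = 3 * x.1 + e + 1)
  | _, _ => false

/-- Adjacency. -/
def nadj {X : Type} [DecidableEq X] (sv : ℕ → X) (b : ℕ → ZMod 2) (x y : ℕ × Loc) : Bool :=
  nadj0 sv b x y || nadj0 sv b y x

/-- Vertices of the graph of a system with `C` constraints. -/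
abbrev NV (C : ℕ) : Type := Fin C × Loc

/-- The graph of a system with `C` constraints. -/
def neckG {X : Type} [DecidableEq X] (C : ℕ) (sv : ℕ → X) (b : ℕ → ZMod 2) (x y : NV C) : Bool :=
  nadj sv b (x.1, x.2) (y.1, y.2)

/-- The same graph on vertex numbers. -/
def neckN {X : Type} [DecidableEq X] (sv : ℕ → X) (b : ℕ → ZMod 2) (x y : ℕ) : Bool :=
  nadj sv b (x / 31, locOf (x % 31)) (y / 31, locOf (y % 31))

/-- The class of a local vertex (its bits are erased). -/
def Loc.cls : Loc → Loc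
  | .a e _ => .a e 0
  | .P e _ => .P e 0
  | .Q e _ => .Q e 0
  | .w e => .w e
  | .u e => .u e
  | .d e => .d e
  | .mid _ _ => .mid 0 0

/-- The class of a vertex. -/
def cls {C : ℕ} (x : NV C) : NV C := (x.1, x.2.cls)

/-- Padding a graph on `N` vertices to `n > N` vertices: `n - 1` is universal, the others are new. -/
def padN (n N : ℕ) (adj : ℕ → ℕ → Bool) (x y : ℕ) : Bool :=
  if x = y then false else if x = n - 1 ∨ y = n - 1 then true
  else if x < N ∧ y < N then adj x y else false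

/-! ### Closure systems on pairs of numbers -/

/-- An operation on a number: `(0,_)` keep, `(1,_)` test zero, `(2,_)` increment, `(3,_)` decrement,
`(4,_)` test maximal, `(5,_)` reset, `(6,x)` (and above) set zero to `x`. -/
abbrev Op := ℕ × ℕ

/-- A rule: two keys, the output, the operations on the two numbers. -/
abbrev Rule := Wire × Wire × Wire × Op × Op

/-- The meaning of an operation on numbers below `B`. -/
def OpRel (B : ℕ) (o : Op) (t t' : ℕ) : Prop :=
  t < B ∧ t' < B ∧
    if o.1 = 0 then t' = t else if o.1 = 1 then t = 0 ∧ t' = 0 else if o.1 = 2 then t' = t + 1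
    else if o.1 = 3 then t = t' + 1 else if o.1 = 4 then t + 1 = B ∧ t' = t
    else if o.1 = 5 then t' = 0 else t = 0 ∧ t' = o.2 % B

/-- The true triples (wire, time, cell). -/
inductive Tr2 (rs : List Rule) (B : ℕ) : Wire → ℕ → ℕ → Prop
  | src {r : Rule} {t x t' x' : ℕ} : r ∈ rs → r.1 = r.2.1 → OpRel B r.2.2.2.1 t t' →
      OpRel B r.2.2.2.2 x x' → Tr2 rs B r.2.2.1 t' x'
  | both {r : Rule} {t x t' x' : ℕ} : r ∈ rs → Tr2 rs B r.1 t x → Tr2 rs B r.2.1 t x →
      OpRel B r.2.2.2.1 t t' → OpRel B r.2.2.2.2 x x' → Tr2 rs B r.2.2.1 t' x'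

/-- The always true wire. -/
def wT : Wire := (0, 0, 0)
/-- The goal wire. -/
def wG : Wire := (3, 0, 0)

/-- Well-formed rule lists. -/
structure BWF (rs : List Rule) : Prop where
  out1 : ∀ r ∈ rs, r.2.2.1 ≠ r.1
  out2 : ∀ r ∈ rs, r.2.2.1 ≠ r.2.1
  goal1 : ∀ r ∈ rs, r.1 ≠ wG
  goal2 : ∀ r ∈ rs, r.2.1 ≠ wG
  idp : ∀ r ∈ rs, ∃ r' ∈ rs, r'.2.2.1 = r.2.2.1 ∧ r'.2.2.2.1.1 = 0 ∧ r'.2.2.2.2.1 = 0
  idg : ∃ r' ∈ rs, r'.2.2.1 = wG ∧ r'.2.2.2.1.1 = 0 ∧ r'.2.2.2.2.1 = 0

/-- All keys are true everywhere. -/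
def BAll (rs : List Rule) (B : ℕ) : Prop :=
  ∀ r ∈ rs, ∀ t < B, ∀ x < B, Tr2 rs B r.1 t x ∧ Tr2 rs B r.2.1 t x

/-- The action of an operation on digit `j` in base `nA`; `c` is the length of the carry. -/
def opf (nA : ℕ) (o : Op) (c j a : ℕ) : Option ℕ :=
  if o.1 = 0 then some a
  else if o.1 = 1 then (if a = 0 then some 0 else none)
  else if o.1 = 2 then
    (if j < c then (if a + 1 = nA then some 0 else none)
     else if j = c then (if a + 1 < nA then some (a + 1) else none) else some a)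
  else if o.1 = 3 then
    (if j < c then (if a = 0 then some (nA - 1) else none)
     else if j = c then (if 0 < a then some (a - 1) else none) else some a)
  else if o.1 = 4 then (if a + 1 = nA then some a else none)
  else if o.1 = 5 then some 0
  else (if a = 0 then some (o.2 / nA ^ j % nA) else none)

/-- The base rule of the digit rule `ρ ≥ 1`. -/
def baseRule (rs : List Rule) (d ρ : ℕ) : Rule :=
  rs.getD ((ρ - 1) / (d * d)) (wT, wT, wG, (0, 0), (0, 0))

/-- The digit system of a rule list: the first `d` digits are the time, the last `d` the cell. -/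
def csB (rs : List Rule) (nA d : ℕ) : CS where
  nA := nA
  k := 2 * d
  nR := 1 + rs.length * (d * d)
  k1 ρ := if ρ = 0 then wT else (baseRule rs d ρ).1
  k2 ρ := if ρ = 0 then wT else (baseRule rs d ρ).2.1
  out ρ := if ρ = 0 then wG else (baseRule rs d ρ).2.2.1
  f ρ j a := if ρ = 0 then some a
    else if j < d then opf nA (baseRule rs d ρ).2.2.2.1 ((ρ - 1) / d % d) j a
    else opf nA (baseRule rs d ρ).2.2.2.2 ((ρ - 1) % d) (j - d) a

/-! ### Table machines -/

/-- A stack machine given by a list of numbers. -/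
abbrev Tbl := List ℕ

namespace Tbl

/-- Number of stacks. -/
def nS (M : Tbl) : ℕ := min (M.getD 0 0) M.length
/-- Number of symbols (`0` is read on an empty stack). -/
def nG (M : Tbl) : ℕ := min (M.getD 1 0) M.length
/-- Number of states (`0` rejects, `1` accepts, `2` is initial). -/
def nQ (M : Tbl) : ℕ := min (M.getD 2 0) M.length
/-- The stack used in state `q`. -/
def stk (M : Tbl) (q : ℕ) : ℕ := M.getD (3 + q) 0
/-- The operation in state `q` on top symbol `γ`: `0` keep, `1` pop, `γ' + 1` push `γ' ≥ 1`. -/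
def op (M : Tbl) (q γ : ℕ) : ℕ := M.getD (3 + M.nQ + 2 * (q * M.nG + γ)) 0
/-- The next state. -/
def nxt (M : Tbl) (q γ : ℕ) : ℕ := M.getD (3 + M.nQ + 2 * (q * M.nG + γ) + 1) 0

/-- Apply an operation to a stack. -/
def app (o : ℕ) (l : List ℕ) : List ℕ := if o = 0 then l else if o = 1 then l.tail else (o - 1) :: l

/-- The top symbol of the stack used in the configuration `c`. -/
def top (M : Tbl) (c : ℕ × List (List ℕ)) : ℕ := (c.2.getD (M.stk c.1) []).headD 0

/-- One step. -/
def step (M : Tbl) (c : ℕ × List (List ℕ)) : ℕ × List (List ℕ) :=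
  (M.nxt c.1 (M.top c), c.2.set (M.stk c.1) (app (M.op c.1 (M.top c)) (c.2.getD (M.stk c.1) [])))

/-- The symbol of an input bit. -/
def sym (b : Bool) : ℕ := if b = true then 2 else 1

/-- The initial configuration. -/
def init (M : Tbl) (w : List Bool) : ℕ × List (List ℕ) :=
  (2, w.map sym :: List.replicate (M.nS - 1) [])

/-- The configuration after `T` steps. -/
def run (M : Tbl) (w : List Bool) (T : ℕ) : ℕ × List (List ℕ) := M.step^[T] (M.init w)

/-- After `T` steps the machine has answered `β`. -/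
def Halts (M : Tbl) (w : List Bool) (T : ℕ) (β : Bool) : Prop :=
  (M.run w T).1 = if β = true then 1 else 0

/-- Well-formed tables. -/
structure WF (M : Tbl) : Prop where
  nS : 1 ≤ M.nS
  nG : 3 ≤ M.nG
  nQ : 3 ≤ M.nQ
  stk : ∀ q < M.nQ, M.stk q < M.nS
  op : ∀ q < M.nQ, ∀ γ < M.nG, M.op q γ ≤ M.nG
  nxt : ∀ q < M.nQ, ∀ γ < M.nG, M.nxt q γ < M.nQ
  stop : ∀ q < 2, ∀ γ < M.nG, M.op q γ = 0 ∧ M.nxt q γ = q

end Tbl

/-- After acceptance: the wire that spreads to all positions. -/
def wE : Wire := (1, 0, 0)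
/-- Its copy. -/
def wE1 : Wire := (2, 0, 0)
/-- Blank cells of the input stack at time zero. -/
def wB : Wire := (4, 0, 0)
/-- Its copy. -/
def wB1 : Wire := (5, 0, 0)
/-- The state (at cell zero). -/
def wSt (q : ℕ) : Wire := (6, q, 0)
/-- The state and the top symbol (at all cells). -/
def wAct (q γ : ℕ) : Wire := (7, q, γ)
/-- Its copy. -/
def wAct1 (q γ : ℕ) : Wire := (8, q, γ)
/-- The content of the cell. -/
def wCe (s γ : ℕ) : Wire := (9, s, γ)
/-- The content of the next cell. -/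
def wCp (s γ : ℕ) : Wire := (10, s, γ)
/-- The content of the previous cell. -/
def wCm (s γ : ℕ) : Wire := (11, s, γ)
/-- The content of the cell at the next time. -/
def wNx (s γ : ℕ) : Wire := (12, s, γ)

/-- A rule with one key. -/
def r1 (x y : Wire) (o o' : ℕ) : Rule := (x, wT, y, (o, 0), (o', 0))

/-- The rules describing the run of `M` on `w`. -/
def brules (M : Tbl) (w : List Bool) : List Rule :=
  [(wE, wE, wT, (0, 0), (0, 0)), r1 wE wG 0 0, r1 (wSt 1) wE 5 5, r1 wE wE1 2 0, r1 wE wE1 0 2,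
    r1 wE1 wE 0 0, r1 wE wE1 0 0, r1 wE wB 0 0, r1 wE wB1 0 0,
    r1 wT (wSt 2) 1 1, (wT, wT, wB, (1, 0), (6, w.length)), r1 wB wB1 0 2, r1 wB1 wB 0 0,
    r1 wB (wCe 0 0) 0 0] ++
  (List.range w.length).map
    (fun x => (wT, wT, wCe 0 (Tbl.sym (w.getD x false)), (1, 0), (6, x))) ++
  (List.range (M.nS - 1)).map (fun s => r1 wT (wCe (s + 1) 0) 1 0) ++
  (List.range M.nS).map (fun s => r1 wT (wCp s 0) 0 4) ++
  (List.range M.nQ).map (fun q => r1 wE (wSt q) 0 0) ++
  (List.range M.nS).flatMap (fun s => (List.range M.nG).flatMap fun γ =>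
    [r1 wE (wCe s γ) 0 0, r1 wE (wCp s γ) 0 0, r1 wE (wCm s γ) 0 0, r1 wE (wNx s γ) 0 0,
      r1 (wCe s γ) (wCp s γ) 0 3, r1 (wCe s γ) (wCm s γ) 0 2, r1 (wNx s γ) (wCe s γ) 2 0]) ++
  (List.range M.nQ).flatMap (fun q => (List.range M.nG).flatMap fun γ =>
    [r1 wE (wAct q γ) 0 0, r1 wE (wAct1 q γ) 0 0,
      (wSt q, wCe (M.stk q) γ, wAct q γ, (0, 0), (0, 0)), r1 (wAct q γ) (wAct1 q γ) 0 2,
      r1 (wAct1 q γ) (wAct q γ) 0 0, r1 (wAct q γ) (wSt (M.nxt q γ)) 2 1] ++
    (if 2 ≤ M.op q γ then [r1 (wAct q γ) (wNx (M.stk q) (M.op q γ - 1)) 0 1] else []) ++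
    (List.range M.nS).flatMap fun s => (List.range M.nG).map fun γ' =>
      (wAct q γ, (if s ≠ M.stk q ∨ M.op q γ = 0 then wCe s γ' else if M.op q γ = 1 then wCp s γ'
        else wCm s γ'), wNx s γ', (0, 0), (0, 0)))

/-! ### The reduction -/

/-- The closure system of the run of `M` on `w`. -/
def redS (M : Tbl) (w : List Bool) (nA d : ℕ) : CS := csB (brules M w) nA d

/-- The number of vertices of the graphs. -/
def redN (M : Tbl) (w : List Bool) (nA d m : ℕ) : ℕ := (redS M w nA d).nC m * 31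

/-- The adjacency of the two graphs (`tw` selects the twisted one). -/
def redAdj (M : Tbl) (w : List Bool) (nA d m : ℕ) (tw : Bool) : ℕ → ℕ → Bool :=
  neckN ((redS M w nA d).sv m) ((redS M w nA d).bN m tw)

/-- The two subcubic graphs. -/
def redG (M : Tbl) (w : List Bool) (nA d m : ℕ) (tw : Bool) :
    Fin (redN M w nA d m) → Fin (redN M w nA d m) → Bool :=
  mat (redN M w nA d m) (redAdj M w nA d m tw)

/-- The two graphs of diameter two on `n` vertices. -/
def redP (M : Tbl) (w : List Bool) (nA d m n : ℕ) (tw : Bool) : Fin n → Fin n → Bool :=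
  mat n (padN n (redN M w nA d m) (redAdj M w nA d m tw))

/-- The equation lemmas of the definitions above, generated once here. -/
theorem anchor : True := by
  have := @PEquiv.eq_1
  have := @PEquiv.eq_def
  have := @BIso.eq_1
  have := @BIso.eq_def
  have := @Good.eq_1
  have := @Good.eq_def
  have := @mat.eq_1
  have := @mat.eq_def
  have := @rows.eq_1
  have := @rows.eq_def
  have := @ev.eq_1
  have := @ev.eq_def
  have := @Consistent.eq_1
  have := @Consistent.eq_def
  have := @Solvable.eq_1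
  have := @Solvable.eq_def
  have := @bd.eq_1
  have := @bd.eq_def
  have := @Zs.eq_1
  have := @Zs.eq_def
  have := @CS.Step.eq_1
  have := @CS.Step.eq_def
  have := @CS.AllTrue.eq_1
  have := @CS.AllTrue.eq_def
  have := @ncol.eq_1
  have := @ncol.eq_def
  have := @CS.grp.eq_1
  have := @CS.grp.eq_def
  have := @CS.tag.eq_1
  have := @CS.tag.eq_def
  have := @CS.slot.eq_1
  have := @CS.slot.eq_def
  have := @CS.sl.eq_1
  have := @CS.sl.eq_def
  have := @CS.bst.eq_1
  have := @CS.bst.eq_def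
  have := @CS.nC.eq_1
  have := @CS.nC.eq_def
  have := @CS.sv.eq_1
  have := @CS.sv.eq_def
  have := @CS.bN.eq_1
  have := @CS.bN.eq_def
  have := @sl3.eq_1
  have := @sl3.eq_def
  have := @locList.eq_1
  have := @locList.eq_def
  have := @locOf.eq_1
  have := @locOf.eq_def
  have := @mbit.eq_1
  have := @mbit.eq_def
  have := @Nxt.eq_1
  have := @Nxt.eq_def
  have := @nadj0.eq_1
  have := @nadj0.eq_def
  have := @nadj.eq_1
  have := @nadj.eq_def
  have := @neckG.eq_1
  have := @neckG.eq_def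
  have := @neckN.eq_1
  have := @neckN.eq_def
  have := @Loc.cls.eq_1
  have := @Loc.cls.eq_def
  have := @cls.eq_1
  have := @cls.eq_def
  have := @padN.eq_1
  have := @padN.eq_def
  have := @OpRel.eq_1
  have := @OpRel.eq_def
  have := @wT.eq_1
  have := @wT.eq_def
  have := @wG.eq_1
  have := @wG.eq_def
  have := @BAll.eq_1
  have := @BAll.eq_def
  have := @opf.eq_1
  have := @opf.eq_def
  have := @baseRule.eq_1
  have := @baseRule.eq_def
  have := @csB.eq_1
  have := @csB.eq_def
  have := @Tbl.nS.eq_1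
  have := @Tbl.nS.eq_def
  have := @Tbl.nG.eq_1
  have := @Tbl.nG.eq_def
  have := @Tbl.nQ.eq_1
  have := @Tbl.nQ.eq_def
  have := @Tbl.stk.eq_1
  have := @Tbl.stk.eq_def
  have := @Tbl.op.eq_1
  have := @Tbl.op.eq_def
  have := @Tbl.nxt.eq_1
  have := @Tbl.nxt.eq_def
  have := @Tbl.app.eq_1
  have := @Tbl.app.eq_def
  have := @Tbl.top.eq_1
  have := @Tbl.top.eq_def
  have := @Tbl.step.eq_1
  have := @Tbl.step.eq_def
  have := @Tbl.sym.eq_1
  have := @Tbl.sym.eq_def
  have := @Tbl.init.eq_1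
  have := @Tbl.init.eq_def
  have := @Tbl.run.eq_1
  have := @Tbl.run.eq_def
  have := @Tbl.Halts.eq_1
  have := @Tbl.Halts.eq_def
  have := @wE.eq_1
  have := @wE.eq_def
  have := @wE1.eq_1
  have := @wE1.eq_def
  have := @wB.eq_1
  have := @wB.eq_def
  have := @wB1.eq_1
  have := @wB1.eq_def
  have := @wSt.eq_1
  have := @wSt.eq_def
  have := @wAct.eq_1
  have := @wAct.eq_def
  have := @wAct1.eq_1
  have := @wAct1.eq_def
  have := @wCe.eq_1
  have := @wCe.eq_def
  have := @wCp.eq_1
  have := @wCp.eq_def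
  have := @wCm.eq_1
  have := @wCm.eq_def
  have := @wNx.eq_1
  have := @wNx.eq_def
  have := @r1.eq_1
  have := @r1.eq_def
  have := @brules.eq_1
  have := @brules.eq_def
  have := @redS.eq_1
  have := @redS.eq_def
  have := @redN.eq_1
  have := @redN.eq_def
  have := @redAdj.eq_1
  have := @redAdj.eq_def
  have := @redG.eq_1
  have := @redG.eq_def
  have := @redP.eq_1
  have := @redP.eq_def
  have := @Loc.cls.eq_2
  have := @Loc.cls.eq_3
  have := @Loc.cls.eq_4
  have := @Loc.cls.eq_5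
  have := @Loc.cls.eq_6
  have := @Loc.cls.eq_7
  have := @Crest.WLRefine.atomicType.eq_1
  have := @Crest.WLRefine.atomicType.eq_def
  have := @Crest.WLRefine.IsSimple.eq_1
  have := @Crest.WLRefine.IsSimple.eq_def
  have := @Crest.WLRefine.adjGraph.eq_1
  have := @Crest.WLRefine.adjGraph.eq_def
  have := @Crest.WLRefine.DiamLeTwo.eq_1
  have := @Crest.WLRefine.DiamLeTwo.eq_def
  have := @Crest.WLRefine.MaxDegLeThree.eq_1
  have := @Crest.WLRefine.MaxDegLeThree.eq_def
  have := @Crest.WLRefine.SimpleConnDiamTwo.eq_1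
  have := @Crest.WLRefine.SimpleConnDiamTwo.eq_def
  have := @Crest.WLRefine.SimpleConnSubcubic.eq_1
  have := @Crest.WLRefine.SimpleConnSubcubic.eq_def
  have := @Crest.WLRefine.JEquiv.eq_1
  have := @Crest.WLRefine.JEquiv.eq_def
  have := @Crest.WLRefine.SEquiv.eq_1
  have := @Crest.WLRefine.SEquiv.eq_def
  have := @Crest.WLRefine.adjMatrixCode.eq_1
  have := @Crest.WLRefine.adjMatrixCode.eq_def
  have := @Crest.WLRefine.jointEquivLang.eq_1
  have := @Crest.WLRefine.jointEquivLang.eq_def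
  have := @Crest.WLRefine.sepEquivLang.eq_1
  have := @Crest.WLRefine.sepEquivLang.eq_def
  have := @Crest.WLRefine.diamTwoPairCodes.eq_1
  have := @Crest.WLRefine.diamTwoPairCodes.eq_def
  have := @Crest.WLRefine.varDimEquivLang.eq_1
  have := @Crest.WLRefine.varDimEquivLang.eq_def
  have := @Crest.WLRefine.subcubicVarDimEquivLang.eq_1
  have := @Crest.WLRefine.subcubicVarDimEquivLang.eq_def
  have := @Crest.WLRefine.CREquiv.eq_1
  have := @Crest.WLRefine.CREquiv.eq_def
  have := @Crest.WLRefine.WLEquiv.eq_1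
  have := @Crest.WLRefine.WLEquiv.eq_def
  have := @Crest.WLRefine.AdjIso.eq_1
  have := @Crest.WLRefine.AdjIso.eq_def
  have := @Crest.WLRefine.Identifies.eq_1
  have := @Crest.WLRefine.Identifies.eq_def
  have := @Crest.WLRefine.wlDimLeLang.eq_1
  have := @Crest.WLRefine.wlDimLeLang.eq_def
  have := @Crest.WLRefine.jcolor.eq_1
  have := @Crest.WLRefine.jcolor.eq_2
  have := @Crest.WLRefine.jcolor.eq_def
  have := @Crest.WLRefine.scolor.eq_1
  have := @Crest.WLRefine.scolor.eq_2
  have := @Crest.WLRefine.scolor.eq_def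
  have := @Crest.WLRefine.crcolor.eq_1
  have := @Crest.WLRefine.crcolor.eq_2
  have := @Crest.WLRefine.crcolor.eq_def
  have := @Crest.WLRefine.JColor.eq_1
  have := @Crest.WLRefine.JColor.eq_2
  have := @Crest.WLRefine.JColor.eq_def
  have := @Crest.WLRefine.SColor.eq_1
  have := @Crest.WLRefine.SColor.eq_2
  have := @Crest.WLRefine.SColor.eq_def
  have := @Crest.WLRefine.CRColor.eq_1
  have := @Crest.WLRefine.CRColor.eq_2
  have := @Crest.WLRefine.CRColor.eq_def
  have := @Crest.WLRefine.ParityLift.ChoiceSystem.Successful.eq_1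
  have := @Crest.WLRefine.ParityLift.ChoiceSystem.Successful.eq_def
  have := @Crest.WLRefine.ParityLift.ChoiceSystem.SizeAtMost.eq_1
  have := @Crest.WLRefine.ParityLift.ChoiceSystem.SizeAtMost.eq_def
  have := @Crest.WLRefine.ParityLift.Helper.eq_1
  have := @Crest.WLRefine.ParityLift.Helper.eq_def
  have := @Crest.WLRefine.ParityLift.mainAgree.eq_1
  have := @Crest.WLRefine.ParityLift.mainAgree.eq_def
  have := @Crest.WLRefine.ParityLift.helperAgree.eq_1
  have := @Crest.WLRefine.ParityLift.helperAgree.eq_def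
  have := @Crest.WLRefine.ParityLift.LiftV.eq_1
  have := @Crest.WLRefine.ParityLift.LiftV.eq_def
  have := @Crest.WLRefine.ParityLift.liftAdj.eq_1
  have := @Crest.WLRefine.ParityLift.liftAdj.eq_def
  have := @Crest.WLRefine.ParityLift.lift0Parity.eq_1
  have := @Crest.WLRefine.ParityLift.lift0Parity.eq_def
  have := @Crest.WLRefine.ParityLift.liftStarParity.eq_1
  have := @Crest.WLRefine.ParityLift.liftStarParity.eq_def
  have := @Crest.WLRefine.ParityLift.orderFactor.eq_1
  have := @Crest.WLRefine.ParityLift.orderFactor.eq_def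
  have := @Crest.WLRefine.ParityLift.asMatrix.eq_1
  have := @Crest.WLRefine.ParityLift.asMatrix.eq_def
  have := @Crest.WLRefine.ParityLift.PureJHistEq.eq_1
  have := @Crest.WLRefine.ParityLift.PureJHistEq.eq_def
  have := @Crest.WLRefine.ParityLift.PureSHistEq.eq_1
  have := @Crest.WLRefine.ParityLift.PureSHistEq.eq_def
  have := @Crest.WLRefine.ParityLift.PureJEquiv.eq_1
  have := @Crest.WLRefine.ParityLift.PureJEquiv.eq_def
  have := @Crest.WLRefine.ParityLift.PureSEquiv.eq_1
  have := @Crest.WLRefine.ParityLift.PureSEquiv.eq_def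
  have := @Crest.WLRefine.ParityLift.tAdj.eq_1
  have := @Crest.WLRefine.ParityLift.tAdj.eq_2
  have := @Crest.WLRefine.ParityLift.tAdj.eq_3
  have := @Crest.WLRefine.ParityLift.tAdj.eq_4
  have := @Crest.WLRefine.ParityLift.tAdj.eq_def
  have := @Crest.WLRefine.ParityLift.typeOf.eq_1
  have := @Crest.WLRefine.ParityLift.typeOf.eq_2
  have := @Crest.WLRefine.ParityLift.typeOf.eq_def
  have := @Crest.WLRefine.ParityLift.bAdj.eq_1
  have := @Crest.WLRefine.ParityLift.bAdj.eq_2
  have := @Crest.WLRefine.ParityLift.bAdj.eq_3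
  have := @Crest.WLRefine.ParityLift.bAdj.eq_4
  have := @Crest.WLRefine.ParityLift.bAdj.eq_def
  have := @Crest.WLRefine.ParityLift.unionAdj.eq_1
  have := @Crest.WLRefine.ParityLift.unionAdj.eq_2
  have := @Crest.WLRefine.ParityLift.unionAdj.eq_3
  have := @Crest.WLRefine.ParityLift.unionAdj.eq_def
  have := @Crest.Enc.natCode.eq_1
  have := @Crest.Enc.listCode.eq_1
  trivial

end Crest.Agent.R290
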