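import Crest.Agent.R290.Game

/-!
# Row 290: Weisfeiler-Leman equivalence implies the bijective pebble game (with `k` pebbles)
-/

set_option autoImplicit false

namespace Crest.Agent.R290

open Crest.WLRefine

/-- Equal histograms are matched by a bijection. -/
theorem exists_equiv_of_map_univ_eq {α β γ : Type} [Fintype α] [Fintype β] {f : α → γ} {g : β → γ}
    (h : (Finset.univ : Finset α).val.map f = (Finset.univ : Finset β).val.map g) :
    ∃ φ : α ≃ β, ∀ a, f a = g (φ a) := by
  classical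
  have hc : ∀ c, Fintype.card {a // f a = c} = Fintype.card {b // g b = c} := fun c => by
    have := congrArg (Multiset.count c) h
    simp only [Multiset.count_map, eq_comm (a := c)] at this
    rw [Fintype.card_subtype, Fintype.card_subtype]
    exact this
  exact ⟨Equiv.ofFiberEquiv fun c => Fintype.equivOfCardEq (hc c),
    fun a => (Equiv.ofFiberEquiv_map _ a).symm⟩

/-- A decreasing sequence of non-empty subsets of a finite type has a common point. -/
theorem exists_forall_of_anti {X : Type} [Finite X] {Q : ℕ → X → Prop}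
    (ha : ∀ s x, Q (s + 1) x → Q s x) (h : ∀ s, ∃ x, Q s x) : ∃ x, ∀ s, Q s x := by
  by_contra hc
  push Not at hc
  choose f hf using hc
  obtain ⟨N, hN⟩ := (Set.finite_range f).bddAbove
  obtain ⟨x, hx⟩ := h N
  exact hf x (Nat.decreasingInduction (fun s _ => ha s x) hx (hN ⟨x, rfl⟩))

variable {n m : ℕ} {G : Fin n → Fin n → Bool} {H : Fin m → Fin m → Bool} {k : ℕ}

/-- A back-and-forth system on tuples gives a strategy in the game. -/
theorem pequiv_of_rel (hk : 1 ≤ k) {R : ℕ → (Fin k → Fin n) → (Fin k → Fin m) → Prop}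
    (ha : ∀ s u v, R (s + 1) u v → R s u v)
    (h0 : ∀ u v, R 0 u v → atomicType G u = atomicType H v)
    (he : ∀ s u v, R (s + 1) u v → ∀ i, ∃ φ : Fin n ≃ Fin m, ∀ z,
      R s (Function.update u i z) (Function.update v i (φ z)))
    (hh : ∀ s, ∃ Φ : (Fin k → Fin n) ≃ (Fin k → Fin m), ∀ u, R s u (Φ u)) : PEquiv G H k := by
  obtain ⟨Φ, hΦ⟩ := exists_forall_of_anti (fun s Φ h u => ha s u _ (h u)) hh
  have : Nonempty (Fin k) := ⟨⟨0, hk⟩⟩
  refine ⟨{p | p = ∅ ∨ ∃ u v, (∀ s, R s u v) ∧ ∀ a ∈ p, ∃ i, a = (u i, v i)}, .inl rfl, ?_, ?_, ?_⟩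
  · rintro p (rfl | ⟨u, v, h, hp⟩) q hq
    · exact .inl (Finset.subset_empty.1 hq)
    · exact .inr ⟨u, v, h, fun a ha => hp a (hq ha)⟩
  · rintro p (rfl | ⟨u, v, h, hp⟩) a ha b hb
    · simp at ha
    · obtain ⟨i, rfl⟩ := hp a ha
      obtain ⟨j, rfl⟩ := hp b hb
      have := h0 u v (h 0)
      exact ⟨by simpa [atomicType] using congrFun₂ (congrArg Prod.fst this) i j,
        congrFun₂ (congrArg Prod.snd this) i j⟩
  · intro p hp hc
    rcases isEmpty_or_nonempty (Fin n) with hn | ⟨⟨z₀⟩⟩
    · have : IsEmpty (Fin m) := ⟨fun w => hn.elim (Φ.symm (fun _ => w) ⟨0, hk⟩)⟩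
      exact ⟨Equiv.equivOfIsEmpty _ _, fun z => hn.elim z⟩
    obtain ⟨u, v, h, hp⟩ : ∃ u v, (∀ s, R s u v) ∧ ∀ a ∈ p, ∃ i, a = (u i, v i) := by
      rcases hp with rfl | hp
      · exact ⟨fun _ => z₀, _, fun s => hΦ s _, by simp⟩
      · exact hp
    choose! f hf using hp
    obtain ⟨i, -, hi⟩ := Finset.exists_mem_notMem_of_card_lt_card (s := p.image f)
      (t := Finset.univ) (by simpa using Finset.card_image_le.trans_lt hc)
    obtain ⟨φ, hφ⟩ := exists_forall_of_anti (fun s φ h z => ha s _ _ (h z))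
      fun s => he s u v (h _) i
    refine ⟨φ, fun z => .inr ⟨_, _, fun s => hφ s z, fun a ha => ?_⟩⟩
    rcases Finset.mem_insert.1 ha with rfl | ha
    · exact ⟨i, by simp⟩
    · have : f a ≠ i := fun e => hi (Finset.mem_image.2 ⟨a, ha, e⟩)
      exact ⟨f a, by rw [Function.update_of_ne this, Function.update_of_ne this]; exact hf a ha⟩

theorem pequiv_of_jequiv (hk : 1 ≤ k) (h : JEquiv k G H) : PEquiv G H k :=
  pequiv_of_rel hk (R := fun s u v => jcolor G k s u = jcolor H k s v)
    (fun _ _ _ h => congrArg Prod.fst h) (fun _ _ h => h)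
    (fun _ _ _ h i => (exists_equiv_of_map_univ_eq (Prod.mk.inj h).2).imp fun _ hφ z =>
      congrFun (hφ z) i) fun s => exists_equiv_of_map_univ_eq (h s)

theorem pequiv_of_sequiv (hk : 1 ≤ k) (h : SEquiv k G H) : PEquiv G H k :=
  pequiv_of_rel hk (R := fun s u v => scolor G k s u = scolor H k s v)
    (fun _ _ _ h => congrArg Prod.fst h) (fun _ _ h => h)
    (fun _ _ _ h i => exists_equiv_of_map_univ_eq (congrFun (Prod.mk.inj h).2 i))
    fun s => exists_equiv_of_map_univ_eq (h s)

/-- Equivalent graphs have the same order. -/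
theorem order_eq_of_wlequiv (hk : 1 ≤ k) (h : WLEquiv k G H) : n = m := by
  unfold WLEquiv at h
  split_ifs at h
  · simpa using congrArg Multiset.card (h 0)
  · exact Nat.pow_left_injective (n := k) (by omega) (by simpa using congrArg Multiset.card (h 0))

/-- From dimension `max n 2` on, equivalence is isomorphism. -/
theorem jequiv_iff_iso (hk : max n 2 ≤ k) : JEquiv k G H ↔ BIso G H :=
  ⟨fun h => iso_of_pequiv (pequiv_of_jequiv (by omega) h) (by simp; omega) (by omega),
    fun h => (pequiv_of_iso h _).jequiv⟩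

set_option linter.unusedVariables false in
/-- The dimension can be cut down to `max n 2`. -/
theorem jequiv_iff_min (hk : 2 ≤ k) : JEquiv k G H ↔ JEquiv (min k (max n 2)) G H := by
  rcases le_total k (max n 2) with h | h
  · rw [min_eq_left h]
  · rw [min_eq_right h, jequiv_iff_iso h, jequiv_iff_iso le_rfl]

theorem wlequiv_max_iff_iso : WLEquiv (max n 2) G H ↔ BIso G H := by
  rw [WLEquiv, if_neg (by omega), jequiv_iff_iso le_rfl]

set_option linter.unusedVariables false in
/-- Identification only concerns graphs of the same order and dimensions up to `max n 2`. -/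
theorem exists_identifies_iff (hk : 1 ≤ k) :
    (∃ k', 1 ≤ k' ∧ k' ≤ k ∧ Identifies k' G) ↔
      ∃ k', 1 ≤ k' ∧ k' ≤ min k (max n 2) ∧ ∀ H : Fin n → Fin n → Bool, IsSimple H →
        WLEquiv k' G H → WLEquiv (max n 2) G H := by
  constructor
  · rintro ⟨k', h1, h2, h3⟩
    rcases le_total k' (max n 2) with h | h
    · exact ⟨k', h1, le_min h2 h, fun H hH hW => wlequiv_max_iff_iso.2 (h3 n H hH hW)⟩
    · exact ⟨max n 2, by omega, le_min (h.trans h2) le_rfl, fun _ _ hW => hW⟩
  · rintro ⟨k', h1, h2, h3⟩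
    refine ⟨k', h1, h2.trans (min_le_left _ _), fun m H hH hW => ?_⟩
    obtain rfl := order_eq_of_wlequiv h1 hW
    exact wlequiv_max_iff_iso.1 (h3 H hH hW)

end Crest.Agent.R290
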