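import Crest.Agent.R290.Defs
import Crest.Agent.Lib.PolyTime.Enc
import Crest.Agent.Lib.PolyTime.More

/-!
# Row 290: the reduction runs in polynomial time
-/

set_option autoImplicit false

namespace Crest.Agent.R290

open Crest.WLRefine Crest.Agent.Lib.PolyTime

namespace PolyRedAux

/-- Code of a variable. -/
def vcode : Var → ℕ × Wire × ℕ × ℕ × Option ℕ
  | .hh ρ i a c => (0, (ρ, i, a), c, 0, none)
  | .vv ρ t i tag => (1, (ρ, t, i), 0, 0, tag)
  | .ww y i a => (2, y, i, a, none)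
  | .dd ρ i a c => (3, (ρ, i, a), c, 0, none)

theorem vcode_inj : Function.Injective vcode := by
  intro x y h
  cases x <;> cases y <;> simp_all [vcode]

scoped instance instPEncVar : PEnc Var := PEnc.ofInj vcode vcode_inj
noncomputable scoped instance instPEncLoc : PEnc Loc :=
  PEnc.ofInj (Fintype.equivFin Loc) (Fintype.equivFin Loc).injective
scoped instance instPEncZ2 : PEnc (ZMod 2) := inferInstanceAs (PEnc (Fin 2))

variable {α : Type} [PEnc α]

@[fun_prop] theorem poly_hh {ρ i x c : α → ℕ} (h1 : Poly ρ) (h2 : Poly i) (h3 : Poly x)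
    (h4 : Poly c) : Poly fun a => Var.hh (ρ a) (i a) (x a) (c a) :=
  Poly.of_enc (g := fun a => ((0, (ρ a, i a, x a), c a, 0, none) : ℕ × Wire × ℕ × ℕ × Option ℕ))
    (by fun_prop) fun _ => rfl

@[fun_prop] theorem poly_dd {ρ i x c : α → ℕ} (h1 : Poly ρ) (h2 : Poly i) (h3 : Poly x)
    (h4 : Poly c) : Poly fun a => Var.dd (ρ a) (i a) (x a) (c a) :=
  Poly.of_enc (g := fun a => ((3, (ρ a, i a, x a), c a, 0, none) : ℕ × Wire × ℕ × ℕ × Option ℕ))
    (by fun_prop) fun _ => rfl

@[fun_prop] theorem poly_vv {ρ t i : α → ℕ} {g : α → Option ℕ} (h1 : Poly ρ) (h2 : Poly t)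
    (h3 : Poly i) (h4 : Poly g) : Poly fun a => Var.vv (ρ a) (t a) (i a) (g a) :=
  Poly.of_enc (g := fun a => ((1, (ρ a, t a, i a), 0, 0, g a) : ℕ × Wire × ℕ × ℕ × Option ℕ))
    (by fun_prop) fun _ => rfl

@[fun_prop] theorem poly_ww {y : α → Wire} {i x : α → ℕ} (h1 : Poly y) (h2 : Poly i)
    (h3 : Poly x) : Poly fun a => Var.ww (y a) (i a) (x a) :=
  Poly.of_enc (g := fun a => ((2, y a, i a, x a, none) : ℕ × Wire × ℕ × ℕ × Option ℕ))
    (by fun_prop) fun _ => rfl

section Tbl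
variable {M : α → Tbl}

@[fun_prop] theorem poly_nS (hM : Poly M) : Poly fun a => (M a).nS := by
  unfold Tbl.nS; fun_prop
@[fun_prop] theorem poly_nG (hM : Poly M) : Poly fun a => (M a).nG := by
  unfold Tbl.nG; fun_prop
@[fun_prop] theorem poly_nQ (hM : Poly M) : Poly fun a => (M a).nQ := by
  unfold Tbl.nQ; fun_prop
@[fun_prop] theorem pb_nS (hM : Poly M) : PB fun a => (M a).nS :=
  PB.min_right _ (PB.length hM)
@[fun_prop] theorem pb_nG (hM : Poly M) : PB fun a => (M a).nG :=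
  PB.min_right _ (PB.length hM)
@[fun_prop] theorem pb_nQ (hM : Poly M) : PB fun a => (M a).nQ :=
  PB.min_right _ (PB.length hM)
@[fun_prop] theorem poly_stk {q : α → ℕ} (hM : Poly M) (hq : Poly q) :
    Poly fun a => (M a).stk (q a) := by
  unfold Tbl.stk; fun_prop
@[fun_prop] theorem poly_op {q g : α → ℕ} (hM : Poly M) (hq : Poly q) (hg : Poly g) :
    Poly fun a => (M a).op (q a) (g a) := by
  unfold Tbl.op; fun_prop
@[fun_prop] theorem poly_nxt {q g : α → ℕ} (hM : Poly M) (hq : Poly q) (hg : Poly g) :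
    Poly fun a => (M a).nxt (q a) (g a) := by
  unfold Tbl.nxt; fun_prop
@[fun_prop] theorem poly_sym {b : α → Bool} (hb : Poly b) : Poly fun a => Tbl.sym (b a) :=
  (Poly.of_finite Tbl.sym).comp hb

@[fun_prop] theorem poly_wSt {q : α → ℕ} (hq : Poly q) : Poly fun a => wSt (q a) := by
  unfold wSt; fun_prop
@[fun_prop] theorem poly_wAct {q g : α → ℕ} (hq : Poly q) (hg : Poly g) :
    Poly fun a => wAct (q a) (g a) := by
  unfold wAct; fun_prop
@[fun_prop] theorem poly_wAct1 {q g : α → ℕ} (hq : Poly q) (hg : Poly g) :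
    Poly fun a => wAct1 (q a) (g a) := by
  unfold wAct1; fun_prop
@[fun_prop] theorem poly_wCe {q g : α → ℕ} (hq : Poly q) (hg : Poly g) :
    Poly fun a => wCe (q a) (g a) := by
  unfold wCe; fun_prop
@[fun_prop] theorem poly_wCp {q g : α → ℕ} (hq : Poly q) (hg : Poly g) :
    Poly fun a => wCp (q a) (g a) := by
  unfold wCp; fun_prop
@[fun_prop] theorem poly_wCm {q g : α → ℕ} (hq : Poly q) (hg : Poly g) :
    Poly fun a => wCm (q a) (g a) := by
  unfold wCm; fun_prop
@[fun_prop] theorem poly_wNx {q g : α → ℕ} (hq : Poly q) (hg : Poly g) :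
    Poly fun a => wNx (q a) (g a) := by
  unfold wNx; fun_prop
@[fun_prop] theorem poly_r1 {x y : α → Wire} (hx : Poly x) (hy : Poly y) (o o' : ℕ) :
    Poly fun a => r1 (x a) (y a) o o' := by
  unfold r1; fun_prop

theorem poly_brules {w : α → List Bool} (hM : Poly M) (hw : Poly w) :
    Poly fun a => brules (M a) (w a) := by
  unfold brules
  refine Poly.append (Poly.append (Poly.append (Poly.append (Poly.append (Poly.append ?_ ?_) ?_)
    ?_) ?_) ?_) ?_
  · fun_prop
  · fun_prop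
  · fun_prop
  · fun_prop
  · fun_prop
  · fun_prop
  · refine Poly.flatMap (by fun_prop) (Poly.flatMap (by fun_prop) ?_)
    refine Poly.append (Poly.append ?_ ?_) ?_
    · fun_prop
    · fun_prop
    · refine Poly.flatMap (by fun_prop) (Lib.PolyTime.Poly.map (by fun_prop) ?_)
      fun_prop

end Tbl

theorem poly_opf {nA c j x : α → ℕ} {o : α → Op} (hA : Poly nA) (ho : Poly o) (hc : Poly c)
    (hj : Poly j) (hb : PB j) (hx : Poly x) : Poly fun a => opf (nA a) (o a) (c a) (j a) (x a) := by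
  unfold opf; fun_prop

section CS
variable {rs : α → List Rule} {nA d : α → ℕ}

@[fun_prop] theorem poly_baseRule {ρ : α → ℕ} (hr : Poly rs) (hd : Poly d) (hρ : Poly ρ) :
    Poly fun a => baseRule (rs a) (d a) (ρ a) := by
  unfold baseRule; fun_prop

@[fun_prop] theorem poly_k1 {ρ : α → ℕ} (hr : Poly rs) (hd : Poly d) (hρ : Poly ρ) :
    Poly fun a => (csB (rs a) (nA a) (d a)).k1 (ρ a) := by
  unfold csB; fun_prop

@[fun_prop] theorem poly_k2 {ρ : α → ℕ} (hr : Poly rs) (hd : Poly d) (hρ : Poly ρ) :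
    Poly fun a => (csB (rs a) (nA a) (d a)).k2 (ρ a) := by
  unfold csB; fun_prop

@[fun_prop] theorem poly_out {ρ : α → ℕ} (hr : Poly rs) (hd : Poly d) (hρ : Poly ρ) :
    Poly fun a => (csB (rs a) (nA a) (d a)).out (ρ a) := by
  unfold csB; fun_prop

theorem poly_f {ρ j x : α → ℕ} (hr : Poly rs) (hA : Poly nA) (hd : Poly d) (hρ : Poly ρ)
    (hj : Poly j) (hb : PB j) (hx : Poly x) :
    Poly fun a => (csB (rs a) (nA a) (d a)).f (ρ a) (j a) (x a) := by
  unfold csB
  refine Poly.ite (by fun_prop) (by fun_prop) (Poly.ite (by fun_prop) ?_ ?_)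
  · exact poly_opf hA (by fun_prop) (by fun_prop) hj hb hx
  · exact poly_opf hA (by fun_prop) (by fun_prop) (by fun_prop) (by fun_prop) hx

@[fun_prop] theorem poly_grp {i : α → ℕ} (hd : Poly d) (hi : Poly i) :
    Poly fun a => (csB (rs a) (nA a) (d a)).grp (i a) := by
  unfold CS.grp csB; fun_prop

theorem pb_grp {i : α → ℕ} (hd : PB d) : PB fun a => (csB (rs a) (nA a) (d a)).grp (i a) :=
  PB.min_right _ (((PB.const 2).mul hd).sub _)

@[fun_prop] theorem poly_tag {m i x : α → ℕ} (hd : Poly d) (hm : Poly m) (hi : Poly i)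
    (hx : Poly x) : Poly fun a => (csB (rs a) (nA a) (d a)).tag (m a) (i a) (x a) := by
  unfold CS.tag; fun_prop

theorem poly_slot {m ρ i x c e : α → ℕ} (hr : Poly rs) (hA : Poly nA) (hd : Poly d) (hb : PB d)
    (hm : Poly m) (hρ : Poly ρ) (hi : Poly i) (hx : Poly x) (hc : Poly c) (he : Poly e) :
    Poly fun a => (csB (rs a) (nA a) (d a)).slot (m a) (ρ a) (i a) (x a) (c a) (e a) := by
  have h1 := poly_f hr hA hd hρ (poly_grp (rs := rs) (nA := nA) hd hi) (pb_grp hb) hx
  have h2 : Poly fun p : α × ℕ =>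
      if c p.1 = 0 then (if e p.1 = 0 then Var.hh (ρ p.1) (i p.1) (x p.1) 0
        else if e p.1 = 1 then .ww ((csB (rs p.1) (nA p.1) (d p.1)).k1 (ρ p.1)) (i p.1) (x p.1)
        else .ww ((csB (rs p.1) (nA p.1) (d p.1)).k2 (ρ p.1)) (i p.1) (x p.1))
      else if e p.1 = 0 then .hh (ρ p.1) (i p.1) (x p.1) (c p.1 - 1)
      else if c p.1 = 2 * m p.1 + 14 then
        (if e p.1 = 1 then .ww ((csB (rs p.1) (nA p.1) (d p.1)).k1 (ρ p.1)) (i p.1) (x p.1)
        else .ww ((csB (rs p.1) (nA p.1) (d p.1)).k2 (ρ p.1)) (i p.1) (x p.1))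
      else if e p.1 = 1 then .hh (ρ p.1) (i p.1) (x p.1) (c p.1)
      else if c p.1 = 1 then .ww ((csB (rs p.1) (nA p.1) (d p.1)).out (ρ p.1)) (i p.1) p.2
      else if c p.1 % 2 = 0 then .vv (ρ p.1) (c p.1 / 2) ((i p.1 + m p.1 - 1) % m p.1)
        ((csB (rs p.1) (nA p.1) (d p.1)).tag (m p.1) ((i p.1 + m p.1 - 1) % m p.1) (x p.1))
      else .vv (ρ p.1) (c p.1 / 2) (i p.1)
        ((csB (rs p.1) (nA p.1) (d p.1)).tag (m p.1) (i p.1) (x p.1)) := by
    fun_prop
  refine (Poly.optionCasesOn h1 (poly_dd hρ hi hx hc)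
    (g := fun a a' => if c a = 0 then (if e a = 0 then Var.hh (ρ a) (i a) (x a) 0
        else if e a = 1 then .ww ((csB (rs a) (nA a) (d a)).k1 (ρ a)) (i a) (x a)
        else .ww ((csB (rs a) (nA a) (d a)).k2 (ρ a)) (i a) (x a))
      else if e a = 0 then .hh (ρ a) (i a) (x a) (c a - 1)
      else if c a = 2 * m a + 14 then
        (if e a = 1 then .ww ((csB (rs a) (nA a) (d a)).k1 (ρ a)) (i a) (x a)
        else .ww ((csB (rs a) (nA a) (d a)).k2 (ρ a)) (i a) (x a))
      else if e a = 1 then .hh (ρ a) (i a) (x a) (c a)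
      else if c a = 1 then .ww ((csB (rs a) (nA a) (d a)).out (ρ a)) (i a) a'
      else if c a % 2 = 0 then .vv (ρ a) (c a / 2) ((i a + m a - 1) % m a)
        ((csB (rs a) (nA a) (d a)).tag (m a) ((i a + m a - 1) % m a) (x a))
      else .vv (ρ a) (c a / 2) (i a)
        ((csB (rs a) (nA a) (d a)).tag (m a) (i a) (x a))) h2).congr fun a => ?_
  unfold CS.slot
  cases (csB (rs a) (nA a) (d a)).f (ρ a) ((csB (rs a) (nA a) (d a)).grp (i a)) (x a) <;> rfl

@[fun_prop] theorem poly_ncol {m : α → ℕ} (hm : Poly m) : Poly fun a => ncol (m a) := by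
  unfold ncol; fun_prop

@[fun_prop] theorem pb_ncol {m : α → ℕ} (hm : PB m) : PB fun a => ncol (m a) := by
  unfold ncol; fun_prop

theorem poly_sv {m o : α → ℕ} (hr : Poly rs) (hA : Poly nA) (hd : Poly d) (hb : PB d)
    (hm : Poly m) (ho : Poly o) : Poly fun a => (csB (rs a) (nA a) (d a)).sv (m a) (o a) := by
  have hA' : Poly fun a => (csB (rs a) (nA a) (d a)).nA := hA
  unfold CS.sv
  exact poly_slot hr hA hd hb hm (by fun_prop) (by fun_prop) (by fun_prop) (by fun_prop)
    (by fun_prop)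

theorem poly_bN {m c : α → ℕ} (tw : Bool) (hA : Poly nA) (hm : Poly m) (hc : Poly c) :
    Poly fun a => (csB (rs a) (nA a) (d a)).bN (m a) tw (c a) := by
  have hA' : Poly fun a => (csB (rs a) (nA a) (d a)).nA := hA
  unfold CS.bN
  fun_prop

theorem poly_nC {m : α → ℕ} (hr : Poly rs) (hA : Poly nA) (hd : Poly d) (hm : Poly m) :
    Poly fun a => (csB (rs a) (nA a) (d a)).nC (m a) := by
  unfold CS.nC csB; fun_prop

theorem pb_nC {m : α → ℕ} (hr : Poly rs) (hA : PB nA) (hd : PB d) (hm : PB m) :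
    PB fun a => (csB (rs a) (nA a) (d a)).nC (m a) := by
  unfold CS.nC csB; fun_prop

end CS

/-- The slot number of a local vertex. -/
def ei : Loc → ℕ
  | .a e _ => e
  | .P e _ => e
  | .Q e _ => e
  | .w e => e
  | .u e => e
  | .d e => e
  | .mid _ _ => 0

theorem ei_le (l : Loc) : ei l ≤ 3 := by
  cases l <;> simp [ei]

/-- The finite part of the adjacency test. -/
def fin0 (p : Loc × Loc × ZMod 2 × Bool × Bool × Bool) : Bool :=
  match p.1, p.2.1 with
  | .mid β₀ β₁, .a e β => p.2.2.2.1 && decide (β = mbit p.2.2.1 β₀ β₁ e)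
  | .a e β, .P e' β' => p.2.2.2.1 && decide (e = e' ∧ β = β')
  | .P e β, .Q e' β' => decide (β = β') && ((p.2.2.2.1 && decide (e = e')) || p.2.2.2.2.1)
  | .Q e _, .w e' => p.2.2.2.1 && decide (e = e')
  | .w e, .u e' => p.2.2.2.1 && decide (e = e')
  | .u e, .d e' => (p.2.2.2.1 && decide (e = e')) || p.2.2.2.2.2
  | _, _ => false

theorem nadj0_eq (sv : ℕ → Var) (b : ℕ → ZMod 2) (x y : ℕ × Loc) :
    nadj0 sv b x y = fin0 (x.2, y.2, b x.1, decide (x.1 = y.1),
      decide (Nxt sv (3 * x.1 + ei x.2) (3 * y.1 + ei y.2)),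
      decide (3 * y.1 + ei y.2 = 3 * x.1 + ei x.2 + 1)) := by
  obtain ⟨x, l⟩ := x
  obtain ⟨y, l'⟩ := y
  cases l <;> cases l' <;> simp [nadj0, fin0, ei] <;> rfl

section Neck
variable {sv : α → ℕ → Var} {b : α → ℕ → ZMod 2}

theorem poly_nxt' {o o' : α → ℕ} (hsv : Poly fun p : α × ℕ => sv p.1 p.2) (ho : Poly o)
    (ho' : Poly o') (hb : PB o') : Poly fun a => decide (Nxt (sv a) (o a) (o' a)) := by
  refine Poly.decide_congr (p := fun a => o a < o' a ∧ sv a (o a) = sv a (o' a) ∧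
    ¬ ∃ z < o' a, o a < z ∧ sv a z = sv a (o a)) (by fun_prop) fun a => ?_
  simp [Nxt]

theorem poly_nadj0 {x y : α → ℕ × Loc} (hsv : Poly fun p : α × ℕ => sv p.1 p.2)
    (hb : Poly fun p : α × ℕ => b p.1 p.2) (hx : Poly x) (hy : Poly y)
    (hb' : PB fun a => (y a).1) : Poly fun a => nadj0 (sv a) (b a) (x a) (y a) := by
  have he : Poly ei := Poly.of_finite _
  have h1 : Poly fun a => decide (Nxt (sv a) (3 * (x a).1 + ei (x a).2)
      (3 * (y a).1 + ei (y a).2)) :=
    poly_nxt' hsv (by fun_prop) (by fun_prop)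
      (((PB.const 3).mul hb').add ((PB.const 3).mono fun _ => ei_le _))
  simp only [nadj0_eq]
  refine (Poly.of_finite fin0).comp ?_
  refine hx.snd.pair (hy.snd.pair (Poly.pair ?_ (Poly.pair ?_ (h1.pair ?_)))) <;> fun_prop

theorem poly_neckN {x y : α → ℕ} (hsv : Poly fun p : α × ℕ => sv p.1 p.2)
    (hb : Poly fun p : α × ℕ => b p.1 p.2) (hx : Poly x) (hy : Poly y) (bx : PB x) (bY : PB y) :
    Poly fun a => neckN (sv a) (b a) (x a) (y a) := by
  have hl : ∀ {x : α → ℕ}, Poly x → Poly fun a => (x a / 31, locOf (x a % 31)) := by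
    intro x hx
    unfold locOf
    fun_prop
  unfold neckN nadj
  exact (poly_nadj0 hsv hb (hl hx) (hl hy) (bY.div _)).or
    (poly_nadj0 hsv hb (hl hy) (hl hx) (bx.div _))

end Neck

section Red
variable {M : α → Tbl} {w : α → List Bool} {nA d m : α → ℕ}

theorem poly_redN (hM : Poly M) (hw : Poly w) (hA : Poly nA) (hd : Poly d) (hm : Poly m) :
    Poly fun a => redN (M a) (w a) (nA a) (d a) (m a) :=
  (poly_nC (poly_brules hM hw) hA hd hm).mul (by fun_prop)

theorem pb_redN (hM : Poly M) (hw : Poly w) (hA : PB nA) (hd : PB d) (hm : PB m) :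
    PB fun a => redN (M a) (w a) (nA a) (d a) (m a) :=
  (pb_nC (poly_brules hM hw) hA hd hm).mul (PB.const 31)

theorem poly_redAdj {x y : α → ℕ} (tw : Bool) (hM : Poly M) (hw : Poly w) (hA : Poly nA)
    (hd : Poly d) (hb : PB d) (hm : Poly m) (hx : Poly x) (hy : Poly y) (bx : PB x) (bY : PB y) :
    Poly fun a => redAdj (M a) (w a) (nA a) (d a) (m a) tw (x a) (y a) := by
  have hr := poly_brules hM hw
  refine poly_neckN (sv := fun a => (redS (M a) (w a) (nA a) (d a)).sv (m a))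
    (b := fun a => (redS (M a) (w a) (nA a) (d a)).bN (m a) tw) ?_ ?_ hx hy bx bY
  · exact poly_sv (hr.comp Poly.id'.fst) (by fun_prop) (by fun_prop) (by fun_prop) (by fun_prop)
      (by fun_prop)
  · exact poly_bN tw (by fun_prop) (by fun_prop) (by fun_prop)

theorem poly_mat {n : α → ℕ} {adj : α → ℕ → ℕ → Bool} (hn : Poly n) (hb : PB n)
    (h : Poly fun p : α × Un × Un => adj p.1 p.2.1.n p.2.2.n) :
    Poly fun a => adjMatrixCode (mat (n a) (adj a)) := by
  have h1 : Poly fun a => ((List.range (n a)).map fun i => (List.range (n a)).map fun j =>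
      adj a i j).flatten :=
    (Poly.map_range hn hb (Poly.map_range (by fun_prop) (by fun_prop)
      (h.comp (g := fun p : (α × Un) × Un => (p.1.1, p.1.2, p.2)) (by fun_prop)))).flatten
  refine (hn.natCode.append h1).congr fun a => ?_
  simp only [adjMatrixCode, mat, List.flatMap_def, ← List.map_coe_finRange_eq_range,
    List.map_map, Function.comp_def]

end Red

end PolyRedAux

open PolyRedAux

theorem poly_redG (tw : Bool) : Poly fun a : List ℕ × List Bool × Un × Un × Un =>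
    adjMatrixCode (redG a.1 a.2.1 a.2.2.1.n a.2.2.2.1.n a.2.2.2.2.n tw) := by
  refine poly_mat ?_ ?_ ?_
  · exact poly_redN (by fun_prop) (by fun_prop) (by fun_prop) (by fun_prop) (by fun_prop)
  · exact pb_redN (by fun_prop) (by fun_prop) (by fun_prop) (by fun_prop) (by fun_prop)
  · exact poly_redAdj tw (by fun_prop) (by fun_prop) (by fun_prop) (by fun_prop) (by fun_prop)
      (by fun_prop) (by fun_prop) (by fun_prop) (by fun_prop) (by fun_prop)

theorem poly_redP (tw : Bool) : Poly fun a : List ℕ × List Bool × Un × Un × Un × Un =>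
    adjMatrixCode (redP a.1 a.2.1 a.2.2.1.n a.2.2.2.1.n a.2.2.2.2.1.n a.2.2.2.2.2.n tw) := by
  refine poly_mat (by fun_prop) (by fun_prop) ?_
  have h1 : Poly fun p : (List ℕ × List Bool × Un × Un × Un × Un) × Un × Un =>
      redN p.1.1 p.1.2.1 p.1.2.2.1.n p.1.2.2.2.1.n p.1.2.2.2.2.1.n :=
    poly_redN (by fun_prop) (by fun_prop) (by fun_prop) (by fun_prop) (by fun_prop)
  have h2 : Poly fun p : (List ℕ × List Bool × Un × Un × Un × Un) × Un × Un =>
      redAdj p.1.1 p.1.2.1 p.1.2.2.1.n p.1.2.2.2.1.n p.1.2.2.2.2.1.n tw p.2.1.n p.2.2.n :=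
    poly_redAdj tw (by fun_prop) (by fun_prop) (by fun_prop) (by fun_prop) (by fun_prop)
      (by fun_prop) (by fun_prop) (by fun_prop) (by fun_prop) (by fun_prop)
  unfold padN
  refine Poly.ite (by fun_prop) (by fun_prop) (Poly.ite (by fun_prop) (by fun_prop)
    (Poly.ite ?_ h2 (by fun_prop)))
  exact Poly.decide_and (Poly.decide_lt (by fun_prop) h1) (Poly.decide_lt (by fun_prop) h1)

end Crest.Agent.R290
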