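import Crest.Agent.R290.Defs

/-!
# Row 290: the rules of a table machine describe its run
-/

set_option autoImplicit false

namespace Crest.Agent.R290

namespace Tab

/-- The second key of the copying rules. -/
def key2 (M : Tbl) (q γ s γ' : ℕ) : Wire :=
  if s ≠ M.stk q ∨ M.op q γ = 0 then wCe s γ' else if M.op q γ = 1 then wCp s γ' else wCm s γ'

/-- The rules, as an inductive predicate. -/
inductive BR (M : Tbl) (w : List Bool) : Rule → Prop
  | a1 : BR M w (wE, wE, wT, (0, 0), (0, 0))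
  | a2 : BR M w (r1 wE wG 0 0)
  | a3 : BR M w (r1 (wSt 1) wE 5 5)
  | a4 : BR M w (r1 wE wE1 2 0)
  | a5 : BR M w (r1 wE wE1 0 2)
  | a6 : BR M w (r1 wE1 wE 0 0)
  | a7 : BR M w (r1 wE wE1 0 0)
  | a8 : BR M w (r1 wE wB 0 0)
  | a9 : BR M w (r1 wE wB1 0 0)
  | a10 : BR M w (r1 wT (wSt 2) 1 1)
  | a11 : BR M w (wT, wT, wB, (1, 0), (6, w.length))
  | a12 : BR M w (r1 wB wB1 0 2)
  | a13 : BR M w (r1 wB1 wB 0 0)
  | a14 : BR M w (r1 wB (wCe 0 0) 0 0)
  | inp {x : ℕ} : x < w.length →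
      BR M w (wT, wT, wCe 0 (Tbl.sym (w.getD x false)), (1, 0), (6, x))
  | emp {s : ℕ} : s < M.nS - 1 → BR M w (r1 wT (wCe (s + 1) 0) 1 0)
  | lst {s : ℕ} : s < M.nS → BR M w (r1 wT (wCp s 0) 0 4)
  | eSt {q : ℕ} : q < M.nQ → BR M w (r1 wE (wSt q) 0 0)
  | eCe {s γ : ℕ} : s < M.nS → γ < M.nG → BR M w (r1 wE (wCe s γ) 0 0)
  | eCp {s γ : ℕ} : s < M.nS → γ < M.nG → BR M w (r1 wE (wCp s γ) 0 0)
  | eCm {s γ : ℕ} : s < M.nS → γ < M.nG → BR M w (r1 wE (wCm s γ) 0 0)
  | eNx {s γ : ℕ} : s < M.nS → γ < M.nG → BR M w (r1 wE (wNx s γ) 0 0)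
  | cp {s γ : ℕ} : s < M.nS → γ < M.nG → BR M w (r1 (wCe s γ) (wCp s γ) 0 3)
  | cm {s γ : ℕ} : s < M.nS → γ < M.nG → BR M w (r1 (wCe s γ) (wCm s γ) 0 2)
  | nx {s γ : ℕ} : s < M.nS → γ < M.nG → BR M w (r1 (wNx s γ) (wCe s γ) 2 0)
  | eAct {q γ : ℕ} : q < M.nQ → γ < M.nG → BR M w (r1 wE (wAct q γ) 0 0)
  | eAct1 {q γ : ℕ} : q < M.nQ → γ < M.nG → BR M w (r1 wE (wAct1 q γ) 0 0)
  | act {q γ : ℕ} : q < M.nQ → γ < M.nG →
      BR M w (wSt q, wCe (M.stk q) γ, wAct q γ, (0, 0), (0, 0))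
  | act1 {q γ : ℕ} : q < M.nQ → γ < M.nG → BR M w (r1 (wAct q γ) (wAct1 q γ) 0 2)
  | act2 {q γ : ℕ} : q < M.nQ → γ < M.nG → BR M w (r1 (wAct1 q γ) (wAct q γ) 0 0)
  | nst {q γ : ℕ} : q < M.nQ → γ < M.nG → BR M w (r1 (wAct q γ) (wSt (M.nxt q γ)) 2 1)
  | push {q γ : ℕ} : q < M.nQ → γ < M.nG → 2 ≤ M.op q γ →
      BR M w (r1 (wAct q γ) (wNx (M.stk q) (M.op q γ - 1)) 0 1)
  | cpy {q γ s γ' : ℕ} : q < M.nQ → γ < M.nG → s < M.nS → γ' < M.nG →
      BR M w (wAct q γ, key2 M q γ s γ', wNx s γ', (0, 0), (0, 0))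

variable {M : Tbl} {w : List Bool} {T B : ℕ}

theorem mem_brules {r : Rule} : r ∈ brules M w ↔ BR M w r := by
  constructor
  · intro h
    simp only [brules, List.mem_append, List.mem_cons, List.mem_map, List.mem_range,
      List.mem_flatMap, List.not_mem_nil, or_false] at h
    rcases h with (((((((rfl | rfl | rfl | rfl | rfl | rfl | rfl | rfl | rfl | rfl | rfl | rfl |
      rfl | rfl) | ⟨x, hx, rfl⟩) | ⟨s, hs, rfl⟩) | ⟨s, hs, rfl⟩) | ⟨q, hq, rfl⟩) |
      ⟨s, hs, γ, hγ, rfl | rfl | rfl | rfl | rfl | rfl | rfl⟩) |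
      ⟨q, hq, γ, hγ, ((rfl | rfl | rfl | rfl | rfl | rfl) | h) | ⟨s, hs, γ', hγ', rfl⟩⟩)
    any_goals (constructor <;> assumption)
    · split_ifs at h with h2
      · rw [List.mem_singleton.1 h]
        exact .push hq hγ h2
      · simp at h
  · intro h
    simp only [brules, List.mem_append, List.mem_map, List.mem_range, List.mem_flatMap]
    cases h
    case inp x hx => exact .inl (.inl (.inl (.inl (.inl (.inr ⟨x, hx, rfl⟩)))))
    case emp s hs => exact .inl (.inl (.inl (.inl (.inr ⟨s, hs, rfl⟩))))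
    case lst s hs => exact .inl (.inl (.inl (.inr ⟨s, hs, rfl⟩)))
    case eSt q hq => exact .inl (.inl (.inr ⟨q, hq, rfl⟩))
    case eCe s γ hs hγ => exact .inl (.inr ⟨s, hs, γ, hγ, by simp⟩)
    case eCp s γ hs hγ => exact .inl (.inr ⟨s, hs, γ, hγ, by simp⟩)
    case eCm s γ hs hγ => exact .inl (.inr ⟨s, hs, γ, hγ, by simp⟩)
    case eNx s γ hs hγ => exact .inl (.inr ⟨s, hs, γ, hγ, by simp⟩)
    case cp s γ hs hγ => exact .inl (.inr ⟨s, hs, γ, hγ, by simp⟩)
    case cm s γ hs hγ => exact .inl (.inr ⟨s, hs, γ, hγ, by simp⟩)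
    case nx s γ hs hγ => exact .inl (.inr ⟨s, hs, γ, hγ, by simp⟩)
    case eAct q γ hq hγ => exact .inr ⟨q, hq, γ, hγ, .inl (.inl (by simp))⟩
    case eAct1 q γ hq hγ => exact .inr ⟨q, hq, γ, hγ, .inl (.inl (by simp))⟩
    case act q γ hq hγ => exact .inr ⟨q, hq, γ, hγ, .inl (.inl (by simp))⟩
    case act1 q γ hq hγ => exact .inr ⟨q, hq, γ, hγ, .inl (.inl (by simp))⟩
    case act2 q γ hq hγ => exact .inr ⟨q, hq, γ, hγ, .inl (.inl (by simp))⟩
    case nst q γ hq hγ => exact .inr ⟨q, hq, γ, hγ, .inl (.inl (by simp))⟩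
    case push q γ hq hγ h => exact .inr ⟨q, hq, γ, hγ, .inl (.inr (by simp [h]))⟩
    case cpy q γ s γ' hq hγ hs hγ' => exact .inr ⟨q, hq, γ, hγ, .inr ⟨s, hs, γ', hγ', rfl⟩⟩
    all_goals exact .inl (.inl (.inl (.inl (.inl (.inl (by simp))))))

/-- The state at time `t`. -/
def st (M : Tbl) (w : List Bool) (t : ℕ) : ℕ := (M.run w t).1

/-- The content of a cell at time `t`. -/
def cell (M : Tbl) (w : List Bool) (s x t : ℕ) : ℕ := ((M.run w t).2.getD s []).getD x 0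

/-- The top symbol at time `t`. -/
def tp (M : Tbl) (w : List Bool) (t : ℕ) : ℕ := cell M w (M.stk (st M w t)) 0 t

theorem run_succ (t : ℕ) : M.run w (t + 1) = M.step (M.run w t) :=
  Function.iterate_succ_apply' _ _ _

theorem top_eq (t : ℕ) : M.top (M.run w t) = tp M w t := by
  simp only [Tbl.top, tp, cell, st]
  generalize (M.run w t).2.getD _ [] = l
  cases l <;> rfl

theorem st_zero : st M w 0 = 2 := rfl

theorem st_succ (t : ℕ) : st M w (t + 1) = M.nxt (st M w t) (tp M w t) := by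
  rw [st, run_succ, ← top_eq]
  rfl

theorem cell_zero_zero (x : ℕ) :
    cell M w 0 x 0 = if x < w.length then Tbl.sym (w.getD x false) else 0 := by
  change (w.map Tbl.sym).getD x 0 = _
  split_ifs with h
  · simp [List.getD_eq_getElem?_getD, h]
  · simp [List.getD_eq_getElem?_getD, h]

theorem cell_succ_zero (s x : ℕ) : cell M w (s + 1) x 0 = 0 := by
  change ((List.replicate (M.nS - 1) ([] : List ℕ)).getD s []).getD x 0 = 0
  simp only [List.getD_eq_getElem?_getD, List.getElem?_replicate]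
  split_ifs <;> simp

theorem length_run (hM : M.WF) (t : ℕ) : (M.run w t).2.length = M.nS := by
  induction t with
  | zero =>
    have := hM.nS
    change (List.replicate (M.nS - 1) ([] : List ℕ)).length + 1 = _
    rw [List.length_replicate]
    omega
  | succ t ih => rw [run_succ, Tbl.step, List.length_set, ih]

theorem cell_succ (hM : M.WF) {t : ℕ} (hq : st M w t < M.nQ) (s x : ℕ) :
    cell M w s x (t + 1) =
      if s ≠ M.stk (st M w t) ∨ M.op (st M w t) (tp M w t) = 0 then cell M w s x t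
      else if M.op (st M w t) (tp M w t) = 1 then cell M w s (x + 1) t
      else if x = 0 then M.op (st M w t) (tp M w t) - 1 else cell M w s (x - 1) t := by
  have hl : M.stk (st M w t) < (M.run w t).2.length := by
    rw [length_run hM]
    exact hM.stk _ hq
  rw [cell, run_succ, Tbl.step, top_eq]
  change (((M.run w t).2.set (M.stk (st M w t)) (Tbl.app (M.op (st M w t) (tp M w t))
    ((M.run w t).2.getD (M.stk (st M w t)) []))).getD s []).getD x 0 = _
  generalize M.op (st M w t) (tp M w t) = o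
  by_cases hs : s = M.stk (st M w t)
  · rw [← hs] at hl ⊢
    have e : ∀ l, ((M.run w t).2.set s l).getD s [] = l := fun l => by
      simp [List.getD_eq_getElem?_getD, hl]
    rw [e]
    simp only [cell, ne_eq, not_true, false_or, Tbl.app]
    generalize (M.run w t).2.getD s [] = l
    split_ifs with h0 h1 h2
    · rfl
    · cases l <;> simp
    · rw [h2]
      rfl
    · obtain ⟨x, rfl⟩ := Nat.exists_eq_succ_of_ne_zero h2
      rfl
  · rw [if_pos (Or.inl hs), cell]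
    congr 1
    simp [List.getD_eq_getElem?_getD, List.getElem?_set_ne (Ne.symm hs)]

theorem inv (hM : M.WF) (t : ℕ) : st M w t < M.nQ ∧ (∀ s x, cell M w s x t < M.nG) ∧
    ∀ s x, w.length + t ≤ x → cell M w s x t = 0 := by
  have hG := hM.nG
  induction t with
  | zero =>
    refine ⟨hM.nQ, fun s x => ?_, fun s x hx => ?_⟩
    · cases s with
      | zero =>
        rw [cell_zero_zero, Tbl.sym]
        split_ifs <;> omega
      | succ s =>
        rw [cell_succ_zero]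
        omega
    · cases s with
      | zero => rw [cell_zero_zero, if_neg (by omega)]
      | succ s => exact cell_succ_zero s x
  | succ t ih =>
    obtain ⟨h1, h2, h3⟩ := ih
    refine ⟨?_, fun s x => ?_, fun s x hx => ?_⟩
    · rw [st_succ]
      exact hM.nxt _ h1 _ (h2 _ _)
    · rw [cell_succ hM h1]
      have := hM.op _ h1 (tp M w t) (h2 _ _)
      split_ifs
      · exact h2 _ _
      · exact h2 _ _
      · omega
      · exact h2 _ _
    · rw [cell_succ hM h1]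
      split_ifs
      · exact h3 _ _ (by omega)
      · exact h3 _ _ (by omega)
      · omega
      · exact h3 _ _ (by omega)

theorem st_lt (hM : M.WF) (t : ℕ) : st M w t < M.nQ := (inv hM t).1

theorem cell_lt (hM : M.WF) (s x t : ℕ) : cell M w s x t < M.nG := (inv hM t).2.1 s x

theorem tp_lt (hM : M.WF) (t : ℕ) : tp M w t < M.nG := cell_lt hM _ _ _

theorem freeze (hM : M.WF) (h : st M w T < 2) {t : ℕ} (ht : T ≤ t) :
    st M w t = st M w T ∧ ∀ s x, cell M w s x t = cell M w s x T := by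
  induction t, ht using Nat.le_induction with
  | base => exact ⟨rfl, fun _ _ => rfl⟩
  | succ t ht ih =>
    have := hM.stop (st M w t) (ih.1 ▸ h) _ (tp_lt (w := w) hM t)
    refine ⟨by rw [st_succ, this.2, ih.1], fun s x => ?_⟩
    rw [cell_succ hM (st_lt hM t), if_pos (Or.inr this.1), ih.2]

theorem cell_big (hM : M.WF) (h : st M w T < 2) (s t : ℕ) {x : ℕ} (hx : w.length + T ≤ x) :
    cell M w s x t = 0 := by
  rcases le_total T t with ht | ht
  · rw [(freeze hM h ht).2]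
    exact (inv hM T).2.2 _ _ hx
  · exact (inv hM t).2.2 _ _ (by omega)

/-- The meaning of the wires for a rejecting run. -/
def Sem (M : Tbl) (w : List Bool) (y : Wire) (t x : ℕ) : Prop :=
  if y.1 = 0 then True
  else if y.1 = 4 ∨ y.1 = 5 then t = 0 ∧ w.length ≤ x
  else if y.1 = 6 then x = 0 ∧ st M w t = y.2.1
  else if y.1 = 7 ∨ y.1 = 8 then st M w t = y.2.1 ∧ tp M w t = y.2.2
  else if y.1 = 9 then cell M w y.2.1 x t = y.2.2
  else if y.1 = 10 then cell M w y.2.1 (x + 1) t = y.2.2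
  else if y.1 = 11 then 1 ≤ x ∧ cell M w y.2.1 (x - 1) t = y.2.2
  else if y.1 = 12 then cell M w y.2.1 x (t + 1) = y.2.2
  else False

section sem
variable {t x q γ s : ℕ}
theorem sem_T : Sem M w wT t x ↔ True := by simp [Sem, wT]
theorem sem_E : Sem M w wE t x ↔ False := by simp [Sem, wE]
theorem sem_E1 : Sem M w wE1 t x ↔ False := by simp [Sem, wE1]
theorem sem_G : Sem M w wG t x ↔ False := by simp [Sem, wG]
theorem sem_B : Sem M w wB t x ↔ t = 0 ∧ w.length ≤ x := by simp [Sem, wB]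
theorem sem_B1 : Sem M w wB1 t x ↔ t = 0 ∧ w.length ≤ x := by simp [Sem, wB1]
theorem sem_St : Sem M w (wSt q) t x ↔ x = 0 ∧ st M w t = q := by simp [Sem, wSt]
theorem sem_Act : Sem M w (wAct q γ) t x ↔ st M w t = q ∧ tp M w t = γ := by simp [Sem, wAct]
theorem sem_Act1 : Sem M w (wAct1 q γ) t x ↔ st M w t = q ∧ tp M w t = γ := by simp [Sem, wAct1]
theorem sem_Ce : Sem M w (wCe s γ) t x ↔ cell M w s x t = γ := by simp [Sem, wCe]
theorem sem_Cp : Sem M w (wCp s γ) t x ↔ cell M w s (x + 1) t = γ := by simp [Sem, wCp]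
theorem sem_Cm : Sem M w (wCm s γ) t x ↔ 1 ≤ x ∧ cell M w s (x - 1) t = γ := by simp [Sem, wCm]
theorem sem_Nx : Sem M w (wNx s γ) t x ↔ cell M w s x (t + 1) = γ := by simp [Sem, wNx]
end sem

section op
variable {t t' k : ℕ}
theorem op0 : OpRel B (0, k) t t' ↔ t < B ∧ t' < B ∧ t' = t := by simp [OpRel]
theorem op1 : OpRel B (1, k) t t' ↔ t < B ∧ t' < B ∧ t = 0 ∧ t' = 0 := by simp [OpRel]
theorem op2 : OpRel B (2, k) t t' ↔ t < B ∧ t' < B ∧ t' = t + 1 := by simp [OpRel]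
theorem op3 : OpRel B (3, k) t t' ↔ t < B ∧ t' < B ∧ t = t' + 1 := by simp [OpRel]
theorem op4 : OpRel B (4, k) t t' ↔ t < B ∧ t' < B ∧ t + 1 = B ∧ t' = t := by simp [OpRel]
theorem op5 : OpRel B (5, k) t t' ↔ t < B ∧ t' < B ∧ t' = 0 := by simp [OpRel]
theorem op6 : OpRel B (6, k) t t' ↔ t < B ∧ t' < B ∧ t = 0 ∧ t' = k % B := by simp [OpRel]
end op

theorem src_cases {r : Rule} (h : BR M w r) (he : r.1 = r.2.1) :
    r.2.2.1 = wT ∨ (r.1 = wT ∧ r.2.1 = wT) := by
  cases h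
  case cpy =>
    simp only [key2] at he
    split_ifs at he <;> simp [wAct, wCe, wCp, wCm] at he
  all_goals first
    | exact Or.inl rfl
    | exact Or.inr ⟨rfl, rfl⟩
    | exact Or.inr ⟨he, rfl⟩
    | simp [wSt, wCe] at he

theorem sound (hM : M.WF) (hB : w.length + T < B) (h : st M w T = 0) {r : Rule} (hr : BR M w r)
    {t x t' x' : ℕ} (h1 : Sem M w r.1 t x) (h2 : Sem M w r.2.1 t x)
    (ht : OpRel B r.2.2.2.1 t t') (hx : OpRel B r.2.2.2.2 x x') : Sem M w r.2.2.1 t' x' := by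
  cases hr
  all_goals simp only [r1, sem_T, sem_E, sem_E1, sem_B, sem_B1, sem_St, sem_Act, sem_Act1,
    sem_Ce, sem_Cp, sem_Cm, sem_Nx, op0, op1, op2, op3, op4, op5, op6] at h1 ht hx ⊢
  case a3 =>
    rcases le_total T t with h3 | h3
    · have := (freeze (w := w) hM (by omega) h3).1
      omega
    · have := (freeze (w := w) hM (by omega) h3).1
      omega
  case a10 => obtain ⟨-, -, -, rfl⟩ := ht; exact ⟨hx.2.2.2, rfl⟩
  case a11 => rw [Nat.mod_eq_of_lt (by omega)] at hx; omega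
  case a12 => omega
  case a13 => omega
  case a14 =>
    obtain ⟨-, -, rfl⟩ := ht
    obtain ⟨-, -, rfl⟩ := hx
    rw [h1.1, cell_zero_zero, if_neg (by omega)]
  case inp y hy =>
    rw [Nat.mod_eq_of_lt (by omega)] at hx
    rw [ht.2.2.2, hx.2.2.2, cell_zero_zero, if_pos hy]
  case emp => rw [ht.2.2.2, cell_succ_zero]
  case lst => exact cell_big hM (T := T) (by omega) _ _ (by omega)
  case cp => rw [ht.2.2, ← hx.2.2, h1]
  case cm => rw [ht.2.2, hx.2.2, Nat.add_sub_cancel, h1]; simp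
  case nx => rw [ht.2.2, hx.2.2, h1]
  case act =>
    rw [sem_Ce, h1.1] at h2
    rw [ht.2.2, tp, h1.2]
    exact ⟨rfl, h2⟩
  case act1 => rw [ht.2.2]; exact h1
  case act2 => rw [ht.2.2]; exact h1
  case nst => rw [ht.2.2, st_succ, h1.1, h1.2]; exact ⟨hx.2.2.2, rfl⟩
  case push q γ hq hγ ho =>
    rw [ht.2.2, hx.2.2.2, cell_succ hM (st_lt hM t), h1.1, h1.2, if_neg (by omega),
      if_neg (by omega), if_pos rfl]
  case cpy =>
    rw [ht.2.2, hx.2.2, cell_succ hM (st_lt hM t), h1.1, h1.2]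
    simp only [key2] at h2
    split_ifs at h2 ⊢ with h3 h4 h5
    · exact sem_Ce.1 h2
    · exact sem_Cp.1 h2
    · have := (sem_Cm.1 h2).1
      omega
    · exact (sem_Cm.1 h2).2

theorem one {a b : Wire} {o o' t x t' x' : ℕ} (hr : BR M w (r1 a b o o'))
    (h : Tr2 (brules M w) B a t x) (ht : OpRel B (o, 0) t t') (hx : OpRel B (o', 0) x x') :
    Tr2 (brules M w) B b t' x' :=
  Tr2.both (mem_brules.2 hr) h
    (Tr2.src (mem_brules.2 .a1) rfl (op0.2 ⟨ht.1, ht.1, rfl⟩) (op0.2 ⟨hx.1, hx.1, rfl⟩)) ht hx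

theorem trT {t x : ℕ} (ht : t < B) (hx : x < B) : Tr2 (brules M w) B wT t x :=
  Tr2.src (mem_brules.2 .a1) rfl (op0.2 ⟨ht, ht, rfl⟩) (op0.2 ⟨hx, hx, rfl⟩)

theorem spread {a b : Wire} (h1 : BR M w (r1 a b 0 2)) (h2 : BR M w (r1 b a 0 0)) {t x : ℕ}
    (ht : t < B) (h : Tr2 (brules M w) B a t x) {x' : ℕ} (hx : x ≤ x') (hx' : x' < B) :
    Tr2 (brules M w) B a t x' := by
  induction x', hx using Nat.le_induction with
  | base => exact h
  | succ y hy ih =>
    exact one h2 (one h1 (ih (by omega)) (op0.2 ⟨ht, ht, rfl⟩) (op2.2 ⟨by omega, hx', rfl⟩))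
      (op0.2 ⟨ht, ht, rfl⟩) (op0.2 ⟨hx', hx', rfl⟩)

theorem complete (hM : M.WF) (hB : w.length + T < B) (h : st M w T < 2) {t : ℕ} (ht : t ≤ T) :
    Tr2 (brules M w) B (wSt (st M w t)) t 0 ∧
      ∀ s < M.nS, ∀ x < B, Tr2 (brules M w) B (wCe s (cell M w s x t)) t x := by
  have h0 : 0 < B := by omega
  induction t with
  | zero =>
    refine ⟨one .a10 (trT h0 h0) (op1.2 ⟨h0, h0, rfl, rfl⟩) (op1.2 ⟨h0, h0, rfl, rfl⟩),
      fun s hs x hx => ?_⟩
    cases s with
    | zero =>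
      rw [cell_zero_zero]
      split_ifs with hw
      · exact Tr2.src (mem_brules.2 (.inp hw)) rfl (op1.2 ⟨h0, h0, rfl, rfl⟩)
          (op6.2 ⟨h0, hx, rfl, (Nat.mod_eq_of_lt hx).symm⟩)
      · have h1 : Tr2 (brules M w) B wB 0 w.length :=
          Tr2.src (mem_brules.2 .a11) rfl (op1.2 ⟨h0, h0, rfl, rfl⟩)
            (op6.2 ⟨h0, by omega, rfl, (Nat.mod_eq_of_lt (by omega)).symm⟩)
        exact one .a14 (spread .a12 .a13 h0 h1 (by omega) hx) (op0.2 ⟨h0, h0, rfl⟩)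
          (op0.2 ⟨hx, hx, rfl⟩)
    | succ s =>
      rw [cell_succ_zero]
      exact one (.emp (by omega)) (trT h0 hx) (op1.2 ⟨h0, h0, rfl, rfl⟩) (op0.2 ⟨hx, hx, rfl⟩)
  | succ t ih =>
    obtain ⟨h1, h2⟩ := ih (by omega)
    have ht0 : t < B := by omega
    have ht1 : t + 1 < B := by omega
    have hq := st_lt (w := w) hM t
    have hγ := tp_lt (w := w) hM t
    have k0 : OpRel B (0, 0) t t := op0.2 ⟨ht0, ht0, rfl⟩
    have h3 : Tr2 (brules M w) B (wAct (st M w t) (tp M w t)) t 0 :=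
      Tr2.both (mem_brules.2 (.act hq hγ)) h1 (h2 _ (hM.stk _ hq) 0 h0) k0 (op0.2 ⟨h0, h0, rfl⟩)
    have h4 : ∀ x < B, Tr2 (brules M w) B (wAct (st M w t) (tp M w t)) t x := fun x hx =>
      spread (.act1 hq hγ) (.act2 hq hγ) ht0 h3 (Nat.zero_le x) hx
    refine ⟨?_, fun s hs x hx => ?_⟩
    · rw [st_succ]
      exact one (.nst hq hγ) h3 (op2.2 ⟨ht0, ht1, rfl⟩) (op1.2 ⟨h0, h0, rfl, rfl⟩)
    have k1 : OpRel B (0, 0) x x := op0.2 ⟨hx, hx, rfl⟩
    have hγ' := cell_lt (w := w) hM s x (t + 1)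
    refine one (.nx hs hγ') ?_ (op2.2 ⟨ht0, ht1, rfl⟩) k1
    have h5 : Tr2 (brules M w) B (key2 M (st M w t) (tp M w t) s (cell M w s x (t + 1))) t x →
        Tr2 (brules M w) B (wNx s (cell M w s x (t + 1))) t x := fun h5 =>
      Tr2.both (mem_brules.2 (.cpy hq hγ hs hγ')) (h4 x hx) h5 k0 k1
    rw [key2] at h5
    have h6 := cell_succ (w := w) hM hq s x
    split_ifs at h5 h6 with c1 c2 c3
    · exact h5 (h6 ▸ h2 s hs x hx)
    · refine h5 ?_
      rw [h6]
      by_cases c4 : x + 1 = B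
      · rw [cell_big hM h _ _ (by omega)]
        exact one (.lst hs) (trT ht0 hx) k0 (op4.2 ⟨hx, hx, c4, rfl⟩)
      · exact one (.cp hs (cell_lt hM _ _ _)) (h2 s hs (x + 1) (by omega)) k0
          (op3.2 ⟨by omega, hx, rfl⟩)
    · have c4 : s = M.stk (st M w t) := by omega
      rw [h6, c3, c4]
      exact one (.push hq hγ (by omega)) h3 k0 (op1.2 ⟨h0, h0, rfl, rfl⟩)
    · refine h5 ?_
      rw [h6]
      exact one (.cm hs (cell_lt hM _ _ _)) (h2 s hs (x - 1) (by omega)) k0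
        (op2.2 ⟨by omega, hx, by omega⟩)

/-- Wires that are produced by an identity rule from `wE`. -/
def Key (M : Tbl) (w : List Bool) (y : Wire) : Prop := y = wT ∨ y = wE ∨ BR M w (r1 wE y 0 0)

theorem key_key2 {q γ s γ' : ℕ} (hs : s < M.nS) (hγ' : γ' < M.nG) :
    BR M w (r1 wE (key2 M q γ s γ') 0 0) := by
  rw [key2]
  split_ifs
  · exact .eCe hs hγ'
  · exact .eCp hs hγ'
  · exact .eCm hs hγ'

theorem keys (hM : M.WF) {r : Rule} (h : BR M w r) :
    Key M w r.1 ∧ Key M w r.2.1 ∧ Key M w r.2.2.1 := by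
  have hT : Key M w wT := .inl rfl
  have hE : Key M w wE := .inr (.inl rfl)
  have k : ∀ {y}, BR M w (r1 wE y 0 0) → Key M w y := fun h => .inr (.inr h)
  have h1 := hM.nS
  have h2 := hM.nG
  have h3 := hM.nQ
  cases h
  case a1 => exact ⟨hE, hE, hT⟩
  case a2 => exact ⟨hE, hT, k .a2⟩
  case a3 => exact ⟨k (.eSt (by omega)), hT, hE⟩
  case a4 => exact ⟨hE, hT, k .a7⟩
  case a5 => exact ⟨hE, hT, k .a7⟩
  case a6 => exact ⟨k .a7, hT, hE⟩
  case a7 => exact ⟨hE, hT, k .a7⟩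
  case a8 => exact ⟨hE, hT, k .a8⟩
  case a9 => exact ⟨hE, hT, k .a9⟩
  case a10 => exact ⟨hT, hT, k (.eSt (by omega))⟩
  case a11 => exact ⟨hT, hT, k .a8⟩
  case a12 => exact ⟨k .a8, hT, k .a9⟩
  case a13 => exact ⟨k .a9, hT, k .a8⟩
  case a14 => exact ⟨k .a8, hT, k (.eCe (by omega) (by omega))⟩
  case inp => exact ⟨hT, hT, k (.eCe (by omega) (by rw [Tbl.sym]; split_ifs <;> omega))⟩
  case emp => exact ⟨hT, hT, k (.eCe (by omega) (by omega))⟩
  case lst s hs => exact ⟨hT, hT, k (.eCp hs (by omega))⟩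
  case eSt q hq => exact ⟨hE, hT, k (.eSt hq)⟩
  case eCe s γ hs hγ => exact ⟨hE, hT, k (.eCe hs hγ)⟩
  case eCp s γ hs hγ => exact ⟨hE, hT, k (.eCp hs hγ)⟩
  case eCm s γ hs hγ => exact ⟨hE, hT, k (.eCm hs hγ)⟩
  case eNx s γ hs hγ => exact ⟨hE, hT, k (.eNx hs hγ)⟩
  case cp s γ hs hγ => exact ⟨k (.eCe hs hγ), hT, k (.eCp hs hγ)⟩
  case cm s γ hs hγ => exact ⟨k (.eCe hs hγ), hT, k (.eCm hs hγ)⟩
  case nx s γ hs hγ => exact ⟨k (.eNx hs hγ), hT, k (.eCe hs hγ)⟩
  case eAct q γ hq hγ => exact ⟨hE, hT, k (.eAct hq hγ)⟩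
  case eAct1 q γ hq hγ => exact ⟨hE, hT, k (.eAct1 hq hγ)⟩
  case act q γ hq hγ => exact ⟨k (.eSt hq), k (.eCe (hM.stk _ hq) hγ), k (.eAct hq hγ)⟩
  case act1 q γ hq hγ => exact ⟨k (.eAct hq hγ), hT, k (.eAct1 hq hγ)⟩
  case act2 q γ hq hγ => exact ⟨k (.eAct1 hq hγ), hT, k (.eAct hq hγ)⟩
  case nst q γ hq hγ => exact ⟨k (.eAct hq hγ), hT, k (.eSt (hM.nxt _ hq _ hγ))⟩
  case push q γ hq hγ ho =>
    have := hM.op _ hq _ hγ
    exact ⟨k (.eAct hq hγ), hT, k (.eNx (hM.stk _ hq) (by omega))⟩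
  case cpy q γ s γ' hq hγ hs hγ' => exact ⟨k (.eAct hq hγ), k (key_key2 hs hγ'), k (.eNx hs hγ')⟩

theorem neqs {r : Rule} (h : BR M w r) :
    r.2.2.1 ≠ r.1 ∧ r.2.2.1 ≠ r.2.1 ∧ r.1 ≠ wG ∧ r.2.1 ≠ wG := by
  cases h
  case cpy =>
    simp only [key2]
    split_ifs <;> simp [wAct, wCe, wCp, wCm, wNx, wG]
  all_goals simp [r1, wT, wG, wE, wE1, wB, wB1, wSt, wAct, wAct1, wCe, wCp, wCm, wNx]

theorem length_flatMap_le {α : Type} (n c : ℕ) (f : ℕ → List α) (h : ∀ i, (f i).length ≤ c) :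
    ((List.range n).flatMap f).length ≤ n * c := by
  induction n with
  | zero => simp
  | succ n ih =>
    rw [List.range_succ, List.flatMap_append, List.length_append, List.flatMap_singleton,
      Nat.succ_mul]
    exact Nat.add_le_add ih (h n)

end Tab

open Tab

variable {M : Tbl} {w : List Bool} {T B : ℕ}

/-- A halted machine stays halted. -/
theorem Tbl.Halts.mono (hM : M.WF) {β : Bool} {T' : ℕ} (h : M.Halts w T β) (hT : T ≤ T') :
    M.Halts w T' β := by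
  have h1 : st M w T = if β = true then 1 else 0 := h
  exact ((freeze hM (by rw [h1]; split_ifs <;> omega) hT).1).trans h1

theorem brules_wf (hM : M.WF) (w : List Bool) : BWF (brules M w) where
  out1 _ hr := (neqs (mem_brules.1 hr)).1
  out2 _ hr := (neqs (mem_brules.1 hr)).2.1
  goal1 _ hr := (neqs (mem_brules.1 hr)).2.2.1
  goal2 _ hr := (neqs (mem_brules.1 hr)).2.2.2
  idp r hr := by
    rcases (keys hM (mem_brules.1 hr)).2.2 with h | h | h
    · exact ⟨_, mem_brules.2 .a1, h.symm, rfl, rfl⟩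
    · exact ⟨_, mem_brules.2 .a6, h.symm, rfl, rfl⟩
    · exact ⟨_, mem_brules.2 h, rfl, rfl, rfl⟩
  idg := ⟨_, mem_brules.2 .a2, rfl, rfl, rfl⟩

theorem brules_accept (hM : M.WF) (hB : w.length + T < B) (h : M.Halts w T true) :
    BAll (brules M w) B := by
  have h1 : st M w T = 1 := h
  have h0 : 0 < B := by omega
  have h2 := (complete hM hB (by omega) le_rfl).1
  rw [h1] at h2
  have h3 : ∀ t < B, Tr2 (brules M w) B wE t 0 := by
    intro t ht
    induction t with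
    | zero => exact one .a3 h2 (op5.2 ⟨by omega, h0, rfl⟩) (op5.2 ⟨h0, h0, rfl⟩)
    | succ t ih =>
      exact one .a6 (one .a4 (ih (by omega)) (op2.2 ⟨by omega, ht, rfl⟩) (op0.2 ⟨h0, h0, rfl⟩))
        (op0.2 ⟨ht, ht, rfl⟩) (op0.2 ⟨h0, h0, rfl⟩)
  have h4 : ∀ y, Key M w y → ∀ t < B, ∀ x < B, Tr2 (brules M w) B y t x := by
    intro y hy t ht x hx
    have h5 := spread .a5 .a6 ht (h3 t ht) (Nat.zero_le x) hx
    rcases hy with rfl | rfl | hy
    · exact trT ht hx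
    · exact h5
    · exact one hy h5 (op0.2 ⟨ht, ht, rfl⟩) (op0.2 ⟨hx, hx, rfl⟩)
  intro r hr t ht x hx
  have h5 := keys hM (mem_brules.1 hr)
  exact ⟨h4 _ h5.1 t ht x hx, h4 _ h5.2.1 t ht x hx⟩

theorem brules_reject (hM : M.WF) (hB : w.length + T < B) (h : M.Halts w T false) (t x : ℕ) :
    ¬ Tr2 (brules M w) B wG t x := by
  have h1 : st M w T = 0 := h
  have key : ∀ y t x, Tr2 (brules M w) B y t x → Sem M w y t x := by
    intro y t x hy
    induction hy with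
    | src hr he ht hx =>
      rcases src_cases (mem_brules.1 hr) he with h2 | h2
      · rw [h2]
        exact sem_T.2 trivial
      · exact sound hM hB h1 (mem_brules.1 hr) (h2.1 ▸ sem_T.2 trivial) (h2.2 ▸ sem_T.2 trivial)
          ht hx
    | both hr _ _ ht hx ih1 ih2 => exact sound hM hB h1 (mem_brules.1 hr) ih1 ih2 ht hx
  exact fun h2 => sem_G.1 (key _ _ _ h2)

theorem length_brules (M : Tbl) (w : List Bool) :
    (brules M w).length ≤ w.length + 14 * (M.length + 1) ^ 4 := by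
  have hS : M.nS ≤ M.length := min_le_right _ _
  have hG : M.nG ≤ M.length := min_le_right _ _
  have hQ : M.nQ ≤ M.length := min_le_right _ _
  rw [brules]
  simp only [List.length_append, List.length_map, List.length_range, List.length_cons,
    List.length_nil]
  refine (Nat.add_le_add (Nat.add_le_add_left (length_flatMap_le _ (M.nG * 7) _ fun s =>
    length_flatMap_le _ 7 _ fun γ => le_rfl) _) (length_flatMap_le _ (M.nG * (7 + M.nS * M.nG)) _
    fun q => length_flatMap_le _ _ _ fun γ => ?_)).trans ?_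
  · rw [List.length_append, List.length_append]
    refine Nat.add_le_add ?_ (length_flatMap_le _ _ _ fun s => by simp)
    split_ifs <;> simp
  · have h1 : M.nS * (M.nG * 7) ≤ M.length * (M.length * 7) := by gcongr
    have h2 : M.nQ * (M.nG * (7 + M.nS * M.nG)) ≤
      M.length * (M.length * (7 + M.length * M.length)) := by gcongr
    generalize M.length = L at *
    have h3 : 14 + 3 * L + L * (L * 7) + L * (L * (7 + L * L)) ≤ 14 * (L + 1) ^ 4 := by
      ring_nf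
      omega
    omega

end Crest.Agent.R290
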