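import Crest.Agent.R290.TM
import Crest.Agent.R290.Tableau
import Crest.Agent.Lib.PolyTime.Enc
import Crest.Agent.Lib.PolyTime.More
import Crest.Prelude.Def_ExpTime

/-!
# Row 290: padding arguments and table machines for computable tests
-/

set_option autoImplicit false

namespace Crest.Agent.R290

open Crest.Agent.Lib.PolyTime

namespace UnaryAux

/-- One round of the conversion from binary to unary. -/
def cstep (s : ℕ × List Unit) : List Unit ⊕ (ℕ × List Unit) :=
  if s.1 = 0 then Sum.inl s.2 else Sum.inr (s.1 - 1, () :: s.2)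

theorem poly_cstep : Poly cstep := by
  unfold cstep
  fun_prop

theorem runs_cstep (N r j : ℕ) (h : r + j = N) :
    Runs cstep (6 * N + 3) (r, List.replicate j ()) (List.replicate N ()) (r + 1) := by
  have hsz : ∀ r j : ℕ, r + j = N → sz (r, List.replicate j ()) ≤ 6 * N + 3 := by
    intro r j h
    have h1 := sz_le_self r
    have h2 : sz (List.replicate j ()) = 2 * j + 1 := sz_un ⟨j⟩
    rw [sz_pair]
    omega
  induction r generalizing j with
  | zero =>
    refine Runs.stop 0 (hsz 0 j h) ?_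
    rw [Nat.zero_add] at h
    simp [cstep, h]
  | succ r ih =>
    refine Runs.next (s' := (r, List.replicate (j + 1) ())) (hsz _ _ h) ?_ (ih (j + 1) (by omega))
    simp [cstep, List.replicate_succ]

theorem eval_le_two_pow (p : Polynomial ℕ) :
    ∃ C e : ℕ, ∀ x y : ℕ, x ≤ 2 ^ y → p.eval x ≤ C * 2 ^ (e * y) := by
  induction p using Polynomial.induction_on' with
  | add p q hp hq =>
    obtain ⟨C, e, h⟩ := hp
    obtain ⟨C', e', h'⟩ := hq
    refine ⟨C + C', e + e', fun x y hxy => ?_⟩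
    have h1 : 2 ^ (e * y) ≤ 2 ^ ((e + e') * y) :=
      Nat.pow_le_pow_right (by norm_num) (Nat.mul_le_mul_right _ (Nat.le_add_right _ _))
    have h2 : 2 ^ (e' * y) ≤ 2 ^ ((e + e') * y) :=
      Nat.pow_le_pow_right (by norm_num) (Nat.mul_le_mul_right _ (Nat.le_add_left _ _))
    rw [Polynomial.eval_add, Nat.add_mul C C']
    exact Nat.add_le_add ((h x y hxy).trans (Nat.mul_le_mul_left _ h1))
      ((h' x y hxy).trans (Nat.mul_le_mul_left _ h2))
  | monomial n c =>
    refine ⟨c, n, fun x y hxy => ?_⟩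
    rw [Polynomial.eval_monomial, Nat.mul_comm n y, pow_mul]
    exact Nat.mul_le_mul_left _ (Nat.pow_le_pow_left hxy _)

theorem exp_bound (e k n : ℕ) :
    e * (n ^ k + n + 3) ≤ n ^ (k + 2) + (4 * e + (2 * e) ^ (k + 2)) := by
  have h1 : n ^ k ≤ n ^ (k + 1) + 1 := by
    rcases Nat.eq_zero_or_pos n with rfl | hn
    · have : 0 ^ k ≤ 1 ^ k := Nat.pow_le_pow_left (by norm_num) k
      rw [one_pow] at this
      omega
    · exact (Nat.pow_le_pow_right hn (Nat.le_succ k)).trans (Nat.le_succ _)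
  have h2 : n ≤ n ^ (k + 1) := Nat.le_self_pow (Nat.succ_ne_zero k) n
  have h3 : e * (n ^ k + n + 3) ≤ 2 * e * n ^ (k + 1) + 4 * e := by
    have : e * (n ^ k + n + 3) ≤ e * (2 * n ^ (k + 1) + 4) := Nat.mul_le_mul_left _ (by omega)
    calc _ ≤ _ := this
      _ = _ := by ring
  have h4 : 2 * e * n ^ (k + 1) ≤ n ^ (k + 2) + (2 * e) ^ (k + 2) := by
    rcases le_total (2 * e) n with h | h
    · have : 2 * e * n ^ (k + 1) ≤ n * n ^ (k + 1) := Nat.mul_le_mul_right _ h
      rw [← pow_succ'] at this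
      exact this.trans (Nat.le_add_right _ _)
    · have : 2 * e * n ^ (k + 1) ≤ 2 * e * (2 * e) ^ (k + 1) :=
        Nat.mul_le_mul_left _ (Nat.pow_le_pow_left h _)
      rw [← pow_succ'] at this
      exact this.trans (Nat.le_add_left _ _)
  omega

theorem sz_getD_le (M : List ℕ) (i : ℕ) : sz (M.getD i 0) ≤ sz M := by
  rcases Nat.lt_or_ge i M.length with h | h
  · rw [List.getD_eq_getElem _ _ h]
    exact sz_le_of_mem (List.getElem_mem h)
  · rw [List.getD_eq_default _ _ h]
    exact one_le_sz M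

theorem sz_set_le {f : List ℕ → List ℕ} {D : ℕ} (hf : ∀ y, sz (f y) ≤ sz y + D)
    (l : List (List ℕ)) (i : ℕ) : sz (l.set i (f (l.getD i []))) ≤ sz l + D := by
  induction l generalizing i with
  | nil => simp
  | cons x xs ih =>
    cases i with
    | zero =>
      have := hf x
      simp only [List.getD_cons_zero, List.set_cons_zero, sz_cons]
      omega
    | succ i =>
      have := ih i
      simp only [List.getD_cons_succ, List.set_cons_succ, sz_cons]
      omega

theorem sz_app_le (o : ℕ) (l : List ℕ) : sz (Tbl.app o l) ≤ sz l + (4 * sz o + 1) := by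
  unfold Tbl.app
  split_ifs
  · omega
  · have := sz_le_of_sublist (List.tail_sublist l)
    omega
  · have := sz_le_of_le (Nat.sub_le o 1)
    rw [sz_cons]
    omega

theorem sz_step_le (M : List ℕ) (c : ℕ × List (List ℕ)) :
    sz (Tbl.step M c) ≤ sz c + (5 * sz M + 1) := by
  have h1 : sz (Tbl.nxt M c.1 (Tbl.top M c)) ≤ sz M := sz_getD_le M _
  have h2 : sz (Tbl.op M c.1 (Tbl.top M c)) ≤ sz M := sz_getD_le M _
  have h3 := sz_set_le (sz_app_le (Tbl.op M c.1 (Tbl.top M c))) c.2 (Tbl.stk M c.1)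
  rw [Tbl.step, sz_pair, sz_prod c]
  omega

theorem poly_step : Poly fun p : List ℕ × (ℕ × List (List ℕ)) => Tbl.step p.1 p.2 := by
  unfold Tbl.step Tbl.nxt Tbl.op Tbl.app Tbl.top Tbl.stk Tbl.nQ Tbl.nG
  fun_prop

theorem poly_init : Poly fun p : List ℕ × List Bool => Tbl.init p.1 p.2 := by
  have h1 : PB fun p : List ℕ × List Bool => Tbl.nS p.1 - 1 :=
    (PB.sz_id (α := List ℕ × List Bool)).mono fun p =>
      (Nat.sub_le _ _).trans ((Nat.min_le_right _ _).trans
        ((length_le_sz p.1).trans (sz_fst_le p)))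
  have h2 : Poly fun p : List ℕ × List Bool => Tbl.nS p.1 - 1 := by
    unfold Tbl.nS
    fun_prop
  have h3 : Poly fun p : List ℕ × List Bool => List.replicate (Tbl.nS p.1 - 1) ([] : List ℕ) :=
    Poly.replicate h2 h1 (by fun_prop)
  have h4 : Poly fun p : List ℕ × List Bool => p.2.map Tbl.sym := by
    have := Lib.PolyTime.Poly.of_finite Tbl.sym
    fun_prop
  unfold Tbl.init
  fun_prop

end UnaryAux

open UnaryAux

/-- A polynomial-time map with a unary budget that is computed in binary. -/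
theorem cmp_unary {α β : Type} [PEnc α] [PEnc β] {g : α × Un → β} (hg : Poly g) {N : α → ℕ}
    (hN : Poly N) :
    ∃ p : Polynomial ℕ, Cmp (fun a => g (a, ⟨N a⟩)) fun a => p.eval (sz a + N a) := by
  have hi : Poly fun a : α => (N a, ([] : List Unit)) := by fun_prop
  obtain ⟨p, q, hpq⟩ := Poly.loop_cmp hi poly_cstep
  have h1 := hpq (f := fun a => List.replicate (N a) ()) (N := fun a => N a + 1)
    (B := fun a => 6 * N a + 3) fun a => runs_cstep (N a) (N a) 0 rfl
  have h2 : Cmp (fun a => (⟨N a⟩ : Un)) fun a => p.eval (sz a) + (N a + 1) * q.eval (6 * N a + 3) :=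
    h1.of_enc id (fun _ => rfl) fun _ => rfl
  obtain ⟨r, hr⟩ := hg.exists_poly
  have h3 := hr.comp ((Cmp.cast (f := fun a : α => a) fun _ => rfl).pair h2)
  refine ⟨Polynomial.X + p + (Polynomial.X + 1) * q.comp (Polynomial.C 6 * Polynomial.X + 3) + 1 +
    r.comp (Polynomial.C 2 * Polynomial.X + 2), h3.mono fun a => ?_⟩
  have e1 : p.eval (sz a) ≤ p.eval (sz a + N a) := eval_mono p (Nat.le_add_right _ _)
  have e2 : q.eval (6 * N a + 3) ≤ q.eval (6 * (sz a + N a) + 3) := eval_mono q (by omega)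
  have e3 : r.eval (sz (a, (⟨N a⟩ : Un))) ≤ r.eval (2 * (sz a + N a) + 2) := by
    refine eval_mono r ?_
    rw [sz_pair, sz_un]
    simp only
    omega
  have e4 : (N a + 1) * q.eval (6 * N a + 3) ≤ (sz a + N a + 1) * q.eval (6 * (sz a + N a) + 3) :=
    Nat.mul_le_mul (by omega) e2
  simp only [Polynomial.eval_add, Polynomial.eval_mul, Polynomial.eval_X, Polynomial.eval_one,
    Polynomial.eval_comp, Polynomial.eval_C, Polynomial.eval_ofNat]
  omega

theorem inEXP_of_poly {L : Set (List Bool)} {g : List Bool × Un → Bool} (hg : Poly g) (k : ℕ)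
    (h : ∀ w, w ∈ L ↔ g (w, ⟨2 ^ (w.length ^ k)⟩) = true) : Crest.ExpTime.InEXP L := by
  have hN : Poly fun w : List Bool => 2 ^ (w.length ^ k) := by fun_prop
  obtain ⟨p, hp⟩ := cmp_unary hg hN
  obtain ⟨K, hK⟩ := hp.timeBoundPred
  obtain ⟨C, e, hC⟩ := eval_le_two_pow p
  refine ⟨k + 2, fun w => g (w, ⟨2 ^ (w.length ^ k)⟩),
    K * C * 2 ^ (4 * e + (2 * e) ^ (k + 2)), hK _ fun w => ?_, h⟩
  have h1 : sz w + 2 ^ (w.length ^ k) ≤ 2 ^ (w.length ^ k + w.length + 3) := by
    have a1 := sz_listBool_le w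
    have a2 : w.length < 2 ^ w.length := Nat.lt_two_pow_self
    have a3 : 2 ^ w.length ≤ 2 ^ (w.length ^ k + w.length) :=
      Nat.pow_le_pow_right (by norm_num) (Nat.le_add_left _ _)
    have a4 : 2 ^ (w.length ^ k) ≤ 2 ^ (w.length ^ k + w.length) :=
      Nat.pow_le_pow_right (by norm_num) (Nat.le_add_right _ _)
    rw [pow_add _ _ 3]
    omega
  have h2 := hC _ _ h1
  have h3 : 2 ^ (e * (w.length ^ k + w.length + 3)) ≤
      2 ^ (w.length ^ (k + 2) + (4 * e + (2 * e) ^ (k + 2))) :=
    Nat.pow_le_pow_right (by norm_num) (exp_bound e k w.length)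
  refine le_trans ?_ (Nat.le_add_right _ _)
  calc K * p.eval (sz w + 2 ^ (w.length ^ k))
      ≤ K * (C * 2 ^ (w.length ^ (k + 2) + (4 * e + (2 * e) ^ (k + 2)))) :=
        Nat.mul_le_mul_left _ (h2.trans (Nat.mul_le_mul_left _ h3))
    _ = _ := by rw [pow_add]; ring

/-- The universal simulation of table machines. -/
theorem poly_run : Poly fun a : List ℕ × List Bool × Un => (Tbl.run a.1 a.2.1 a.2.2.n).1 := by
  have h1 : Poly fun a : List ℕ × List Bool × Un => Tbl.init a.1 a.2.1 :=
    poly_init.comp (g := fun a : List ℕ × List Bool × Un => (a.1, a.2.1)) (by fun_prop)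
  have h2 : Poly fun p : (List ℕ × List Bool × Un) × (ℕ × List (List ℕ)) => Tbl.step p.1.1 p.2 :=
    poly_step.comp (g := fun p : (List ℕ × List Bool × Un) × (ℕ × List (List ℕ)) => (p.1.1, p.2))
      (by fun_prop)
  exact (Poly.iterate_add (n := fun a : List ℕ × List Bool × Un => a.2.2.n)
    (h := fun a : List ℕ × List Bool × Un => Tbl.step a.1) (by fun_prop) (by fun_prop) h1 h2
    (fun a => 5 * sz a.1 + 1) (by fun_prop) fun a s => sz_step_le a.1 s).fst

/-- A computable test is decided by a table machine in time linear in the cost. -/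
theorem exists_tbl_of_cmp {f : List Bool → Bool} {T : List Bool → ℕ} (h : Cmp f T) :
    ∃ (M : Tbl) (D : ℕ), M.WF ∧ ∀ w, M.Halts w (D * T w + D) (f w) := by
  have h1 : Cmp (fun x => [f x]) fun x => 3 * T x :=
    ((h.pair (Cmp.const ())).of_enc (f := fun x => [f x]) id (fun _ => rfl) fun _ => rfl).mono
      fun x => by
        have := h.sz_in_le x
        have := one_le_sz x
        simp; omega
  obtain ⟨c, hc⟩ := h1
  obtain ⟨M, K, hM⟩ := exists_machine_bits c
  obtain ⟨N, D, hN, hD⟩ := exists_tbl M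
  refine ⟨N, D * K * 3 + D, hN, fun w => ?_⟩
  obtain ⟨n, hn, he⟩ := hc w
  refine (hD w (f w) _ (hM w [f w] n he)).mono hN ?_
  have h2 : D * (K * n) ≤ D * (K * (3 * T w)) :=
    Nat.mul_le_mul_left _ (Nat.mul_le_mul_left _ hn)
  have h3 : (D * K * 3 + D) * T w = D * (K * (3 * T w)) + D * T w := by ring
  omega

/-- A language in exponential time (or its complement, if `fl`) is decided by a table machine within
`2 ^ d w` steps. -/
theorem exists_tbl_of_inEXP {A : Set (List Bool)} (hA : Crest.ExpTime.InEXP A) (fl : Bool) :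
    ∃ (M : Tbl) (d : List Bool → ℕ), M.WF ∧ Poly d ∧ PB d ∧ ∀ w, 1 ≤ d w ∧ ∃ (T : ℕ) (β : Bool),
      w.length + T < 2 ^ d w ∧ M.Halts w T β ∧ (w ∈ A ↔ β = !fl) := by
  obtain ⟨k, f, c, ⟨M, hM⟩, hf⟩ := hA
  have hinv : Function.Involutive fun b : Bool => xor b fl := fun b => by
    cases b <;> cases fl <;> rfl
  obtain ⟨N, D, hN, hD⟩ := exists_tbl
    ⟨M.tm, M.inputAlphabet, M.outputAlphabet.trans hinv.toPerm⟩
  refine ⟨N, fun w => w.length ^ k + w.length + (2 * (D * c) + D + 1), hN, by fun_prop, by fun_prop,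
    fun w => ⟨by simp only; omega, D * M.time w.length + D, xor (f w) fl, ?_, ?_, ?_⟩⟩
  · have a1 : D * M.time w.length ≤ D * (c * 2 ^ (w.length ^ k) + c) :=
      Nat.mul_le_mul_left _ (hM _)
    set X := 2 ^ (w.length ^ k + w.length) with hX
    have a2 : w.length < X :=
      Nat.lt_two_pow_self.trans_le (Nat.pow_le_pow_right (by norm_num) (Nat.le_add_left _ _))
    have a3 : 2 ^ (w.length ^ k) ≤ X := Nat.pow_le_pow_right (by norm_num) (Nat.le_add_right _ _)
    have a4 : 1 ≤ X := by omega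
    have a5 : 2 * (D * c) + D + 1 ≤ 2 ^ (2 * (D * c) + D + 1) := Nat.lt_two_pow_self.le
    have a6 : D * (c * 2 ^ (w.length ^ k) + c) ≤ D * (c * X + c * X) :=
      Nat.mul_le_mul_left _ (Nat.add_le_add (Nat.mul_le_mul_left _ a3)
        (Nat.le_mul_of_pos_right _ a4))
    have a7 : D ≤ D * X := Nat.le_mul_of_pos_right _ a4
    have a8 : X * (2 * (D * c) + D + 1) = D * (c * X + c * X) + D * X + X := by ring
    have a9 := Nat.mul_le_mul_left X a5
    rw [pow_add, ← hX]
    omega
  · refine hD w _ _ ⟨?_⟩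
    have h1 := M.outputsFun w
    have h2 : List.map (M.outputAlphabet.trans hinv.toPerm).invFun [xor (f w) fl] =
        List.map M.outputAlphabet.invFun (Computability.encodeBool (f w)) := by
      change [M.outputAlphabet.symm (xor (xor (f w) fl) fl)] = [M.outputAlphabet.symm (f w)]
      rw [show xor (xor (f w) fl) fl = f w from hinv (f w)]
    simp only
    rw [h2]
    exact h1
  · rw [hf]
    cases f w <;> cases fl <;> simp

end Crest.Agent.R290
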