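import Crest.Agent.R290.Red
import Crest.Agent.R290.GameConv
import Crest.Agent.R290.Codes
import Crest.Agent.R290.Unary
import Crest.Agent.R290.PolyRed

/-!
# Row 290: the diagonal argument for fixed dimension
-/

set_option autoImplicit false

namespace Crest.Agent.R290

open Crest.WLRefine Crest.Agent.Lib.PolyTime

namespace Diag

open Crest.Enc

theorem exists_eval_le (p : Polynomial ℕ) : ∃ e, ∀ y, 2 ≤ y → p.eval y ≤ y ^ e := by
  induction p using Polynomial.induction_on' with
  | add p q hp hq =>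
    obtain ⟨a, ha⟩ := hp
    obtain ⟨b, hb⟩ := hq
    refine ⟨a + b + 1, fun y hy => ?_⟩
    have h1 := (ha y hy).trans (Nat.pow_le_pow_right (by omega) (Nat.le_add_right a b))
    have h2 := (hb y hy).trans (Nat.pow_le_pow_right (by omega) (Nat.le_add_left b a))
    rw [Polynomial.eval_add, pow_succ]
    nlinarith [Nat.zero_le (y ^ (a + b))]
  | monomial k c =>
    refine ⟨c + k, fun y hy => ?_⟩
    rw [Polynomial.eval_monomial, pow_add]
    exact Nat.mul_le_mul_right _ (Nat.lt_two_pow_self.le.trans (Nat.pow_le_pow_left hy c))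

theorem mul_lt_two_pow {K a : ℕ} (h : 2 * K + 2 ≤ a) : K * (a + 1) < 2 ^ a := by
  have h1 : K < 2 ^ K := Nat.lt_two_pow_self
  have h2 : a / 2 < 2 ^ (a / 2) := Nat.lt_two_pow_self
  calc K * (a + 1) < 2 ^ K * (2 * 2 ^ (a / 2)) :=
        Nat.mul_lt_mul_of_lt_of_le h1 (by omega) (by positivity)
    _ = 2 ^ (K + 1 + a / 2) := by ring
    _ ≤ 2 ^ a := Nat.pow_le_pow_right (by norm_num) (by omega)

theorem length_natCode_le {x u : ℕ} (h : x ≤ 2 ^ u) : (natCode x).length ≤ 2 * u + 4 := by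
  have : x.size ≤ u + 1 := Nat.size_le.2 (h.trans_lt (Nat.pow_lt_pow_right (by norm_num) (by omega)))
  rw [length_natCode]
  omega

/-- the numerical parameters written in the input -/
def par (w : List Bool) (i : ℕ) : ℕ := (pList pNat (pList pNat (pList pNat w).2).2).1.getD i 0

/-- the code of one of the two graphs -/
def redC (tw : Bool) (a : List ℕ × List Bool × Un × Un × Un × Un) : List Bool :=
  adjMatrixCode (redP a.1 a.2.1 a.2.2.1.n a.2.2.2.1.n a.2.2.2.2.1.n a.2.2.2.2.2.n tw)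

/-- the arguments of the reduction -/
def tup (a : List Bool × Un) : List ℕ × List Bool × Un × Un × Un × Un :=
  ((pList pNat a.1).1, a.1, Un.mk (min (par a.1 0) a.2.n), Un.mk (min (par a.1 1) a.2.n),
    Un.mk (min (par a.1 2) a.2.n), Un.mk (min (par a.1 3) a.2.n))

/-- the diagonal test -/
def test (Sim : List ℕ × List Bool × Un → Bool) (a : List Bool × Un) : Bool :=
  Sim ((pList pNat (pList pNat a.1).2).1, redC false (tup a) ++ redC true (tup a),
    ⟨min (par a.1 4) a.2.n⟩)

theorem poly_pl : Poly fun w : List Bool => pList pNat w := by fun_prop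

theorem poly_getD (i : ℕ) : Poly fun l : List ℕ => l.getD i 0 := by fun_prop

theorem poly_min {f : List Bool → ℕ} (hf : Poly f) :
    Poly fun a : List Bool × Un => Un.mk (min (f a.1) a.2.n) := by fun_prop

theorem poly_par (i : ℕ) : Poly fun w => par w i :=
  Poly.comp (f := fun l : List ℕ => l.getD i 0)
    (g := fun w => (pList pNat (pList pNat (pList pNat w).2).2).1) (poly_getD i)
    (poly_pl.comp (poly_pl.comp poly_pl.snd).snd).fst

theorem poly_test {Sim : List ℕ × List Bool × Un → Bool} (hS : Poly Sim) : Poly (test Sim) := by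
  have h0 : ∀ i, Poly fun a : List Bool × Un => Un.mk (min (par a.1 i) a.2.n) := fun i =>
    poly_min (f := fun w => par w i) (poly_par i)
  have hw : Poly fun a : List Bool × Un => a.1 := by fun_prop
  have h1 : Poly tup := Poly.pair (poly_pl.comp hw).fst (Poly.pair hw
      ((h0 0).pair ((h0 1).pair ((h0 2).pair (h0 3)))))
  have h2 : ∀ tw, Poly fun a => redC tw (tup a) := fun tw =>
    Poly.comp (f := redC tw) (g := tup) (poly_redP tw) h1
  have h3 : Poly fun a : List Bool × Un => (pList pNat (pList pNat a.1).2).1 :=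
    (poly_pl.comp (poly_pl.comp hw).snd).fst
  exact Poly.comp (f := Sim) hS (h3.pair (((h2 false).append (h2 true)).pair (h0 4)))

theorem test_eq (Sim : List ℕ × List Bool × Un → Bool) (tb code : List ℕ) (A d m n F : ℕ)
    (w : List Bool) (hw : w = listCode tb ++ (listCode code ++ (listCode [A, d, m, n, F] ++ []))) :
    par w 0 + par w 1 + par w 2 + par w 3 + par w 4 = A + d + m + n + F ∧
    test Sim (w, ⟨A + d + m + n + F⟩) = Sim (code, adjMatrixCode (redP tb w A d m n false) ++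
      adjMatrixCode (redP tb w A d m n true), ⟨F⟩) := by
  have h : ∀ i, par w i = [A, d, m, n, F].getD i 0 := fun i => by
    simp only [par, hw, pList_listCode]
  have h0 : par w 0 = A := h 0
  have h1 : par w 1 = d := h 1
  have h2 : par w 2 = m := h 2
  have h3 : par w 3 = n := h 3
  have h4 : par w 4 = F := h 4
  have e1 : (pList pNat w).1 = tb := by simp only [hw, pList_listCode]
  have e2 : (pList pNat (pList pNat w).2).1 = code := by simp only [hw, pList_listCode]
  refine ⟨by rw [h0, h1, h2, h3, h4], ?_⟩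
  unfold test redC tup
  dsimp only
  rw [e1, e2, h0, h1, h2, h3, h4, min_eq_left (a := A) (by omega), min_eq_left (a := d) (by omega),
    min_eq_left (a := m) (by omega), min_eq_left (a := n) (by omega),
    min_eq_left (a := F) (by omega)]

theorem exists_scale {a0 n : ℕ} (hn : 2 ^ (2 * a0) ≤ n) (h0 : 1 ≤ a0) :
    ∃ a, a0 ≤ a ∧ n ≤ 2 ^ (3 * a) ∧ 2 ^ a * 2 ^ a ≤ 2 * n := by
  have h1 := Nat.lt_size.2 hn
  clear hn
  refine ⟨n.size / 2, by omega, (Nat.lt_size_self n).le.trans
    (Nat.pow_le_pow_right two_pos (by omega)), ?_⟩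
  have h2 := Nat.lt_size.1 (show n.size - 1 < n.size by omega)
  calc 2 ^ (n.size / 2) * 2 ^ (n.size / 2) ≤ 2 ^ (n.size - 1 + 1) := by
        rw [← pow_add]
        exact Nat.pow_le_pow_right two_pos (by omega)
    _ ≤ 2 * n := by rw [pow_succ, mul_comm]; exact Nat.mul_le_mul_left _ h2

theorem length_le {tb code : List ℕ} {A d m n F u : ℕ} (h0 : A ≤ 2 ^ u) (h1 : d ≤ 2 ^ u)
    (h2 : m ≤ 2 ^ u) (h3 : n ≤ 2 ^ u) (h4 : F ≤ 2 ^ u) :
    (listCode tb ++ (listCode code ++ (listCode [A, d, m, n, F] ++ []))).length ≤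
      (listCode tb).length + (listCode code).length + (natCode 5).length + 10 * u + 20 := by
  have l0 := length_natCode_le h0
  have l1 := length_natCode_le h1
  have l2 := length_natCode_le h2
  have l3 := length_natCode_le h3
  have l4 := length_natCode_le h4
  have : (listCode [A, d, m, n, F]).length = (natCode 5).length +
      ((natCode A).length + ((natCode d).length + ((natCode m).length +
      ((natCode n).length + (natCode F).length)))) := by simp [listCode]
  simp only [List.length_append, List.length_nil, this]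
  omega

theorem size_le {s l c A d m n F u U : ℕ} (h0 : A ≤ U) (h1 : d ≤ U) (h2 : m ≤ U) (h3 : n ≤ U)
    (h4 : F ≤ U) (h5 : s ≤ 4 * l + 1) (h6 : l ≤ c + 10 * u + 20) (h7 : c ≤ u) (h8 : u < U) :
    s + (A + d + m + n + F) ≤ 256 * U := by omega

end Diag

open Diag Crest.Enc in
theorem diag (Sim : List ℕ × List Bool × Un → Bool) (hS : Poly Sim) :
    ∃ c : ℝ, 0 < c ∧ ∃ k₀ : ℕ, 1 ≤ k₀ ∧ ∀ k ≥ k₀,
      ∀ E : (n : ℕ) → (Fin n → Fin n → Bool) → (Fin n → Fin n → Bool) → Prop,
      (∀ n G H, PEquiv G H (k + 1) → E n G H) → (∀ n G H, E n G H → PEquiv G H k) →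
      ∀ (code : List ℕ) (D : ℕ) (T : ℕ → ℕ),
      (∀ (n : ℕ) (G H : Fin n → Fin n → Bool), SimpleConnDiamTwo G → SimpleConnDiamTwo H →
        ∀ F, D * T n + D ≤ F →
          (Sim (code, adjMatrixCode G ++ adjMatrixCode H, ⟨F⟩) = true ↔ E n G H)) →
      ∃ n₀ : ℕ, ∀ n ≥ n₀, (n : ℝ) ^ (c * k) ≤ T n := by
  obtain ⟨p, hp⟩ := cmp_unary (poly_test hS)
    (N := fun w => par w 0 + par w 1 + par w 2 + par w 3 + par w 4)
    (((((poly_par 0).add (poly_par 1)).add (poly_par 2)).add (poly_par 3)).add (poly_par 4))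
  obtain ⟨tb, D', hWF, hH⟩ := exists_tbl_of_cmp hp
  obtain ⟨e, he⟩ := exists_eval_le (Polynomial.X + Polynomial.C D' * p + Polynomial.C D' + 1)
  refine ⟨1 / (200 * (e + 1) : ℕ), by positivity, 1000 * (e + 1), by omega,
    fun k hk E hE1 hE2 code D T hT => ?_⟩
  obtain ⟨m, rfl⟩ : ∃ m, k = m + 4 := ⟨k - 4, by omega⟩
  obtain ⟨j, hj1, hj2⟩ : ∃ j : ℕ, 1 / ((200 * (e + 1) : ℕ) : ℝ) * (m + 4 : ℕ) ≤ j ∧
      (3 * j + 11) * e ≤ m / 32 := by
    refine ⟨(m + 4) / (200 * (e + 1)) + 1, ?_, ?_⟩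
    · rw [one_div_mul_eq_div, div_le_iff₀ (by positivity)]
      exact_mod_cast (Nat.lt_mul_div_succ (m + 4) (by positivity : 0 < 200 * (e + 1))).le.trans_eq
        (mul_comm _ _)
    · have := Nat.div_mul_le_self (m + 4) (200 * (e + 1))
      generalize (m + 4) / (200 * (e + 1)) = i at this
      have h1 : (3 * (i + 1) + 11) * e = 3 * (i * e) + 14 * e := by ring
      have h2 : i * (200 * (e + 1)) = 200 * (i * e) + 200 * i := by ring
      omega
  have hd1 : 1 ≤ m / 32 := by omega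
  have hm : 32 * (m / 32) ≤ m := by omega
  generalize m / 32 = d at hj2 hd1 hm
  obtain ⟨c1, hc1⟩ : ∃ c1, c1 = (listCode tb).length + (listCode code).length +
    (natCode 5).length := ⟨_, rfl⟩
  obtain ⟨c2, hc2⟩ : ∃ c2, c2 = 14 * (tb.length + 1) ^ 4 := ⟨_, rfl⟩
  obtain ⟨K, hK⟩ : ∃ K, K = (1 + (c1 + 50 + 30 * j + c2) * (d * d)) * (m * (2 * m + 15)) * 31 :=
    ⟨_, rfl⟩
  refine ⟨2 ^ (2 * (4 * K + 2 + D + m + c1)), fun n hn => ?_⟩
  by_contra hlt
  obtain ⟨a, ha0, ha1, ha2⟩ := exists_scale hn (by clear hn; omega)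
  have hn1 : 1 ≤ n := Nat.one_le_two_pow.trans hn
  clear hn
  have hTn : T n < n ^ j := by
    have h1 := (not_le.1 hlt).trans_le
      (Real.rpow_le_rpow_of_exponent_le (by exact_mod_cast hn1) hj1)
    rw [Real.rpow_natCast] at h1
    exact_mod_cast h1
  have ha : a < 2 ^ a := Nat.lt_two_pow_self
  have a1 : 2 * (2 * K) + 2 ≤ a := by clear ha ha1 ha2; omega
  have a2 : D ≤ a := by clear ha ha1 ha2; omega
  have a3 : m ≤ a := by clear ha ha1 ha2; omega
  have a4 : c1 ≤ a := by clear ha ha1 ha2; omega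
  have a5 : 1 ≤ a := by clear ha ha1 ha2; omega
  have a6 : d ≤ m := le_trans (Nat.le_mul_of_pos_left _ (by norm_num)) hm
  obtain ⟨u, hu⟩ : ∃ u, u = a * (3 * j + 3) := ⟨_, rfl⟩
  have hau : 3 * a ≤ u := by rw [hu, mul_comm]; exact Nat.mul_le_mul_left _ (Nat.le_add_left _ _)
  have hau' : a ≤ u := le_trans (Nat.le_mul_of_pos_left _ (by norm_num)) hau
  have b0 : 2 ^ a ≤ 2 ^ u := Nat.pow_le_pow_right two_pos hau'
  have b2 : m ≤ 2 ^ u := (a3.trans ha.le).trans b0
  have b3 : n ≤ 2 ^ u := ha1.trans (Nat.pow_le_pow_right two_pos hau)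
  have b4 : D * T n + D ≤ 2 ^ u :=
    calc D * T n + D = D * (T n + 1) := by ring
      _ ≤ 2 ^ a * (2 ^ (3 * a)) ^ j :=
          Nat.mul_le_mul (a2.trans ha.le) (hTn.trans_le (Nat.pow_le_pow_left ha1 j))
      _ = 2 ^ (a * (3 * j + 1)) := by rw [← pow_mul, ← pow_add]; congr 1; ring
      _ ≤ 2 ^ u := Nat.pow_le_pow_right two_pos
          (hu ▸ Nat.mul_le_mul_left _ (Nat.add_le_add_left (by norm_num) _))
  have hlen := length_le (tb := tb) (code := code) b0 (a6.trans b2) b2 b3 b4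
  rw [← hc1] at hlen
  obtain ⟨w, hw⟩ : ∃ w, w = listCode tb ++ (listCode code ++
    (listCode [2 ^ a, d, m, n, D * T n + D] ++ [])) := ⟨_, rfl⟩
  rw [← hw] at hlen
  obtain ⟨t1, t2⟩ := test_eq Sim tb code _ d m n _ w hw
  have hH' := hH w
  simp only [t1, t2] at hH'
  have hA : 2 ≤ 2 ^ a := Nat.succ_le_of_lt (a5.trans_lt ha)
  have hB : w.length + (D' * p.eval (sz w + (2 ^ a + d + m + n + (D * T n + D))) + D') <
      (2 ^ a) ^ d := by
    have h5 : sz w + (2 ^ a + d + m + n + (D * T n + D)) ≤ 2 ^ (a * (3 * j + 11)) :=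
      calc _ ≤ 256 * 2 ^ u := size_le b0 (a6.trans b2) b2 b3 b4 (sz_listBool_le w) hlen
            (a4.trans hau') Nat.lt_two_pow_self
        _ = 2 ^ (8 + u) := by rw [pow_add]; norm_num
        _ ≤ 2 ^ (a * (3 * j + 11)) := by
          refine Nat.pow_le_pow_right two_pos ?_
          rw [hu]
          nlinarith only [a5]
    have h6 : (2 ^ (a * (3 * j + 11))) ^ e ≤ (2 ^ a) ^ d := by
      rw [← pow_mul, ← pow_mul, mul_assoc]
      exact Nat.pow_le_pow_right two_pos (Nat.mul_le_mul_left _ hj2)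
    have h1 := he (sz w + (2 ^ a + d + m + n + (D * T n + D))) 
      (hA.trans (by simp only [add_assoc]; exact (Nat.le_add_right _ _).trans (Nat.le_add_left _ _)))
    have h7 := (h1.trans (Nat.pow_le_pow_left h5 e)).trans h6
    simp only [Polynomial.eval_add, Polynomial.eval_X, Polynomial.eval_mul, Polynomial.eval_C,
      Polynomial.eval_one] at h7
    linarith only [h7, length_le_sz w, Nat.zero_le (2 ^ a + d + m + n + (D * T n + D))]
  have hN : redN tb w (2 ^ a) d m < n := by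
    have h1 := mul_lt_two_pow a1
    have h2 : w.length + c2 ≤ (c1 + 50 + 30 * j + c2) * (a + 1) := by
      rw [hu] at hlen
      nlinarith only [hlen, Nat.zero_le (c1 * a), Nat.zero_le (c2 * a), Nat.zero_le a,
        Nat.zero_le j]
    have h3 : redN tb w (2 ^ a) d m ≤ K * (a + 1) * 2 ^ a :=
      calc _ ≤ (1 + (w.length + c2) * (d * d)) * (m * (2 ^ a * (2 * m + 15))) * 31 :=
            hc2 ▸ redN_le tb w (2 ^ a) d m
        _ ≤ ((a + 1) + (c1 + 50 + 30 * j + c2) * (a + 1) * (d * d)) *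
            (m * (2 ^ a * (2 * m + 15))) * 31 :=
            Nat.mul_le_mul_right _ (Nat.mul_le_mul_right _ (Nat.add_le_add (Nat.le_add_left _ _)
              (Nat.mul_le_mul_right _ h2)))
        _ = _ := by rw [hK]; ring
    have h4 := Nat.mul_lt_mul_of_lt_of_le h1 (le_refl (2 ^ a)) (Nat.two_pow_pos a)
    linarith only [h3, h4, ha2]
  have hS' := hT n _ _ (redP_diam hN false) (redP_diam hN true) _ le_rfl
  cases hb : Sim (code, adjMatrixCode (redP tb w (2 ^ a) d m n false) ++
      adjMatrixCode (redP tb w (2 ^ a) d m n true), ⟨D * T n + D⟩) with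
  | true =>
    rw [hb] at hH'
    exact redP_accept hWF hA hd1 hm hB hH' hN (hE2 _ _ _ (hS'.1 hb))
  | false =>
    rw [hb] at hH'
    have := hS'.2 (hE1 _ _ _ (redP_reject hWF hA hd1 hm hB hH' hN))
    rw [hb] at this
    exact Bool.false_ne_true this

end Crest.Agent.R290
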