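import Crest.Agent.R290.Defs

/-!
# Row 290: from pairs of numbers to digit vectors
-/

set_option autoImplicit false

namespace Crest.Agent.R290

variable {rs : List Rule} {nA d : ℕ}

namespace Dig

/-- The value of a digit vector. -/
def val (nA d : ℕ) (p : ℕ → ℕ) : ℕ := ∑ j ∈ Finset.range d, p j * nA ^ j

/-- The digits of a number. -/
def dig (nA t j : ℕ) : ℕ := t / nA ^ j % nA

theorem val_zero (p : ℕ → ℕ) : val nA 0 p = 0 := rfl

theorem val_succ (p : ℕ → ℕ) : val nA (d + 1) p = val nA d p + p d * nA ^ d :=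
  Finset.sum_range_succ _ _

theorem val_congr {p q : ℕ → ℕ} (h : ∀ j < d, p j = q j) : val nA d p = val nA d q :=
  Finset.sum_congr rfl fun j hj => by rw [h j (Finset.mem_range.1 hj)]

theorem val_lt {p : ℕ → ℕ} (h : ∀ j < d, p j < nA) : val nA d p < nA ^ d := by
  induction d with
  | zero => simp [val_zero]
  | succ d ih =>
    have h1 := ih fun j hj => h j (by omega)
    have h2 := Nat.mul_le_mul_right (nA ^ d) (show p d + 1 ≤ nA from h d (by omega))
    rw [val_succ, pow_succ']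
    nlinarith

theorem val_dig (t : ℕ) : val nA d (dig nA t) = t % nA ^ d := by
  induction d with
  | zero => simp [val_zero, Nat.mod_one]
  | succ d ih => rw [val_succ, ih, Nat.mod_pow_succ, dig, mul_comm]

theorem dig_lt (hA : 2 ≤ nA) (t j : ℕ) : dig nA t j < nA := Nat.mod_lt _ (by omega)

theorem val_inj {p q : ℕ → ℕ} (hp : ∀ j < d, p j < nA) (hq : ∀ j < d, q j < nA)
    (h : val nA d p = val nA d q) : ∀ j < d, p j = q j := by
  induction d with
  | zero => simp
  | succ d ih =>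
    have h1 := val_lt (nA := nA) (d := d) (p := p) fun j hj => hp j (by omega)
    have h2 := val_lt (nA := nA) (d := d) (p := q) fun j hj => hq j (by omega)
    rw [val_succ, val_succ] at h
    have h3 : p d = q d := by
      have h4 := congrArg (· / nA ^ d) h
      simpa only [Nat.add_mul_div_right _ _ (show 0 < nA ^ d by omega), Nat.div_eq_of_lt h1,
        Nat.div_eq_of_lt h2, zero_add] using h4
    rw [h3] at h
    intro j hj
    rcases Nat.lt_succ_iff_lt_or_eq.1 hj with hj | rfl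
    · exact ih (fun j hj => hp j (by omega)) (fun j hj => hq j (by omega)) (by omega) j hj
    · exact h3

theorem dig_val (hA : 2 ≤ nA) {p : ℕ → ℕ} (hp : ∀ j < d, p j < nA) :
    ∀ j < d, dig nA (val nA d p) j = p j :=
  val_inj (fun j _ => dig_lt hA _ j) hp (by rw [val_dig, Nat.mod_eq_of_lt (val_lt hp)])

theorem dig_zero (j : ℕ) : dig nA 0 j = 0 := by simp [dig]

theorem val_eq_zero {p : ℕ → ℕ} (h : ∀ j < d, p j = 0) : val nA d p = 0 :=
  Finset.sum_eq_zero fun j hj => by rw [h j (Finset.mem_range.1 hj), zero_mul]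

theorem val_max {p : ℕ → ℕ} (h : ∀ j < d, p j + 1 = nA) : val nA d p + 1 = nA ^ d := by
  induction d with
  | zero => simp [val_zero]
  | succ d ih =>
    have h1 := ih fun j hj => h j (by omega)
    have h2 := h d (by omega)
    rw [val_succ, pow_succ', add_right_comm, h1]
    nth_rw 3 [← h2]
    ring

/-- `q` is the successor of `p`, with a carry of length `c`. -/
def Inc (nA d c : ℕ) (p q : ℕ → ℕ) : Prop :=
  ∀ j < d, (j < c → p j + 1 = nA ∧ q j = 0) ∧ (j = c → q j = p j + 1) ∧ (c < j → q j = p j)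

theorem Inc.val_eq {c : ℕ} {p q : ℕ → ℕ} (hc : c < d) (h : Inc nA d c p q) :
    val nA d q = val nA d p + 1 := by
  induction d with
  | zero => omega
  | succ d ih =>
    rw [val_succ, val_succ]
    rcases Nat.lt_succ_iff_lt_or_eq.1 hc with hc | rfl
    · rw [ih hc fun j hj => h j (by omega), (h d (by omega)).2.2 hc]
      ring
    · have h1 := val_max (nA := nA) (d := c) (p := p) fun j hj => ((h j (by omega)).1 hj).1
      rw [val_eq_zero fun j hj => ((h j (by omega)).1 hj).2, (h c (by omega)).2.1 rfl,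
        add_right_comm, h1]
      ring

theorem exists_inc (hA : 2 ≤ nA) {t : ℕ} (ht : t + 1 < nA ^ d) :
    ∃ c < d, Inc nA d c (dig nA t) (dig nA (t + 1)) := by
  have hv : val nA d (dig nA t) = t := by rw [val_dig, Nat.mod_eq_of_lt (by omega)]
  have hex : ∃ c, c < d ∧ dig nA t c + 1 ≠ nA := by
    by_contra h
    push Not at h
    have := val_max h
    omega
  classical
  obtain ⟨hc, hc'⟩ := Nat.find_spec hex
  set c := Nat.find hex
  have hmin : ∀ j < c, dig nA t j + 1 = nA := fun j hj => by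
    have := Nat.find_min hex hj
    push Not at this
    exact this (by omega)
  set q : ℕ → ℕ := fun j => if j < c then 0 else if j = c then dig nA t j + 1 else dig nA t j
    with hq
  have h1 : Inc nA d c (dig nA t) q := fun j _ =>
    ⟨fun h => ⟨hmin j h, by simp [hq, h]⟩, fun h => by simp [hq, h],
      fun h => by simp [hq, h.not_gt, h.ne']⟩
  have h2 : ∀ j < d, q j < nA := by
    intro j _
    have := dig_lt hA t j
    simp only [hq]
    split_ifs with h3 h4
    · omega
    · subst h4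
      omega
    · exact this
  have h3 := dig_val hA h2
  rw [h1.val_eq hc, hv] at h3
  exact ⟨c, hc, fun j hj => by rw [h3 j hj]; exact h1 j hj⟩

theorem opf_lt (hA : 2 ≤ nA) {o : Op} {c j a a' : ℕ} (ha : a < nA) (h : opf nA o c j a = some a') :
    a' < nA := by
  have := Nat.mod_lt (o.2 / nA ^ j) (show 0 < nA by omega)
  unfold opf at h
  split_ifs at h <;> simp only [Option.some.injEq] at h <;> omega

theorem opf_dom (hA : 2 ≤ nA) (o : Op) (c j : ℕ) : ∃ a < nA, ∃ a', opf nA o c j a = some a' := by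
  by_contra h
  push Not at h
  have h0 := h 0 (by omega)
  have h1 := h (nA - 1) (by omega)
  have e1 : nA - 1 + 1 = nA := by omega
  have e2 : 0 < nA - 1 := by omega
  have e3 : 0 + 1 < nA := by omega
  unfold opf at h0 h1
  simp only [e1, e2, e3, if_true] at h0 h1
  split_ifs at h0 h1 <;> first | exact h0 _ rfl | exact h1 _ rfl

theorem opRel_of_opf (hA : 2 ≤ nA) {o : Op} {c : ℕ} (hc : c < d) {p q : ℕ → ℕ}
    (h : ∀ j < d, p j < nA ∧ opf nA o c j (p j) = some (q j)) :
    OpRel (nA ^ d) o (val nA d p) (val nA d q) := by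
  refine ⟨val_lt fun j hj => (h j hj).1, val_lt fun j hj => opf_lt hA (h j hj).1 (h j hj).2, ?_⟩
  unfold opf at h
  split_ifs with h0 h1 h2 h3 h4 h5
  · exact val_congr fun j hj => by simpa [h0, eq_comm] using (h j hj).2
  · refine ⟨val_eq_zero fun j hj => ?_, val_eq_zero fun j hj => ?_⟩
    all_goals
      have := (h j hj).2
      simp [h1] at this
      omega
  · refine Inc.val_eq hc fun j hj => ?_
    have := (h j hj).2
    simp only [h2, OfNat.ofNat_ne_zero, OfNat.ofNat_ne_one, if_false, if_true] at this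
    split_ifs at this <;> simp only [Option.some.injEq] at this <;> omega
  · refine Inc.val_eq hc fun j hj => ?_
    have := (h j hj).2
    rw [if_neg h0, if_neg h1, if_neg h2, if_pos h3] at this
    split_ifs at this <;> simp only [Option.some.injEq] at this <;> omega
  · have h6 : ∀ j < d, p j + 1 = nA ∧ q j = p j := by
      intro j hj
      have := (h j hj).2
      rw [if_neg h0, if_neg h1, if_neg h2, if_neg h3, if_pos h4] at this
      split_ifs at this
      simp only [Option.some.injEq] at this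
      omega
    exact ⟨val_max fun j hj => (h6 j hj).1, val_congr fun j hj => (h6 j hj).2⟩
  · refine val_eq_zero fun j hj => ?_
    have := (h j hj).2
    rw [if_neg h0, if_neg h1, if_neg h2, if_neg h3, if_neg h4, if_pos h5] at this
    simp only [Option.some.injEq] at this
    omega
  · have h6 : ∀ j < d, p j = 0 ∧ q j = dig nA o.2 j := by
      intro j hj
      have := (h j hj).2
      rw [if_neg h0, if_neg h1, if_neg h2, if_neg h3, if_neg h4, if_neg h5] at this
      split_ifs at this with h7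
      simp only [Option.some.injEq] at this
      exact ⟨h7, this.symm⟩
    exact ⟨val_eq_zero fun j hj => (h6 j hj).1,
      (val_congr fun j hj => (h6 j hj).2).trans (val_dig _)⟩

theorem opf_of_opRel (hA : 2 ≤ nA) (hd : 1 ≤ d) {o : Op} {t t' : ℕ} (h : OpRel (nA ^ d) o t t') :
    ∃ c < d, ∀ j < d, opf nA o c j (dig nA t j) = some (dig nA t' j) := by
  obtain ⟨ht, ht', h⟩ := h
  unfold opf
  split_ifs at h with h0 h1 h2 h3 h4 h5
  · exact ⟨0, hd, fun j _ => by rw [if_pos h0, h]⟩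
  · exact ⟨0, hd, fun j _ => by rw [if_neg h0, if_pos h1, h.1, h.2, dig_zero, if_pos rfl]⟩
  · subst h
    obtain ⟨c, hc, hi⟩ := exists_inc hA ht'
    refine ⟨c, hc, fun j hj => ?_⟩
    have h6 := hi j hj
    have h7 := dig_lt hA (t + 1) j
    rw [if_neg h0, if_neg h1, if_pos h2]
    split_ifs <;> first | omega | (simp only [Option.some.injEq]; omega)
  · subst h
    obtain ⟨c, hc, hi⟩ := exists_inc hA ht
    refine ⟨c, hc, fun j hj => ?_⟩
    have h6 := hi j hj
    rw [if_neg h0, if_neg h1, if_neg h2, if_pos h3]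
    split_ifs <;> first | omega | (simp only [Option.some.injEq]; omega)
  · refine ⟨0, hd, fun j hj => ?_⟩
    have h6 := val_max (nA := nA) (d := d) (p := fun _ => nA - 1) fun _ _ => by omega
    have h7 := dig_val hA (d := d) (p := fun _ => nA - 1) (fun _ _ => by omega) j hj
    have h8 : val nA d (fun _ => nA - 1) = t := by omega
    rw [h8] at h7
    rw [if_neg h0, if_neg h1, if_neg h2, if_neg h3, if_pos h4, h.2, if_pos (by omega)]
  · exact ⟨0, hd, fun j _ => by
      rw [if_neg h0, if_neg h1, if_neg h2, if_neg h3, if_neg h4, if_pos h5, h, dig_zero]⟩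
  · refine ⟨0, hd, fun j hj => ?_⟩
    rw [if_neg h0, if_neg h1, if_neg h2, if_neg h3, if_neg h4, if_neg h5, h.1, h.2, dig_zero,
      if_pos rfl, ← val_dig, dig_val hA (fun j _ => dig_lt hA _ j) j hj]
    rfl

theorem baseRule_mem {ρ : ℕ} (h0 : 0 < ρ) (h : ρ < 1 + rs.length * (d * d)) :
    baseRule rs d ρ ∈ rs := by
  have h1 : (ρ - 1) / (d * d) < rs.length := Nat.div_lt_of_lt_mul (by rw [mul_comm]; omega)
  rw [baseRule, List.getD_eq_getElem _ _ h1]
  exact List.getElem_mem h1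

theorem exists_rho {r : Rule} (hr : r ∈ rs) {c1 c2 : ℕ} (h1 : c1 < d) (h2 : c2 < d) :
    ∃ ρ, 0 < ρ ∧ ρ < 1 + rs.length * (d * d) ∧ baseRule rs d ρ = r ∧ (ρ - 1) / d % d = c1 ∧
      (ρ - 1) % d = c2 := by
  obtain ⟨i, hi, rfl⟩ := List.getElem_of_mem hr
  have hd : 0 < d := by omega
  have h3 : c2 + c1 * d < d * d := by nlinarith [Nat.mul_le_mul_right d (show c1 + 1 ≤ d from h1)]
  have h4 := Nat.mul_le_mul_right (d * d) (show i + 1 ≤ rs.length from hi)
  refine ⟨c2 + c1 * d + i * (d * d) + 1, by omega, by nlinarith, ?_, ?_, ?_⟩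
  · rw [baseRule, Nat.add_sub_cancel, Nat.add_mul_div_right _ _ (by omega), Nat.div_eq_of_lt h3,
      zero_add, List.getD_eq_getElem _ _ hi]
  · rw [Nat.add_sub_cancel, show c2 + c1 * d + i * (d * d) = c2 + (c1 + i * d) * d by ring,
      Nat.add_mul_div_right _ _ hd, Nat.div_eq_of_lt h2, zero_add, Nat.add_mul_mod_self_right,
      Nat.mod_eq_of_lt h1]
  · rw [Nat.add_sub_cancel, show c2 + c1 * d + i * (d * d) = c2 + (c1 + i * d) * d by ring,
      Nat.add_mul_mod_self_right, Nat.mod_eq_of_lt h2]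

/-- Extension of a vector by zeros. -/
def ex {k : ℕ} (p : Fin k → ℕ) (j : ℕ) : ℕ := if h : j < k then p ⟨j, h⟩ else 0

theorem ex_of_lt {k : ℕ} (p : Fin k → ℕ) {j : ℕ} (h : j < k) : ex p j = p ⟨j, h⟩ := dif_pos h

theorem opRel_of_step (hA : 2 ≤ nA) (hd : 1 ≤ d) {ρ : ℕ} (h0 : 0 < ρ)
    {p q : Fin (csB rs nA d).k → ℕ} (h : (csB rs nA d).Step ρ p q) :
    OpRel (nA ^ d) (baseRule rs d ρ).2.2.2.1 (val nA d (ex p)) (val nA d (ex q)) ∧
    OpRel (nA ^ d) (baseRule rs d ρ).2.2.2.2 (val nA d fun j => ex p (j + d))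
      (val nA d fun j => ex q (j + d)) := by
  refine ⟨opRel_of_opf hA (c := (ρ - 1) / d % d) (Nat.mod_lt _ hd) fun j hj => ?_,
    opRel_of_opf hA (c := (ρ - 1) % d) (Nat.mod_lt _ hd) fun j hj => ?_⟩
  · have hj' : j < (csB rs nA d).k := show j < 2 * d by omega
    have := h ⟨j, hj'⟩
    rw [ex_of_lt p hj', ex_of_lt q hj']
    simpa only [csB, if_neg h0.ne', if_pos hj] using this
  · have hj' : j + d < (csB rs nA d).k := show j + d < 2 * d by omega
    have := h ⟨j + d, hj'⟩
    rw [ex_of_lt p hj', ex_of_lt q hj']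
    simpa only [csB, if_neg h0.ne', if_neg (show ¬ j + d < d by omega), Nat.add_sub_cancel]
      using this

theorem tr2_of_tr (hA : 2 ≤ nA) (hd : 1 ≤ d) {y : Wire} {p : Fin (csB rs nA d).k → ℕ}
    (h : (csB rs nA d).Tr y p) :
    Tr2 rs (nA ^ d) y (val nA d (ex p)) (val nA d fun j => ex p (j + d)) := by
  induction h with
  | src h0 h1 h2 h3 =>
    obtain ⟨h4, h5⟩ := opRel_of_step hA hd h0 h3
    simp only [csB, if_neg h0.ne'] at h2 ⊢
    exact Tr2.src (baseRule_mem h0 h1) h2 h4 h5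
  | both h0 h1 _ _ h3 ih1 ih2 =>
    obtain ⟨h4, h5⟩ := opRel_of_step hA hd h0 h3
    simp only [csB, if_neg h0.ne'] at ih1 ih2 ⊢
    exact Tr2.both (baseRule_mem h0 h1) ih1 ih2 h4 h5

/-- The digit vector of a pair of numbers. -/
def dig2 (rs : List Rule) (nA d t x : ℕ) (j : Fin (csB rs nA d).k) : ℕ :=
  if (j : ℕ) < d then dig nA t j else dig nA x (j - d)

theorem step_of_opRel (hA : 2 ≤ nA) (hd : 1 ≤ d) {r : Rule} (hr : r ∈ rs) {t x t' x' : ℕ}
    (h1 : OpRel (nA ^ d) r.2.2.2.1 t t') (h2 : OpRel (nA ^ d) r.2.2.2.2 x x') :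
    ∃ ρ, 0 < ρ ∧ ρ < (csB rs nA d).nR ∧ (csB rs nA d).k1 ρ = r.1 ∧ (csB rs nA d).k2 ρ = r.2.1 ∧
      (csB rs nA d).out ρ = r.2.2.1 ∧
      (csB rs nA d).Step ρ (dig2 rs nA d t x) (dig2 rs nA d t' x') := by
  obtain ⟨c1, hc1, h3⟩ := opf_of_opRel hA hd h1
  obtain ⟨c2, hc2, h4⟩ := opf_of_opRel hA hd h2
  obtain ⟨ρ, h0, hρ, hb, e1, e2⟩ := exists_rho hr hc1 hc2
  refine ⟨ρ, h0, hρ, ?_, ?_, ?_, fun j => ?_⟩
  · simp only [csB, if_neg h0.ne', hb]
  · simp only [csB, if_neg h0.ne', hb]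
  · simp only [csB, if_neg h0.ne', hb]
  · have hj : (j : ℕ) < 2 * d := j.2
    simp only [csB, if_neg h0.ne', hb, e1, e2, dig2]
    split_ifs with h
    · exact ⟨dig_lt hA _ _, h3 j h⟩
    · exact ⟨dig_lt hA _ _, h4 _ (by omega)⟩

theorem tr_of_tr2 (hA : 2 ≤ nA) (hd : 1 ≤ d) {y : Wire} {t x : ℕ} (h : Tr2 rs (nA ^ d) y t x) :
    (csB rs nA d).Tr y (dig2 rs nA d t x) := by
  induction h with
  | src hr h1 h2 h3 =>
    obtain ⟨ρ, h0, hρ, e1, e2, e3, hs⟩ := step_of_opRel hA hd hr h2 h3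
    rw [← e3]
    exact CS.Tr.src h0 hρ (by rw [e1, e2, h1]) hs
  | both hr _ _ h2 h3 ih1 ih2 =>
    obtain ⟨ρ, h0, hρ, e1, e2, e3, hs⟩ := step_of_opRel hA hd hr h2 h3
    rw [← e3]
    exact CS.Tr.both h0 hρ (e1 ▸ ih1) (e2 ▸ ih2) hs

end Dig

open Dig

theorem csB_wf (hA : 2 ≤ nA) (hd : 1 ≤ d) (h : BWF rs) : (csB rs nA d).WF := by
  have hTG : wT ≠ wG := by decide
  refine ⟨show 0 < 2 * d by omega, show 0 < 1 + _ by omega, fun ρ hρ => ?_, fun ρ hρ => ?_,
    fun ρ hρ => ?_, fun ρ hρ => ?_, rfl, fun _ _ => rfl, fun ρ _ j _ a ha a' e => ?_,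
    fun ρ _ j _ => ?_, fun ρ hρ => ?_⟩
  · simp only [csB]
    split_ifs with h0
    · exact hTG.symm
    · exact h.out1 _ (baseRule_mem (Nat.pos_of_ne_zero h0) hρ)
  · simp only [csB]
    split_ifs with h0
    · exact hTG.symm
    · exact h.out2 _ (baseRule_mem (Nat.pos_of_ne_zero h0) hρ)
  · simp only [csB, if_true]
    split_ifs with h0
    · exact hTG
    · exact h.goal1 _ (baseRule_mem (Nat.pos_of_ne_zero h0) hρ)
  · simp only [csB, if_true]
    split_ifs with h0
    · exact hTG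
    · exact h.goal2 _ (baseRule_mem (Nat.pos_of_ne_zero h0) hρ)
  · simp only [csB] at ha e ⊢
    split_ifs at e
    · simp only [Option.some.injEq] at e
      omega
    · exact opf_lt hA ha e
    · exact opf_lt hA ha e
  · simp only [csB]
    split_ifs
    · exact ⟨0, by omega, 0, rfl⟩
    · exact opf_dom hA _ _ _
    · exact opf_dom hA _ _ _
  · have : ∃ r' ∈ rs, r'.2.2.1 = (csB rs nA d).out ρ ∧ r'.2.2.2.1.1 = 0 ∧ r'.2.2.2.2.1 = 0 := by
      simp only [csB]
      split_ifs with h0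
      · exact h.idg
      · exact h.idp _ (baseRule_mem (Nat.pos_of_ne_zero h0) hρ)
    obtain ⟨r, hr, e1, e2, e3⟩ := this
    obtain ⟨ρ', h0, hρ', hb, -, -⟩ := exists_rho hr (show 0 < d from hd) (show 0 < d from hd)
    refine ⟨ρ', h0, hρ', ?_, fun j a => ?_⟩
    · rw [← e1]
      simp only [csB, if_neg h0.ne', hb]
    · simp only [csB, if_neg h0.ne', hb, opf, e2, e3, if_true, ite_self]

theorem csB_allTrue (hA : 2 ≤ nA) (hd : 1 ≤ d) (h : BAll rs (nA ^ d)) : (csB rs nA d).AllTrue := by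
  intro ρ hρ hk p hp
  have h0 : ρ ≠ 0 := by
    rintro rfl
    exact hk rfl
  have h1 : ∀ j < d, ex p j < nA := fun j hj => by
    rw [ex_of_lt p (show j < 2 * d by omega)]
    exact hp _
  have h2 : ∀ j < d, ex p (j + d) < nA := fun j hj => by
    rw [ex_of_lt p (show j + d < 2 * d by omega)]
    exact hp _
  have e : dig2 rs nA d (val nA d (ex p)) (val nA d fun j => ex p (j + d)) = p := by
    funext j
    have hj : (j : ℕ) < 2 * d := j.2
    unfold dig2
    split_ifs with h3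
    · rw [dig_val hA h1 j h3, ex_of_lt p j.2]
    · rw [dig_val hA h2 _ (by omega), Nat.sub_add_cancel (not_lt.1 h3), ex_of_lt p j.2]
  obtain ⟨h3, h4⟩ := h _ (baseRule_mem (Nat.pos_of_ne_zero h0) hρ) _ (val_lt h1) _ (val_lt h2)
  have h5 := tr_of_tr2 hA hd h3
  have h6 := tr_of_tr2 hA hd h4
  rw [e] at h5 h6
  have e1 : (csB rs nA d).k1 ρ = (baseRule rs d ρ).1 := if_neg h0
  have e2 : (csB rs nA d).k2 ρ = (baseRule rs d ρ).2.1 := if_neg h0
  rw [e1, e2]
  exact ⟨h5, h6⟩

theorem csB_noGoal (hA : 2 ≤ nA) (hd : 1 ≤ d) (h : ∀ t x, ¬ Tr2 rs (nA ^ d) wG t x)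
    (q : Fin (csB rs nA d).k → ℕ) : ¬ (csB rs nA d).Tr ((csB rs nA d).out 0) q :=
  fun hq => h _ _ (tr2_of_tr hA hd hq)

end Crest.Agent.R290
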