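import Crest.Agent.Lib.PolyTime.Enc
import Crest.Agent.Lib.PolyTime.More
import Crest.Prelude.Def_WordRAM

/-!
# Row 290: a polynomial-time interpreter for word-RAM programs
-/

set_option autoImplicit false

namespace Crest.Agent.R290

open Crest.Agent.Lib.PolyTime Crest.Enc

/-- Anchor the equation lemmas of the word-RAM definitions in this module. -/
theorem ram_anchor : True := by
  have := @Crest.WordRAM.step.eq_1
  have := @Crest.WordRAM.step.eq_def
  have := @Crest.WordRAM.run.eq_1
  have := @Crest.WordRAM.run.eq_def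
  have := @Crest.WordRAM.init.eq_1
  have := @Crest.WordRAM.init.eq_def
  have := @Crest.WordRAM.Cfg.reg.eq_1
  have := @Crest.WordRAM.Cfg.reg.eq_def
  have := @Crest.WordRAM.Cfg.output.eq_1
  have := @Crest.WordRAM.Cfg.output.eq_def
  have := @Crest.WordRAM.writeReg.eq_1
  have := @Crest.WordRAM.writeReg.eq_def
  have := @Crest.WordRAM.writeMem.eq_1
  have := @Crest.WordRAM.writeMem.eq_def
  have := @Crest.WordRAM.HaltsWithin.eq_1
  have := @Crest.WordRAM.HaltsWithin.eq_def
  have := @Crest.WordRAM.Fits.eq_1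
  have := @Crest.WordRAM.Fits.eq_def
  have := @Crest.WordRAM.ComputesOn.eq_1
  have := @Crest.WordRAM.ComputesOn.eq_def
  have := @Crest.WordRAM.Computes.eq_1
  have := @Crest.WordRAM.Computes.eq_def
  trivial

/-- A halted run does not change any more. -/
theorem ram_run_eq {P : Crest.WordRAM.Program} {w : ℕ} {ρ : ℕ → ℕ} {x : List ℕ} {T F : ℕ}
    (h : (Crest.WordRAM.run P w ρ x T).halted = true) (hF : T ≤ F) :
    Crest.WordRAM.run P w ρ x F = Crest.WordRAM.run P w ρ x T := by
  obtain ⟨k, rfl⟩ := Nat.exists_eq_add_of_le' hF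
  unfold Crest.WordRAM.run at h ⊢
  rw [Function.iterate_add_apply]
  generalize (Crest.WordRAM.step P w ρ)^[T] (Crest.WordRAM.init P w x) = c at h ⊢
  refine Function.iterate_fixed ?_ k
  unfold Crest.WordRAM.step
  rw [if_pos h]

namespace RamAux

open Crest.WordRAM

/-! ### Bitwise operations and unpairing -/

theorem testBit_ofBits (l : List Bool) (i : ℕ) : (ofBits l).testBit i = l.getD i false := by
  induction l generalizing i with
  | nil => simp
  | cons b l ih =>
    cases i with
    | zero => rw [ofBits_cons, Nat.testBit_bit_zero]; rfl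
    | succ i => rw [ofBits_cons, Nat.testBit_bit_succ, ih]; rfl

theorem bitwise_eq (f : Bool → Bool → Bool) (hf : f false false = false) (m n : ℕ) :
    ofBits ((List.range (m.size + n.size)).map fun i => f (m.testBit i) (n.testBit i))
      = Nat.bitwise f m n := by
  refine Nat.eq_of_testBit_eq fun i => ?_
  rw [testBit_ofBits, Nat.testBit_bitwise hf]
  by_cases hi : i < m.size + n.size
  · simp [List.getD, hi]
  · have h1 : m < 2 ^ i :=
      (Nat.lt_size_self m).trans_le (Nat.pow_le_pow_right (by norm_num) (by omega))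
    have h2 : n < 2 ^ i :=
      (Nat.lt_size_self n).trans_le (Nat.pow_le_pow_right (by norm_num) (by omega))
    rw [Nat.testBit_lt_two_pow h1, Nat.testBit_lt_two_pow h2, hf]
    simp [List.getD, hi]

section poly
variable {α : Type} [PEnc α]

@[fun_prop] theorem poly_land {m n : α → ℕ} (hm : Poly m) (hn : Poly n) :
    Poly fun a => m a &&& n a :=
  (Poly.ofBits (Poly.map_range (n := fun a => (m a).size + (n a).size)
    (f := fun a i => (m a).testBit i && (n a).testBit i) (by fun_prop) (by fun_prop)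
    (by fun_prop))).congr fun a => bitwise_eq and rfl (m a) (n a)

@[fun_prop] theorem poly_lor {m n : α → ℕ} (hm : Poly m) (hn : Poly n) :
    Poly fun a => m a ||| n a :=
  (Poly.ofBits (Poly.map_range (n := fun a => (m a).size + (n a).size)
    (f := fun a i => (m a).testBit i || (n a).testBit i) (by fun_prop) (by fun_prop)
    (by fun_prop))).congr fun a => bitwise_eq or rfl (m a) (n a)

@[fun_prop] theorem poly_lxor {m n : α → ℕ} (hm : Poly m) (hn : Poly n) :
    Poly fun a => m a ^^^ n a :=
  (Poly.ofBits (Poly.map_range (n := fun a => (m a).size + (n a).size)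
    (f := fun a i => xor ((m a).testBit i) ((n a).testBit i)) (by fun_prop) (by fun_prop)
    (by fun_prop))).congr fun a => bitwise_eq bne rfl (m a) (n a)

@[fun_prop] theorem poly_unpair {n : α → ℕ} (hn : Poly n) : Poly fun a => (n a).unpair := by
  have : Poly fun a => if n a - (n a).sqrt * (n a).sqrt < (n a).sqrt
      then (n a - (n a).sqrt * (n a).sqrt, (n a).sqrt)
      else ((n a).sqrt, n a - (n a).sqrt * (n a).sqrt - (n a).sqrt) := by fun_prop
  exact this.congr fun _ => rfl

end poly

/-! ### The interpreter -/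

/-- Program counter, halting flag, register writes, memory writes. -/
abbrev St : Type := ℕ × Bool × List (ℕ × ℕ) × List (ℕ × ℕ)

/-- Read a register. -/
def rd (l : List (ℕ × ℕ)) (k : ℕ) : ℕ := (l.lookup k).getD 0

/-- Read a memory cell. -/
def md (W : ℕ) (x : List ℕ) (l : List (ℕ × ℕ)) (a : ℕ) : ℕ :=
  (l.lookup a).getD (x[a]?.getD 0 % 2 ^ W)

/-- The value computed by an instruction that writes a register. -/
def alu (W op v x y m : ℕ) : ℕ :=
  if op = 0 then v else if op = 1 then x else if op = 2 then x + y else if op = 3 then x - y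
  else if op = 4 then x * y else if op = 5 then x / y else if op = 6 then x % y
  else if op = 7 then x &&& y else if op = 8 then x ||| y else if op = 9 then x ^^^ y
  else if op = 10 then (if y < W then x * 2 ^ (min y W) else 0)
  else if op = 11 then (if y < W then x / 2 ^ (min y W) else 0)
  else if op = 12 then m else 0

/-- Whether a jump is taken. -/
def jmp (op x y : ℕ) : Bool :=
  if op = 15 then true else if op = 16 then decide (x = 0) else if op = 17 then decide (x = y)
  else decide (x < y)

/-- Execute the instruction `(op, d, a, b)`. -/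
def exec (W : ℕ) (x : List ℕ) (op d a b : ℕ) (s : St) : St :=
  if op ≤ 13 then (s.1 + 1, false, (d, alu W op b (rd s.2.2.1 a) (rd s.2.2.1 b)
      (md W x s.2.2.2 (rd s.2.2.1 a)) % 2 ^ W) :: s.2.2.1, s.2.2.2)
  else if op = 14 then
    (s.1 + 1, false, s.2.2.1, (rd s.2.2.1 a % 2 ^ W, rd s.2.2.1 d % 2 ^ W) :: s.2.2.2)
  else if op ≤ 18 then
    (if jmp op (rd s.2.2.1 d) (rd s.2.2.1 a) then b else s.1 + 1, false, s.2.2.1, s.2.2.2)
  else (s.1, true, s.2.2.1, s.2.2.2)

/-- One step of the interpreter. -/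
def istep (prog : List ℕ) (W : ℕ) (x : List ℕ) (s : St) : St :=
  if s.2.1 = true then s
  else if s.1 < prog.length then
    exec W x (prog.getD s.1 0).unpair.1 (prog.getD s.1 0).unpair.2.unpair.1
      (prog.getD s.1 0).unpair.2.unpair.2.unpair.1 (prog.getD s.1 0).unpair.2.unpair.2.unpair.2 s
  else (s.1, true, s.2.2.1, s.2.2.2)

/-- The initial state. -/
def iinit (r W : ℕ) (x : List ℕ) : St :=
  (0, false, if 0 < r then [(0, x.length % 2 ^ W)] else [], [])

/-- The output is `[1]`. -/
def iout (W : ℕ) (x : List ℕ) (s : St) : Bool :=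
  decide (rd s.2.2.1 0 = 1) && decide (md W x s.2.2.2 (rd s.2.2.1 1) = 1)

section poly
variable {α : Type} [PEnc α]

@[fun_prop] theorem poly_rd {l : α → List (ℕ × ℕ)} {k : α → ℕ} (hl : Poly l) (hk : Poly k) :
    Poly fun a => rd (l a) (k a) := by unfold rd; fun_prop

@[fun_prop] theorem poly_md {W : α → ℕ} {x : α → List ℕ} {l : α → List (ℕ × ℕ)} {k : α → ℕ}
    (hW : Poly W) (hW' : PB W) (hx : Poly x) (hl : Poly l) (hk : Poly k) :
    Poly fun a => md (W a) (x a) (l a) (k a) := by unfold md; fun_prop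

@[fun_prop] theorem poly_alu {W op v x y m : α → ℕ} (hW : Poly W) (hW' : PB W) (hop : Poly op)
    (hv : Poly v) (hx : Poly x) (hy : Poly y) (hm : Poly m) :
    Poly fun a => alu (W a) (op a) (v a) (x a) (y a) (m a) := by
  have h2 : Poly fun a => 2 ^ (min (y a) (W a)) :=
    Poly.pow (by fun_prop) (hy.natMin hW) (PB.min_right _ hW')
  unfold alu; fun_prop

@[fun_prop] theorem poly_jmp {op x y : α → ℕ} (hop : Poly op) (hx : Poly x) (hy : Poly y) :
    Poly fun a => jmp (op a) (x a) (y a) := by unfold jmp; fun_prop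

@[fun_prop] theorem poly_exec {W op d b c : α → ℕ} {x : α → List ℕ} {s : α → St} (hW : Poly W)
    (hW' : PB W) (hx : Poly x) (hop : Poly op) (hd : Poly d) (hb : Poly b) (hc : Poly c)
    (hs : Poly s) : Poly fun a => exec (W a) (x a) (op a) (d a) (b a) (c a) (s a) := by
  unfold exec; fun_prop

@[fun_prop] theorem poly_istep {prog x : α → List ℕ} {W : α → ℕ} {s : α → St} (hp : Poly prog)
    (hW : Poly W) (hW' : PB W) (hx : Poly x) (hs : Poly s) :
    Poly fun a => istep (prog a) (W a) (x a) (s a) := by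
  unfold istep; fun_prop

@[fun_prop] theorem poly_iinit {r W : α → ℕ} {x : α → List ℕ} (hr : Poly r) (hW : Poly W)
    (hW' : PB W) (hx : Poly x) : Poly fun a => iinit (r a) (W a) (x a) := by
  unfold iinit; fun_prop

@[fun_prop] theorem poly_iout {W : α → ℕ} {x : α → List ℕ} {s : α → St} (hW : Poly W)
    (hW' : PB W) (hx : Poly x) (hs : Poly s) : Poly fun a => iout (W a) (x a) (s a) := by
  unfold iout; fun_prop

end poly

theorem sz_exec_le (W : ℕ) (x : List ℕ) (op d a b : ℕ) (s : St) :
    sz (exec W x op d a b s) ≤ sz s + sz (s.1 + 1) + sz d + sz b + 8 * W + 8 := by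
  obtain ⟨pc, h, R, M⟩ := s
  have hm : ∀ v : ℕ, sz (v % 2 ^ W) ≤ 4 * W + 1 := fun v =>
    sz_le_of_lt_two_pow (Nat.mod_lt _ (by positivity))
  have hh := one_le_sz h
  unfold exec
  split_ifs
  · have := hm (alu W op b (rd R a) (rd R b) (md W x M (rd R a)))
    simp only [sz_pair, sz_cons, sz_false]; omega
  · have := hm (rd R a)
    have := hm (rd R d)
    simp only [sz_pair, sz_cons, sz_false]; omega
  · simp only [sz_pair, sz_false]; omega
  · simp only [sz_pair, sz_false]; omega
  · simp only [sz_pair, sz_true]; omega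

theorem sz_istep_le (prog : List ℕ) (W : ℕ) (x : List ℕ) (s : St) :
    sz (istep prog W x s) ≤ sz s + (12 * sz prog + 8 * W + 9) := by
  unfold istep
  split_ifs with h1 h2
  · omega
  · have hI : sz (prog.getD s.1 0) ≤ sz prog := by
      rw [List.getD_eq_getElem _ _ h2]; exact sz_le_of_mem (List.getElem_mem _)
    set I := prog.getD s.1 0
    have e1 : I.unpair.2.unpair.1 ≤ I := (Nat.unpair_left_le _).trans (Nat.unpair_right_le _)
    have e2 : I.unpair.2.unpair.2.unpair.2 ≤ I :=
      (Nat.unpair_right_le _).trans ((Nat.unpair_right_le _).trans (Nat.unpair_right_le _))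
    have f1 := sz_le_of_le e1
    have f2 := sz_le_of_le e2
    have f3 := sz_le_self (s.1 + 1)
    have f4 := length_lt_sz prog
    have := sz_exec_le W x I.unpair.1 I.unpair.2.unpair.1 I.unpair.2.unpair.2.unpair.1
      I.unpair.2.unpair.2.unpair.2 s
    omega
  · obtain ⟨pc, h, R, M⟩ := s
    have hh := one_le_sz h
    simp only [sz_pair, sz_true]; omega

/-! ### The simulation -/

/-- The number of an instruction. -/
def mkI (op d a b : ℕ) : ℕ := Nat.pair op (Nat.pair d (Nat.pair a b))

/-- The code of an instruction. -/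
def encI {r : ℕ} (i : Instr r) : ℕ :=
  Instr.casesOn (motive := fun _ => ℕ) i
    (fun d v => mkI 0 d 0 v) (fun d s => mkI 1 d s 0)
    (fun d a b => mkI 2 d a b) (fun d a b => mkI 3 d a b) (fun d a b => mkI 4 d a b)
    (fun d a b => mkI 5 d a b) (fun d a b => mkI 6 d a b) (fun d a b => mkI 7 d a b)
    (fun d a b => mkI 8 d a b) (fun d a b => mkI 9 d a b) (fun d a b => mkI 10 d a b)
    (fun d a b => mkI 11 d a b) (fun d a => mkI 12 d a 0) (fun s a => mkI 14 s a 0)
    (fun l => mkI 15 0 0 l) (fun a l => mkI 16 a 0 l) (fun a b l => mkI 17 a b l)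
    (fun a b l => mkI 18 a b l) (fun d => mkI 13 d 0 0) (mkI 19 0 0 0)

/-- The state `s` represents the configuration `c`. -/
structure Rel {r : ℕ} (W : ℕ) (x : List ℕ) (c : Cfg r) (s : St) : Prop where
  pc : s.1 = c.pc
  halted : s.2.1 = c.halted
  regs : ∀ j : Fin r, rd s.2.2.1 j = c.regs j
  out : ∀ k, r ≤ k → rd s.2.2.1 k = 0
  mem : ∀ a, md W x s.2.2.2 a = c.mem a
  rlt : ∀ j, c.regs j < 2 ^ W
  mlt : ∀ a, c.mem a < 2 ^ W

theorem rd_cons (l : List (ℕ × ℕ)) (d v k : ℕ) :
    rd ((d, v) :: l) k = if k = d then v else rd l k := by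
  unfold rd
  by_cases h : k = d
  · simp [List.lookup, h]
  · have : (k == d) = false := by simpa using h
    simp [List.lookup, this, h]

theorem md_cons (W : ℕ) (x : List ℕ) (l : List (ℕ × ℕ)) (d v k : ℕ) :
    md W x ((d, v) :: l) k = if k = d then v else md W x l k := by
  unfold md
  by_cases h : k = d
  · simp [List.lookup, h]
  · have : (k == d) = false := by simpa using h
    simp [List.lookup, this, h]

theorem Rel.write {r W : ℕ} {x : List ℕ} {c : Cfg r} {s : St} (h : Rel W x c s)
    (hc : c.halted = false) (d : Fin r) (v v' : ℕ) (hv : v' % 2 ^ W = v) (dr : ℕ) :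
    Rel W x { c with pc := c.pc + 1, regs := writeReg c.regs d v, drawn := dr }
      (s.1 + 1, false, ((d : ℕ), v' % 2 ^ W) :: s.2.2.1, s.2.2.2) where
  pc := congrArg (· + 1) h.pc
  halted := hc.symm
  regs j := by
    simp only [rd_cons, writeReg, Fin.val_inj, hv, h.regs]
  out k hk := by
    have := d.2
    simp only [rd_cons]
    rw [if_neg (by omega)]; exact h.out k hk
  mem := h.mem
  rlt j := by
    simp only [writeReg]
    split_ifs
    · rw [← hv]; exact Nat.mod_lt _ (by positivity)
    · exact h.rlt j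
  mlt := h.mlt

theorem Rel.jump {r W : ℕ} {x : List ℕ} {c : Cfg r} {s : St} (h : Rel W x c s)
    (hc : c.halted = false) (l l' : ℕ) (hl : l' = l) :
    Rel W x { c with pc := l } (l', false, s.2.2.1, s.2.2.2) :=
  ⟨hl, hc.symm, h.regs, h.out, h.mem, h.rlt, h.mlt⟩

theorem Rel.halt {r W : ℕ} {x : List ℕ} {c : Cfg r} {s : St} (h : Rel W x c s) :
    Rel W x { c with halted := true } (s.1, true, s.2.2.1, s.2.2.2) :=
  ⟨h.pc, rfl, h.regs, h.out, h.mem, h.rlt, h.mlt⟩

theorem Rel.store {r W : ℕ} {x : List ℕ} {c : Cfg r} {s : St} (h : Rel W x c s)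
    (hc : c.halted = false) (d a : Fin r) :
    Rel W x { c with pc := c.pc + 1, mem := writeMem c.mem (c.regs a) (c.regs d) }
      (s.1 + 1, false, s.2.2.1, (rd s.2.2.1 a % 2 ^ W, rd s.2.2.1 d % 2 ^ W) :: s.2.2.2) where
  pc := congrArg (· + 1) h.pc
  halted := hc.symm
  regs := h.regs
  out := h.out
  mem k := by
    simp only [md_cons, writeMem, h.regs, h.mem, Nat.mod_eq_of_lt (h.rlt _)]
  rlt := h.rlt
  mlt k := by
    simp only [writeMem]
    split_ifs
    · exact h.rlt d
    · exact h.mlt k

theorem istep_mkI {prog : List ℕ} {W : ℕ} {x : List ℕ} {s : St} {op d a b : ℕ}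
    (hs : s.2.1 = false) (h : prog[s.1]? = some (mkI op d a b)) :
    istep prog W x s = exec W x op d a b s := by
  have hlt : s.1 < prog.length := (List.getElem?_eq_some_iff.1 h).1
  have hg : prog.getD s.1 0 = mkI op d a b := by rw [List.getD_eq_getElem?_getD, h]; rfl
  unfold istep
  rw [if_neg (by simp [hs]), if_pos hlt, hg]
  simp only [mkI, Nat.unpair_pair]

theorem Rel.step {P : Program} {W : ℕ} {x : List ℕ} {c : Cfg P.numRegs} {s : St}
    (h : Rel W x c s) :
    Rel W x (Crest.WordRAM.step P W (fun _ => 0) c) (istep (P.code.map encI) W x s) := by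
  by_cases hc : c.halted = true
  · have e1 : Crest.WordRAM.step P W (fun _ => 0) c = c := by
      unfold Crest.WordRAM.step; rw [if_pos hc]
    have e2 : istep (P.code.map encI) W x s = s := by
      unfold istep; rw [if_pos (h.halted.trans hc)]
    rw [e1, e2]; exact h
  have hc' : c.halted = false := by simpa using hc
  have hs : s.2.1 = false := h.halted.trans hc'
  have hp : (P.code.map encI)[s.1]? = (P.code[c.pc]?).map encI := by
    rw [List.getElem?_map, h.pc]
  have hmod : ∀ {v : ℕ}, v < 2 ^ W → v % 2 ^ W = v := Nat.mod_eq_of_lt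
  unfold Crest.WordRAM.step
  rw [if_neg hc]
  rcases hi : P.code[c.pc]? with _ | i
  · have e2 : istep (P.code.map encI) W x s = (s.1, true, s.2.2.1, s.2.2.2) := by
      unfold istep
      rw [if_neg (by simp [hs]), if_neg]
      rw [hi] at hp
      simpa using hp
    rw [e2]; exact h.halt
  rw [hi] at hp
  cases i with
  | const d v =>
    rw [istep_mkI hs hp]
    exact h.write hc' d _ _ rfl _
  | copy d a =>
    rw [istep_mkI hs hp]
    refine h.write hc' d _ _ ?_ _
    rw [h.regs]; exact hmod (h.rlt a)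
  | add d a b =>
    rw [istep_mkI hs hp]
    refine h.write hc' d _ _ ?_ _
    rw [h.regs, h.regs]; rfl
  | sub d a b =>
    rw [istep_mkI hs hp]
    refine h.write hc' d _ _ ?_ _
    rw [h.regs, h.regs]; exact hmod ((Nat.sub_le _ _).trans_lt (h.rlt a))
  | mul d a b =>
    rw [istep_mkI hs hp]
    refine h.write hc' d _ _ ?_ _
    rw [h.regs, h.regs]; rfl
  | quot d a b =>
    rw [istep_mkI hs hp]
    refine h.write hc' d _ _ ?_ _
    rw [h.regs, h.regs]; exact hmod ((Nat.div_le_self _ _).trans_lt (h.rlt a))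
  | rem d a b =>
    rw [istep_mkI hs hp]
    refine h.write hc' d _ _ ?_ _
    rw [h.regs, h.regs]; exact hmod ((Nat.mod_le _ _).trans_lt (h.rlt a))
  | and d a b =>
    rw [istep_mkI hs hp]
    refine h.write hc' d _ _ ?_ _
    rw [h.regs, h.regs]; exact hmod (Nat.and_lt_two_pow _ (h.rlt b))
  | or d a b =>
    rw [istep_mkI hs hp]
    refine h.write hc' d _ _ ?_ _
    rw [h.regs, h.regs]; exact hmod (Nat.or_lt_two_pow (h.rlt a) (h.rlt b))
  | xor d a b =>
    rw [istep_mkI hs hp]
    refine h.write hc' d _ _ ?_ _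
    rw [h.regs, h.regs]; exact hmod (Nat.xor_lt_two_pow (h.rlt a) (h.rlt b))
  | shl d a b =>
    rw [istep_mkI hs hp]
    refine h.write hc' d _ _ ?_ _
    rw [h.regs, h.regs]
    change (if c.regs b < W then c.regs a * 2 ^ (min (c.regs b) W) else 0) % 2 ^ W = _
    split_ifs with hb
    · rw [min_eq_left hb.le, Nat.shiftLeft_eq]
    · simp
  | shr d a b =>
    rw [istep_mkI hs hp]
    refine h.write hc' d _ _ ?_ _
    rw [h.regs, h.regs]
    change (if c.regs b < W then c.regs a / 2 ^ (min (c.regs b) W) else 0) % 2 ^ W = _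
    split_ifs with hb
    · rw [min_eq_left hb.le, Nat.shiftRight_eq_div_pow]
      exact hmod ((Nat.div_le_self _ _).trans_lt (h.rlt a))
    · simp
  | load d a =>
    rw [istep_mkI hs hp]
    refine h.write hc' d _ _ ?_ _
    rw [h.regs, h.mem]; exact hmod (h.mlt _)
  | store d a =>
    rw [istep_mkI hs hp]
    exact h.store hc' d a
  | jump l =>
    rw [istep_mkI hs hp]
    exact h.jump hc' l _ rfl
  | jumpIfZero a l =>
    rw [istep_mkI hs hp]
    refine h.jump hc' _ _ ?_
    rw [h.regs, h.pc]; simp [jmp]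
  | jumpIfEq a b l =>
    rw [istep_mkI hs hp]
    refine h.jump hc' _ _ ?_
    rw [h.regs, h.regs, h.pc]; simp [jmp]
  | jumpIfLt a b l =>
    rw [istep_mkI hs hp]
    refine h.jump hc' _ _ ?_
    rw [h.regs, h.regs, h.pc]; simp [jmp]
  | rand d =>
    rw [istep_mkI hs hp]
    exact h.write hc' d _ _ rfl _
  | halt =>
    rw [istep_mkI hs hp]
    exact h.halt

theorem rel_init (P : Program) (W : ℕ) (x : List ℕ) :
    Rel W x (init P W x) (iinit P.numRegs W x) where
  pc := rfl
  halted := rfl
  regs j := by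
    have : 0 < P.numRegs := j.pos
    simp only [iinit, if_pos this, rd_cons, init]
    rfl
  out k hk := by
    simp only [iinit]
    split_ifs
    · rw [rd_cons, if_neg (by omega)]; rfl
    · rfl
  mem _ := rfl
  rlt j := by
    simp only [init]
    split_ifs
    · exact Nat.mod_lt _ (by positivity)
    · positivity
  mlt _ := Nat.mod_lt _ (by positivity)

theorem rel_run (P : Program) (W : ℕ) (x : List ℕ) (F : ℕ) :
    Rel W x (run P W (fun _ => 0) x F)
      ((istep (P.code.map encI) W x)^[F] (iinit P.numRegs W x)) := by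
  unfold run
  induction F with
  | zero => exact rel_init P W x
  | succ F ih => rw [Function.iterate_succ_apply', Function.iterate_succ_apply']; exact ih.step

theorem Rel.reg {r W : ℕ} {x : List ℕ} {c : Cfg r} {s : St} (h : Rel W x c s) (k : ℕ) :
    rd s.2.2.1 k = c.reg k := by
  unfold Cfg.reg
  split_ifs with hk
  · exact h.regs ⟨k, hk⟩
  · exact h.out k (by omega)

theorem Rel.output {r W : ℕ} {x : List ℕ} {c : Cfg r} {s : St} (h : Rel W x c s) :
    iout W x s = true ↔ c.output = [1] := by
  unfold iout Cfg.output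
  rw [h.reg, h.reg, h.mem, Bool.and_eq_true, decide_eq_true_iff, decide_eq_true_iff]
  constructor
  · rintro ⟨h0, h1⟩
    rw [h0]; simpa using h1
  · intro e
    have h0 : c.reg 0 = 1 := by simpa using congrArg List.length e
    rw [h0] at e
    exact ⟨h0, by simpa using e⟩

/-- The word length. -/
def wlen (code : List ℕ) (x : List Bool) : ℕ :=
  min (code.getD 1 0) code.length * Nat.clog 2 ((pNat x).1 + 2)

/-- The interpreter. -/
def sim (p : List ℕ × List Bool × Un) : Bool :=
  iout (wlen p.1 p.2.1) (p.2.1.map fun b => if b then 1 else 0)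
    ((istep (p.1.drop (2 + p.1.getD 1 0)) (wlen p.1 p.2.1)
      (p.2.1.map fun b => if b then 1 else 0))^[p.2.2.n]
      (iinit (p.1.getD 0 0) (wlen p.1 p.2.1) (p.2.1.map fun b => if b then 1 else 0)))

theorem poly_sim : Poly sim := by
  have hW : Poly fun p : List ℕ × List Bool × Un => wlen p.1 p.2.1 := by unfold wlen; fun_prop
  have hW' : PB fun p : List ℕ × List Bool × Un => wlen p.1 p.2.1 := by
    unfold wlen
    exact (PB.min_right _ (by fun_prop)).mul (PB.clog _ (by fun_prop))
  have hx : Poly fun p : List ℕ × List Bool × Un =>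
      (p.2.1.map fun b => if b then 1 else 0 : List ℕ) := by fun_prop
  have hp : Poly fun p : List ℕ × List Bool × Un => p.1.drop (2 + p.1.getD 1 0) := by fun_prop
  unfold sim
  refine poly_iout hW hW' hx (Poly.iterate_add (by fun_prop) (by fun_prop)
    (poly_iinit (by fun_prop) hW hW' hx) ?_
    (fun p => 12 * sz (p.1.drop (2 + p.1.getD 1 0)) + 8 * wlen p.1 p.2.1 + 9)
    ((((PB.const 12).mul hp.pb_sz).add ((PB.const 8).mul hW')).add (PB.const 9))
    fun p s => sz_istep_le _ _ _ s)
  exact poly_istep (hp.comp (Poly.fst Poly.id')) (hW.comp (Poly.fst Poly.id'))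
    (hW'.comp (Poly.fst Poly.id')) (hx.comp (Poly.fst Poly.id')) (Poly.snd Poly.id')

end RamAux

theorem exists_ramSim : ∃ Sim : List ℕ × List Bool × Un → Bool, Poly Sim ∧
    ∀ (P : Crest.WordRAM.Program) (c₀ : ℕ), ∃ code : List ℕ, ∀ (n : ℕ) (r : List Bool) (F : ℕ),
      (Sim (code, natCode n ++ r, ⟨F⟩) = true ↔
        (Crest.WordRAM.run P (c₀ * Nat.clog 2 (n + 2)) (fun _ => 0)
          ((natCode n ++ r).map fun b => if b then 1 else 0) F).output = [1]) := by
  refine ⟨RamAux.sim, RamAux.poly_sim, fun P c₀ =>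
    ⟨P.numRegs :: c₀ :: (List.replicate c₀ 0 ++ P.code.map RamAux.encI), fun n r F => ?_⟩⟩
  have hW : RamAux.wlen (P.numRegs :: c₀ :: (List.replicate c₀ 0 ++ P.code.map RamAux.encI))
      (natCode n ++ r) = c₀ * Nat.clog 2 (n + 2) := by
    unfold RamAux.wlen
    rw [pNat_code, min_eq_left (by simp; omega)]; rfl
  have hd : (P.numRegs :: c₀ :: (List.replicate c₀ 0 ++ P.code.map RamAux.encI)).drop (2 + c₀)
      = P.code.map RamAux.encI := by
    rw [Nat.add_comm, List.drop_succ_cons, List.drop_succ_cons, List.drop_left' (by simp)]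
  rw [← (RamAux.rel_run P _ _ F).output]
  unfold RamAux.sim
  simp only [hW, List.getD_cons_succ, List.getD_cons_zero, hd]

end Crest.Agent.R290
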