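import Crest.Agent.R290.Diag
import Crest.Agent.R290.Ram

/-!
# Row 290: the statements S0435 and S0439
-/

set_option autoImplicit false

namespace Crest.Agent.R290

open Crest.WLRefine Crest.Agent.Lib.PolyTime

theorem final35 :
    ∃ c : ℝ, 0 < c ∧ ∃ k₀ : ℕ, ∀ k ≥ k₀,
      (∀ (g : Crest.WLRefine.diamTwoPairCodes → Bool),
        (∀ x, x.1 ∈ Crest.WLRefine.jointEquivLang k ↔ g x = true) →
        ∀ M : Turing.TM2ComputableInTime (fun x : Crest.WLRefine.diamTwoPairCodes => x.1)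
            Computability.encodeBool g,
          ∃ n₀ : ℕ, ∀ n ≥ n₀,
            (n : ℝ) ^ (c * k) ≤ M.time (2 * ((Crest.Enc.natCode n).length + n * n))) ∧
      (∀ (g : Crest.WLRefine.diamTwoPairCodes → Bool),
        (∀ x, x.1 ∈ Crest.WLRefine.sepEquivLang k ↔ g x = true) →
        ∀ M : Turing.TM2ComputableInTime (fun x : Crest.WLRefine.diamTwoPairCodes => x.1)
            Computability.encodeBool g,
          ∃ n₀ : ℕ, ∀ n ≥ n₀,
            (n : ℝ) ^ (c * k) ≤ M.time (2 * ((Crest.Enc.natCode n).length + n * n))) := by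
  obtain ⟨c, hc, k₀, hk₀, h⟩ := diag
    (fun a : List ℕ × List Bool × Un => decide ((Tbl.run a.1 a.2.1 a.2.2.n).1 = 1))
    (poly_run.decide_eq (Lib.PolyTime.Poly.const 1))
  refine ⟨c, hc, k₀, fun k hk => ?_⟩
  have key : ∀ (E : (n : ℕ) → (Fin n → Fin n → Bool) → (Fin n → Fin n → Bool) → Prop)
      (L : Set (List Bool)),
      (∀ n G H, PEquiv G H (k + 1) → E n G H) → (∀ n G H, E n G H → PEquiv G H k) →
      (∀ n G H, adjMatrixCode G ++ adjMatrixCode H ∈ L ↔ IsSimple G ∧ IsSimple H ∧ E n G H) →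
      ∀ (g : Crest.WLRefine.diamTwoPairCodes → Bool), (∀ x, x.1 ∈ L ↔ g x = true) →
        ∀ M : Turing.TM2ComputableInTime (fun x : Crest.WLRefine.diamTwoPairCodes => x.1)
            Computability.encodeBool g,
          ∃ n₀ : ℕ, ∀ n ≥ n₀,
            (n : ℝ) ^ (c * k) ≤ M.time (2 * ((Crest.Enc.natCode n).length + n * n)) := by
    intro E L h1 h2 hL g hg M
    obtain ⟨N, D, hWF, hN⟩ := exists_tbl M.toTM2ComputableAux
    refine h k hk E h1 h2 N D (fun n => M.time (2 * ((Crest.Enc.natCode n).length + n * n)))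
      fun n G H hG hH F hF => ?_
    have h3 := hN _ _ _ ⟨M.outputsFun ⟨_, n, G, H, hG, hH, rfl⟩⟩
    simp only [List.length_append, length_adjMatrixCode, ← two_mul] at h3
    have h4 : (Tbl.run N _ F).1 = _ := Tbl.Halts.mono hWF h3 hF
    have h5 := (hg ⟨_, n, G, H, hG, hH, rfl⟩).symm.trans (hL n G H)
    simp only [h4, decide_eq_true_eq]
    rw [← and_iff_right hH.1 (b := E n G H), ← and_iff_right hG.1 (b := _ ∧ E n G H), ← h5]
    simp
  exact ⟨key (fun _ G H => JEquiv k G H) _ (fun _ _ _ h => h.jequiv)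
      (fun _ _ _ => pequiv_of_jequiv (hk₀.trans hk)) fun _ => mem_jointEquivLang_iff,
    key (fun _ G H => SEquiv k G H) _ (fun _ _ _ h => (h.mono k.le_succ).sequiv)
      (fun _ _ _ => pequiv_of_sequiv (hk₀.trans hk)) fun _ => mem_sepEquivLang_iff⟩

theorem final39 :
    ∃ c : ℝ, 0 < c ∧ ∃ k₀ : ℕ, ∀ k ≥ k₀, ∀ c₀ : ℕ,
      (∀ (P : Crest.WordRAM.Program) (T : ℕ → ℕ),
        (∀ (n : ℕ) (G H : Fin n → Fin n → Bool), Crest.WLRefine.SimpleConnDiamTwo G →
          Crest.WLRefine.SimpleConnDiamTwo H → ∀ ρ : ℕ → ℕ,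
            (Crest.WordRAM.run P (c₀ * Nat.clog 2 (n + 2)) ρ (((Crest.WLRefine.adjMatrixCode G ++ Crest.WLRefine.adjMatrixCode H).map fun b => if b then 1 else 0)) (T n)).halted = true ∧
            ((Crest.WordRAM.run P (c₀ * Nat.clog 2 (n + 2)) ρ (((Crest.WLRefine.adjMatrixCode G ++ Crest.WLRefine.adjMatrixCode H).map fun b => if b then 1 else 0)) (T n)).output = [1] ↔ Crest.WLRefine.JEquiv k G H)) →
        ∃ n₀ : ℕ, ∀ n ≥ n₀, (n : ℝ) ^ (c * k) ≤ T n) ∧
      (∀ (P : Crest.WordRAM.Program) (T : ℕ → ℕ),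
        (∀ (n : ℕ) (G H : Fin n → Fin n → Bool), Crest.WLRefine.SimpleConnDiamTwo G →
          Crest.WLRefine.SimpleConnDiamTwo H → ∀ ρ : ℕ → ℕ,
            (Crest.WordRAM.run P (c₀ * Nat.clog 2 (n + 2)) ρ (((Crest.WLRefine.adjMatrixCode G ++ Crest.WLRefine.adjMatrixCode H).map fun b => if b then 1 else 0)) (T n)).halted = true ∧
            ((Crest.WordRAM.run P (c₀ * Nat.clog 2 (n + 2)) ρ (((Crest.WLRefine.adjMatrixCode G ++ Crest.WLRefine.adjMatrixCode H).map fun b => if b then 1 else 0)) (T n)).output = [1] ↔ Crest.WLRefine.SEquiv k G H)) →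
        ∃ n₀ : ℕ, ∀ n ≥ n₀, (n : ℝ) ^ (c * k) ≤ T n) := by
  obtain ⟨Sim, hS, hP⟩ := exists_ramSim
  obtain ⟨c, hc, k₀, hk₀, h⟩ := diag Sim hS
  refine ⟨c, hc, k₀, fun k hk c₀ => ?_⟩
  have key : ∀ (E : (n : ℕ) → (Fin n → Fin n → Bool) → (Fin n → Fin n → Bool) → Prop),
      (∀ n G H, PEquiv G H (k + 1) → E n G H) → (∀ n G H, E n G H → PEquiv G H k) →
      ∀ (P : Crest.WordRAM.Program) (T : ℕ → ℕ),
        (∀ (n : ℕ) (G H : Fin n → Fin n → Bool), SimpleConnDiamTwo G → SimpleConnDiamTwo H →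
          ∀ ρ : ℕ → ℕ, (Crest.WordRAM.run P (c₀ * Nat.clog 2 (n + 2)) ρ
            ((adjMatrixCode G ++ adjMatrixCode H).map fun b => if b then 1 else 0)
              (T n)).halted = true ∧
            ((Crest.WordRAM.run P (c₀ * Nat.clog 2 (n + 2)) ρ
              ((adjMatrixCode G ++ adjMatrixCode H).map fun b => if b then 1 else 0)
                (T n)).output = [1] ↔ E n G H)) →
        ∃ n₀ : ℕ, ∀ n ≥ n₀, (n : ℝ) ^ (c * k) ≤ T n := by
    intro E h1 h2 P T hT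
    obtain ⟨code, hcode⟩ := hP P c₀
    refine h k hk E h1 h2 code 1 T fun n G H hG hH F hF => ?_
    obtain ⟨h3, h4⟩ := hT n G H hG hH fun _ => 0
    have h5 := hcode n ((rows G).flatten ++ adjMatrixCode H) F
    rw [← List.append_assoc, ← adjMatrixCode_eq, ram_run_eq h3 (by omega)] at h5
    exact h5.trans h4
  exact ⟨key (fun _ G H => JEquiv k G H) (fun _ _ _ h => h.jequiv)
      fun _ _ _ => pequiv_of_jequiv (hk₀.trans hk),
    key (fun _ G H => SEquiv k G H) (fun _ _ _ h => (h.mono k.le_succ).sequiv)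
      fun _ _ _ => pequiv_of_sequiv (hk₀.trans hk)⟩

end Crest.Agent.R290
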