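import Crest.Agent.R290.Xor

/-!
# Row 290: without a successful choice Duplicator wins on the parity lifts with `t` pebbles
-/

set_option autoImplicit false

namespace Crest.Agent.R290

open Crest.WLRefine Crest.WLRefine.ParityLift

namespace Lift2

variable {t : ℕ} {C : ChoiceSystem t}

/-- The label of a domain element for its pair with `j`. -/
def ml (C : ChoiceSystem t) (p : Σ i : Fin t, Fin (C.dom i)) (j : Fin t) : ℕ :=
  if p.1 < j then C.lamL p.1 j p.2 else C.lamR j p.1 p.2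

/-- The label seen by a base vertex towards a template vertex. -/
def lbl (C : ChoiceSystem t) (u : BV C) (a : TV t) : ℕ :=
  Sum.elim (fun p => Sum.elim (fun j => ml C p j) (fun h =>
      if p.1 = h.1.1 then ml C p h.1.2.1 else if p.1 = h.1.2.1 then ml C p h.1.1 else 0) a)
    (fun hq => Sum.elim (fun x => if x = hq.1.1.2.2 then 0 else (hq.2 : ℕ)) (fun _ => 0) a) u

/-- The variable of a base vertex towards a template vertex. -/
def var (C : ChoiceSystem t) (u : BV C) (a : TV t) : Sym2 (TV t) × ℕ := (s(typeOf C u, a), lbl C u a)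

/-- The variables of a base vertex. -/
def sl (C : ChoiceSystem t) (u : BV C) : Multiset (Sym2 (TV t) × ℕ) :=
  (Finset.univ : Finset (Nbr (typeOf C u))).val.map fun a => var C u a.1

theorem tAdj_symm (a a' : TV t) : tAdj a a' = tAdj a' a := by
  cases a <;> cases a' <;> simp [tAdj, eq_comm]

theorem tAdj_ne {a a' : TV t} (h : tAdj a a' = true) : a ≠ a' := by
  rintro rfl
  cases a <;> simp [tAdj] at h

theorem lbl_symm {u v : BV C} (h : bAdj C u v = true) :
    lbl C u (typeOf C v) = lbl C v (typeOf C u) := by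
  have key : ∀ p hq, helperAgree C p hq = true →
      lbl C (.inl p) (.inr hq.1) = lbl C (.inr hq) (.inl p.1) := by
    rintro ⟨x, d⟩ ⟨⟨⟨i, j, l⟩, hij, hli, hlj⟩, q⟩ h
    simp only [helperAgree, decide_eq_true_eq] at h
    dsimp only at hij hli hlj q h
    rcases h with ⟨rfl, h⟩ | ⟨rfl, h⟩ | rfl
    · simp [lbl, ml, hij, h, hli.symm]
    · simp [lbl, ml, hij.ne', hij.not_gt, h, hlj.symm]
    · simp [lbl, hli, hlj]
  have key' : ∀ p q, mainAgree C p q = true →
      lbl C (.inl p) (.inl q.1) = lbl C (.inl q) (.inl p.1) := by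
    intro p q h
    simp only [mainAgree, decide_eq_true_eq] at h
    obtain ⟨h, e⟩ := h
    simp [lbl, ml, h, h.not_gt, e]
  rcases u with p | p <;> rcases v with q | q
  · rcases Bool.or_eq_true_iff.1 h with h | h
    exacts [key' p q h, (key' q p h).symm]
  · exact key p q h
  · exact (key q p h).symm
  · simp [bAdj] at h

theorem var_symm {u v : BV C} (h : bAdj C u v = true) :
    var C u (typeOf C v) = var C v (typeOf C u) := by
  rw [var, var, lbl_symm h, Sym2.eq_swap]

theorem mem_sl {u : BV C} {a a' : TV t} {n : ℕ} (h : (s(a, a'), n) ∈ sl C u) :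
    (typeOf C u = a ∧ lbl C u a' = n) ∨ (typeOf C u = a' ∧ lbl C u a = n) := by
  obtain ⟨c, -, hc⟩ := Multiset.mem_map.1 h
  obtain ⟨h1, h2⟩ := Prod.mk.inj hc
  rcases Sym2.eq_iff.1 h1 with ⟨e, e'⟩ | ⟨e, e'⟩
  exacts [.inl ⟨e, e' ▸ h2⟩, .inr ⟨e, e' ▸ h2⟩]

theorem count_sl (u : BV C) {a a' : TV t} (h : tAdj a a' = true) (n : ℕ) :
    ((sl C u).count (s(a, a'), n) : ZMod 2) =
      (if typeOf C u = a ∧ lbl C u a' = n then 1 else 0) +
        (if typeOf C u = a' ∧ lbl C u a = n then 1 else 0) := by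
  have one : ∀ {a a' : TV t}, tAdj a a' = true → typeOf C u = a → lbl C u a' = n →
      (sl C u).count (s(a, a'), n) = 1 := by
    rintro _ a' h rfl rfl
    refine Multiset.count_eq_one_of_mem (Finset.univ.nodup.map fun x y e => ?_)
      (Multiset.mem_map.2 ⟨⟨a', h⟩, Finset.mem_univ_val _, rfl⟩)
    exact Subtype.ext (Sym2.congr_right.1 (Prod.mk.inj e).1)
  have hne := tAdj_ne h
  by_cases h1 : typeOf C u = a ∧ lbl C u a' = n
  · rw [one h h1.1 h1.2, if_pos h1, if_neg fun h2 => hne (h1.1.symm.trans h2.1)]; simp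
  by_cases h2 : typeOf C u = a' ∧ lbl C u a = n
  · rw [Sym2.eq_swap, one (tAdj_symm a a' ▸ h) h2.1 h2.2, if_pos h2, if_neg h1]; simp
  · rw [Multiset.count_eq_zero_of_notMem fun hm => (mem_sl hm).elim h1 h2, if_neg h1, if_neg h2]
    simp

/-- The selected vertices of type `a` with label `n` towards `a'`. -/
def W (U : BV C → ZMod 2) (a a' : TV t) (n : ℕ) : ZMod 2 :=
  ∑ u, if typeOf C u = a ∧ lbl C u a' = n then U u else 0

/-- The selected vertices of type `a`. -/
def tot (U : BV C → ZMod 2) (a : TV t) : ZMod 2 := ∑ u, if typeOf C u = a then U u else 0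

theorem tot_eq {U : BV C → ZMod 2} {a a' b b' : TV t} (h : ∀ n, W U a a' n = W U b b' n) :
    tot U a = tot U b := by
  obtain ⟨N, hN⟩ : ∃ N, ∀ u c, lbl C u c < N := by
    obtain ⟨N, hN⟩ := (Set.finite_range fun p : BV C × TV t => lbl C p.1 p.2).bddAbove
    exact ⟨N + 1, fun u c => Nat.lt_succ_of_le (hN ⟨(u, c), rfl⟩)⟩
  have key : ∀ a a', tot U a = ∑ n ∈ Finset.range N, W U a a' n := fun a a' => by
    unfold tot W
    rw [Finset.sum_comm]
    refine Finset.sum_congr rfl fun u _ => ?_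
    by_cases e : typeOf C u = a <;> simp [e, hN]
  rw [key a a', key b b']
  exact Finset.sum_congr rfl fun n _ => h n

variable {S S' : Finset (BV C)} {U : BV C → ZMod 2}

theorem W_symm (hZ : Zs (sl C) S U) {a a' : TV t} (h : tAdj a a' = true) {n : ℕ}
    (h1 : ∀ c ∈ S, typeOf C c = a → lbl C c a' ≠ n)
    (h2 : ∀ c ∈ S, typeOf C c = a' → lbl C c a ≠ n) : W U a a' n = W U a' a n := by
  have h3 := hZ (s(a, a'), n) fun c hc hm =>
    (mem_sl hm).elim (fun e => h1 c hc e.1 e.2) fun e => h2 c hc e.1 e.2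
  simp only [bd, count_sl _ h, mul_add, mul_ite, mul_one, mul_zero, Finset.sum_add_distrib] at h3
  exact (CharTwo.add_eq_zero.1 h3 :)

theorem tot_adj (hZ : Zs (sl C) S U) {a a' : TV t} (h : tAdj a a' = true)
    (h1 : ∀ c ∈ S, typeOf C c ≠ a) (h2 : ∀ c ∈ S, typeOf C c ≠ a') : tot U a = tot U a' :=
  tot_eq fun _ => W_symm hZ h (fun c hc e => (h1 c hc e).elim) fun c hc e => (h2 c hc e).elim

/-- No pebble of main type `x`. -/
def Free (S : Finset (BV C)) (x : Fin t) : Prop := ∀ c ∈ S, typeOf C c ≠ .inl x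

/-- The pebbles on the pair of `h` are incompatible. -/
def Bad (S : Finset (BV C)) (h : Helper t) : Prop :=
  ∃ p q, .inl p ∈ S ∧ .inl q ∈ S ∧ p.1 = h.1.1 ∧ q.1 = h.1.2.1 ∧ ml C p q.1 ≠ ml C q p.1

theorem full_sub (hF : ∀ x, ¬ Free S x) :
    (Finset.univ.image Sum.inl : Finset (TV t)) ⊆ S.image (typeOf C) := by
  intro a ha
  obtain ⟨x, -, rfl⟩ := Finset.mem_image.1 ha
  have := hF x
  simp only [Free, not_forall, not_not] at this
  obtain ⟨c, hc, e⟩ := this
  exact Finset.mem_image.2 ⟨c, hc, e⟩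

theorem card_mains : (Finset.univ.image Sum.inl : Finset (TV t)).card = t := by
  rw [Finset.card_image_of_injective _ Sum.inl_injective]; simp

theorem full_card (hF : ∀ x, ¬ Free S x) : t ≤ S.card :=
  card_mains.ge.trans ((Finset.card_le_card (full_sub hF)).trans Finset.card_image_le)

theorem full_main (hF : ∀ x, ¬ Free S x) (hc : S.card ≤ t) {c : BV C} (h : c ∈ S) (g : Helper t) :
    typeOf C c ≠ .inr g := fun e => by
  have h1 := Finset.eq_of_subset_of_card_le (full_sub hF)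
    (Finset.card_image_le.trans (hc.trans card_mains.ge))
  have h2 := Finset.mem_image_of_mem (typeOf C) h
  rw [← h1, e] at h2
  simp at h2

theorem full_inj (hF : ∀ x, ¬ Free S x) (hc : S.card ≤ t) : Set.InjOn (typeOf C) S :=
  Finset.card_image_iff.1 (le_antisymm Finset.card_image_le
    (hc.trans (card_mains.ge.trans (Finset.card_le_card (full_sub hF)))))

theorem W_main (U : BV C → ZMod 2) {x : Fin t} {g g' : Helper t} (e : g.1.1 = g'.1.1)
    (e' : g.1.2.1 = g'.1.2.1) (n : ℕ) : W U (.inl x) (.inr g) n = W U (.inl x) (.inr g') n := by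
  refine Finset.sum_congr rfl fun u _ => if_congr (and_congr_right fun hu => ?_) rfl rfl
  rcases u with p | p
  · simp only [lbl, Sum.elim_inl, Sum.elim_inr, e, e']
  · cases hu

theorem W_helper (U : BV C → ZMod 2) (g : Helper t) (n : ℕ) :
    W U (.inr g) (.inl g.1.1) n = W U (.inr g) (.inl g.1.2.1) n := by
  refine Finset.sum_congr rfl fun u _ => if_congr (and_congr_right fun hu => ?_) rfl rfl
  rcases u with p | p
  · cases hu
  · obtain rfl : p.1 = g := Sum.inr.inj hu
    simp only [lbl, Sum.elim_inl, Sum.elim_inr, if_neg p.1.2.2.1.symm, if_neg p.1.2.2.2.symm]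

theorem tot_bad (hZ : Zs (sl C) S U) (hS : S ⊆ S') (hF : ∀ x, ¬ Free S' x) (hc : S'.card ≤ t)
    {x : Fin t} (hx : Free S x) {g : Helper t} (hg : Bad S' g) :
    tot U (.inr g) = tot U (.inl x) := by
  have hA : ∀ g' : Helper t, tAdj (.inr g') (.inl x) = true → tot U (.inr g') = tot U (.inl x) :=
    fun g' h => tot_adj hZ h (fun c h' => full_main hF hc (hS h') g') hx
  by_cases h : tAdj (.inr g) (.inl x) = true
  · exact hA g h
  simp only [tAdj, decide_eq_true_eq, not_or] at h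
  let g' : Helper t := ⟨(g.1.1, g.1.2.1, x), g.2.1, h.1, h.2.1⟩
  refine Eq.trans ?_ (hA g' (by simp [tAdj, g']))
  obtain ⟨p, q, hp, hq, ep, eq, hne⟩ := hg
  have hij := g.2.1
  have step : ∀ (r : Σ i : Fin t, Fin (C.dom i)) (n : ℕ), .inl r ∈ S' →
      (r.1 = g.1.1 ∨ r.1 = g.1.2.1) → lbl C (.inl r) (.inr g) ≠ n →
      W U (.inr g) (.inl r.1) n = W U (.inr g') (.inl r.1) n := by
    intro r n hr er hn
    have key : ∀ f : Helper t, f.1.1 = g.1.1 → f.1.2.1 = g.1.2.1 →
        W U (.inr f) (.inl r.1) n = W U (.inl r.1) (.inr f) n := fun f e e' => by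
      refine W_symm hZ (by rcases er with er | er <;> simp [tAdj, er, e, e'])
        (fun c h' e'' => (full_main hF hc (hS h') f e'').elim) fun c h' e'' => ?_
      obtain rfl : c = .inl r := full_inj hF hc (hS h') hr e''
      simpa only [lbl, Sum.elim_inl, Sum.elim_inr, e, e'] using hn
    rw [key g rfl rfl, key g' rfl rfl]
    exact W_main U rfl rfl n
  refine tot_eq (a' := .inl g.1.1) (b' := .inl g.1.1) fun n => ?_
  by_cases hn : ml C p q.1 = n
  · rw [W_helper U g, W_helper U g', ← eq]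
    refine step q n hq (.inr eq) ?_
    simp only [lbl, Sum.elim_inl, Sum.elim_inr, if_neg (eq ▸ hij.ne' : q.1 ≠ g.1.1), if_pos eq]
    rw [← ep, ← hn]
    exact hne.symm
  · rw [← ep]
    refine step p n hp (.inl ep) ?_
    simp only [lbl, Sum.elim_inl, Sum.elim_inr, if_pos ep]
    rwa [← eq]

theorem exists_bad (ht : 4 ≤ t) (h : ¬ C.Successful) (hF : ∀ x, ¬ Free S x) : ∃ g, Bad S g := by
  have h1 : ∀ x, ∃ d, Sum.inl ⟨x, d⟩ ∈ S := fun x => by
    have := hF x
    simp only [Free, not_forall, not_not] at this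
    obtain ⟨c, hc, e⟩ := this
    rcases c with ⟨y, d⟩ | c
    · obtain rfl : y = x := Sum.inl.inj e
      exact ⟨d, hc⟩
    · cases e
  choose d hd using h1
  simp only [ChoiceSystem.Successful, not_exists, not_forall] at h
  obtain ⟨i, j, hij, hne⟩ := h d
  obtain ⟨l, hl⟩ : ∃ l, l ∉ ({i, j} : Finset (Fin t)) := by
    refine Finset.exists_mem_notMem_of_card_lt_card (t := Finset.univ) ?_ |>.imp fun _ h => h.2
    have := Finset.card_le_two (a := i) (b := j)
    simp only [Finset.card_univ, Fintype.card_fin]; omega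
  simp only [Finset.mem_insert, Finset.mem_singleton, not_or] at hl
  refine ⟨⟨(i, j, l), hij, hl⟩, ⟨i, d i⟩, ⟨j, d j⟩, hd i, hd j, rfl, rfl, ?_⟩
  simp only [ml, if_pos hij, if_neg hij.not_gt]
  exact fun e => hne (Fin.ext e)

/-- The right-hand side. -/
def rhs (C : ChoiceSystem t) (u : BV C) : ZMod 2 := (liftStarParity t (typeOf C u)).toNat

theorem consistent (ht : 4 ≤ t) (h : ¬ C.Successful) : Consistent (sl C) (rhs C) t := by
  have hadd : ∀ (U U' : BV C → ZMod 2) a, tot (U + U') a = tot U a + tot U' a := fun U U' a => by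
    unfold tot
    rw [← Finset.sum_add_distrib]
    exact Finset.sum_congr rfl fun u _ => by split_ifs <;> simp
  have hsingle : ∀ (c : BV C) a, typeOf C c ≠ a → tot (Pi.single c 1 : BV C → ZMod 2) a = 0 :=
    fun c a hc => Finset.sum_eq_zero fun u _ => by
      split_ifs with e
      · exact Pi.single_eq_of_ne (by rintro rfl; exact hc e) _
      · rfl
  refine consistent_of_dual (fun S U => (∀ x, Free S x → tot U (.inl x) = 0) ∧
    ((∀ x, ¬ Free S x) → ∀ g, Bad S g → tot U (.inr g) = 0)) (by simp [tot]) ?_ ?_ ?_ ?_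
  · rintro S U U' - - - ⟨h1, h2⟩ ⟨h3, h4⟩
    exact ⟨fun x hx => by rw [hadd, h1 x hx, h3 x hx, add_zero],
      fun hF g hg => by rw [hadd, h2 hF g hg, h4 hF g hg, add_zero]⟩
  · exact fun S c hc hS => ⟨fun x hx => hsingle c _ (hx c hc),
      fun hF g _ => hsingle c _ (full_main hF hS hc g)⟩
  · intro S S' U hS hc hZ
    by_cases hF : ∀ x, ¬ Free S x
    · rw [Finset.eq_of_subset_of_card_le hS (hc.trans (full_card hF))]
    obtain ⟨x, hx⟩ := not_forall.1 hF
    rw [not_not] at hx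
    have hxy : ∀ y, Free S y → tot U (.inl y) = tot U (.inl x) := fun y hy => by
      by_cases e : y = x
      · rw [e]
      · exact tot_adj hZ (by simpa [tAdj] using e) hy hx
    have hsub : ∀ y, Free S' y → Free S y := fun y hy c hc => hy c (hS hc)
    constructor
    · exact fun h1 => ⟨fun y hy => h1.1 y (hsub y hy),
        fun hF' g hg => (tot_bad hZ hS hF' hc hx hg).trans (h1.1 x hx)⟩
    · refine fun h1 => ⟨fun y hy => (hxy y hy).trans ?_, fun h' => (hF h').elim⟩
      by_cases hF' : ∀ x, ¬ Free S' x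
      · obtain ⟨g, hg⟩ := exists_bad ht h hF'
        exact (tot_bad hZ hS hF' hc hx hg).symm.trans (h1.2 hF' g hg)
      · obtain ⟨z, hz⟩ := not_forall.1 hF'
        rw [not_not] at hz
        exact (hxy z (hsub z hz)).symm.trans (h1.1 z hz)
  · rintro U - ⟨h1, -⟩
    have h0 : 0 < t := by omega
    rw [← h1 ⟨0, h0⟩ fun c hc => absurd hc (Finset.notMem_empty c)]
    refine Finset.sum_congr rfl fun u _ => ?_
    by_cases e : typeOf C u = .inl ⟨0, h0⟩ <;> simp [rhs, liftStarParity, e, h0]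

theorem parity_iff {ι : Type} [Fintype ι] (z : ι → Bool) (b : Bool) :
    (Finset.univ.filter fun a => z a = true).card % 2 = b.toNat ↔
      ∑ a, ((z a).toNat : ZMod 2) = b.toNat := by
  have h : ∑ a, ((z a).toNat : ZMod 2) = (Finset.univ.filter fun a => z a = true).card := by
    rw [Finset.card_filter]
    push_cast
    exact Finset.sum_congr rfl fun a _ => by cases z a <;> simp
  rw [h, ZMod.natCast_eq_natCast_iff']
  cases b <;> rfl

/-- Shifting the tag of a lift vertex. -/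
def shift {b b' : TV t → Bool} (α : Sym2 (TV t) × ℕ → ZMod 2) (v : LiftV C b)
    (h : ev (sl C) α v.1.1 = (b (typeOf C v.1.1)).toNat + (b' (typeOf C v.1.1)).toNat) :
    LiftV C b' :=
  ⟨⟨v.1.1, fun a => xor (v.1.2 a) (decide (α (var C v.1.1 a.1) = 1))⟩, (parity_iff _ _).2 (by
    have h1 := (parity_iff _ _).1 v.2
    have h2 : ∀ (x : Bool) (y : ZMod 2), ((xor x (decide (y = 1))).toNat : ZMod 2) = x.toNat + y := by
      decide
    have h3 : ev (sl C) α v.1.1 = ∑ a : Nbr (typeOf C v.1.1), α (var C v.1.1 a.1) := by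
      rw [ev, sl, Multiset.map_map]; rfl
    simp only [h2]
    rw [Finset.sum_add_distrib, h1, ← h3, h, ← add_assoc, CharTwo.add_self_eq_zero, zero_add])⟩

end Lift2

open Lift2 in
theorem lift_pequiv {t : ℕ} (ht : 4 ≤ t) (C : ChoiceSystem t) (h : ¬ C.Successful) :
    PEquiv (liftAdj C (lift0Parity t)) (liftAdj C (liftStarParity t)) t := by
  refine pequiv_of_consistent (consistent ht h) (fun v => v.1.1) (fun w => w.1.1)
    (fun α v w => v.1.1 = w.1.1 ∧ ∀ a h h', w.1.2 ⟨a, h'⟩ =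
      xor (v.1.2 ⟨a, h⟩) (decide (α (var C v.1.1 a) = 1))) (fun c α hc => ?_) ?_ ?_
  · refine ⟨⟨fun v => ⟨shift α v.1 (by rw [v.2, hc]; simp [rhs, lift0Parity]), v.2⟩,
      fun w => ⟨shift α w.1 (by rw [w.2, hc]; simp [rhs, lift0Parity]), w.2⟩, fun v => ?_,
      fun w => ?_⟩, fun v => ⟨rfl, fun _ _ _ => rfl⟩⟩
    · exact Subtype.ext (Subtype.ext (Sigma.ext rfl (heq_of_eq (funext fun a => by simp [shift]))))
    · exact Subtype.ext (Subtype.ext (Sigma.ext rfl (heq_of_eq (funext fun a => by simp [shift]))))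
  · rintro α α' v w ⟨e, h1⟩ h2
    refine ⟨e, fun a ha ha' => ?_⟩
    rw [h1 a ha ha', h2 _ (Multiset.mem_map.2 ⟨⟨a, ha⟩, Finset.mem_univ_val _, rfl⟩)]
  · rintro α ⟨⟨u, z⟩, hz⟩ ⟨⟨_, y⟩, hy⟩ ⟨⟨u', z'⟩, hz'⟩ ⟨⟨_, y'⟩, hy'⟩ - - ⟨rfl, h1⟩ ⟨rfl, h2⟩
    dsimp only at h1 h2
    constructor
    · refine Subtype.ext_iff.trans (Iff.trans ?_ Subtype.ext_iff.symm)
      change (⟨u, z⟩ : Σ u : BV C, (Nbr (typeOf C u) → Bool)) = ⟨u', z'⟩ ↔
        (⟨u, y⟩ : Σ u : BV C, (Nbr (typeOf C u) → Bool)) = ⟨u', y'⟩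
      by_cases e : u = u'
      · subst e
        simp only [Sigma.mk.injEq, heq_eq_eq, true_and, funext_iff, Subtype.forall]
        refine forall₂_congr fun a ha => ?_
        rw [h1 a ha ha, h2 a ha ha, Bool.xor_left_inj]
      · simp [e]
    · unfold liftAdj
      refine decide_eq_decide.2 (exists₂_congr fun ha ha' => and_congr_right fun hb => ?_)
      dsimp only at hb ⊢
      rw [h1 _ ha ha, h2 _ ha' ha', var_symm hb, Bool.xor_left_inj]

end Crest.Agent.R290
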