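import Crest.Agent.R290.LiftAux

/-!
# Row 290: good cliques in the parity lifts
-/

set_option autoImplicit false

namespace Crest.Agent.R290

open Crest.WLRefine Crest.WLRefine.ParityLift Finset LiftAux

variable {t : ℕ}

namespace LiftAux

variable {C : ChoiceSystem t} {b : TV t → Bool}

/-- The common neighbours of main type of at most three vertices come in multiples of four. -/
theorem four_dvd_main (ht : 4 ≤ t) (x : Fin t → LiftV C b) {T : Finset (Fin t)} (hT : T.card ≤ 3) :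
    4 ∣ ((univ.filter fun z => ∀ k ∈ T, liftAdj C b (x k) z = true).filter
      fun z => (ty z).isLeft = true).card := by
  rw [card_eq_sum_card_fiberwise (f := fun z : LiftV C b => z.1.1) (t := univ)
    fun _ _ => mem_coe.2 (mem_univ _)]
  refine dvd_sum fun u _ => ?_
  rcases (((univ.filter fun z => ∀ k ∈ T, liftAdj C b (x k) z = true).filter
    fun z => (ty z).isLeft = true).filter fun z => z.1.1 = u).eq_empty_or_nonempty with h | ⟨z₀, h₀⟩
  · rw [h]
    simp
  simp only [mem_filter, mem_univ, true_and] at h₀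
  obtain ⟨⟨h1, h2⟩, rfl⟩ := h₀
  obtain ⟨i, hi⟩ := Sum.isLeft_iff.1 h2
  have h3 : 3 ≤ (nb (typeOf C z₀.1.1) \ T.image fun k => ty (x k)).card := by
    have h4 := six_le_card_nb_inl ht i
    have h5 := le_card_sdiff (T.image fun k => ty (x k)) (nb (ty z₀))
    have h6 := card_image_le (s := T) (f := fun k => ty (x k))
    rw [← hi] at h4
    change 3 ≤ (nb (ty z₀) \ _).card
    omega
  have h4 := card_fiber (b := b) z₀.1.1 (T.image fun k => ty (x k)) (bit z₀)
    (fun a ha => tAdj_of_bit ha) (card_pos.1 (by omega))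
  have h5 : (((univ.filter fun z => ∀ k ∈ T, liftAdj C b (x k) z = true).filter
      fun z => (ty z).isLeft = true).filter fun z => z.1.1 = z₀.1.1) =
      univ.filter fun z : LiftV C b => z.1.1 = z₀.1.1 ∧
        ∀ a ∈ T.image fun k => ty (x k), bit z a = bit z₀ a := by
    ext z
    simp only [mem_filter, mem_univ, true_and, forall_mem_image]
    constructor
    · rintro ⟨⟨k1, -⟩, k3⟩
      refine ⟨k3, fun k hk => ?_⟩
      rw [← ((adj_iff _ _).1 (k1 k hk)).2, ← ((adj_iff _ _).1 (h1 k hk)).2, ty, ty, k3]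
    · rintro ⟨k1, k2⟩
      have k3 : ty z = ty z₀ := by rw [ty, ty, k1]
      refine ⟨⟨fun k hk => (adj_iff _ _).2 ⟨?_, ?_⟩, k3 ▸ h2⟩, k1⟩
      · rw [k1]
        exact ((adj_iff _ _).1 (h1 k hk)).1
      · rw [k2 hk, k3]
        exact ((adj_iff _ _).1 (h1 k hk)).2
  rw [h5, h4]
  exact pow_dvd_pow 2 (show 2 ≤ _ by omega)

/-- The common neighbours of helper type. -/
def hcn (x : Fin t → LiftV C b) (T : Finset (Fin t)) : Finset (LiftV C b) :=
  (univ.filter fun z => ∀ k ∈ T, liftAdj C b (x k) z = true).filter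
    fun z => ¬ (ty z).isLeft = true

theorem card_cn_mod (ht : 4 ≤ t) (x : Fin t → LiftV C b) {T : Finset (Fin t)} (hT : T.card ≤ 3) :
    (univ.filter fun z => ∀ k ∈ T, liftAdj C b (x k) z = true).card % 4 = (hcn x T).card % 4 := by
  have h1 := four_dvd_main ht x hT
  rw [← card_filter_add_card_filter_not (fun z => (ty z).isLeft = true), hcn]
  omega

theorem good_iff {V : Type} [Fintype V] (G : V → V → Bool) (v : Fin t → V) :
    Good G v ↔ (∀ i j, i ≠ j → G (v i) (v j) = true) ∧ ∀ T : Finset (Fin t), T.card = 3 →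
      (univ.filter fun z => ∀ k ∈ T, G (v k) z = true).card % 4 = 3 := by
  refine and_congr_right fun _ => ⟨fun h T hT => ?_, fun h i j l h1 h2 h3 => ?_⟩
  · obtain ⟨i, j, l, h1, h2, h3, rfl⟩ := card_eq_three.1 hT
    simpa using h i j l h1 h2 h3
  · simpa using h {i, j, l} (card_eq_three.2 ⟨i, j, l, h1, h2, h3, rfl⟩)

theorem mem_hcn {x : Fin t → LiftV C b} {T : Finset (Fin t)} {z : LiftV C b} :
    z ∈ hcn x T ↔ (∀ k ∈ T, liftAdj C b (x k) z = true) ∧ ∃ h, ty z = Sum.inr h := by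
  simp [hcn, Sum.isRight_iff]

theorem tAdj_of_adj {x y : LiftV C b} (h : liftAdj C b x y = true) : tAdj (ty x) (ty y) = true :=
  tAdj_of_bAdj ((adj_iff _ _).1 h).1

theorem hset_eq {w : Fin t → LiftV C b} (hw : ∀ a, ty (w a) = Sum.inl a) {T : Finset (Fin t)}
    (hT : T.card = 3) {z : LiftV C b} (hz : z ∈ hcn w T) {h : Helper t} (hh : ty z = Sum.inr h) :
    hset h = T := by
  refine (eq_of_subset_of_card_le (fun k hk => mem_hset.2 ?_) (by rw [hT, card_hset])).symm
  rw [← hw, ← hh]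
  exact tAdj_of_adj ((mem_hcn.1 hz).1 k hk)

theorem bit_hcn {w : Fin t → LiftV C b} (hw : ∀ a, ty (w a) = Sum.inl a) {T : Finset (Fin t)}
    (hT : T.card = 3) {z : LiftV C b} (hz : z ∈ hcn w T) {h : Helper t} (hh : ty z = Sum.inr h)
    (a : Fin t) : bit z (Sum.inl a) = bit (w a) (Sum.inr h) := by
  by_cases ha : a ∈ T
  · rw [← hh, ← hw]
    exact ((adj_iff _ _).1 ((mem_hcn.1 hz).1 a ha)).2.symm
  · rw [← hset_eq hw hT hz hh, mem_hset] at ha
    rw [bit_eq_false (by rwa [hh, tAdj_symm]), bit_eq_false (by rwa [hw])]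

theorem base_unique {u u₁ u₂ : BV C} {h : Helper t} (hu : typeOf C u = Sum.inl h.1.1)
    (h₁ : typeOf C u₁ = Sum.inr h) (h₂ : typeOf C u₂ = Sum.inr h) (k₁ : bAdj C u u₁ = true)
    (k₂ : bAdj C u u₂ = true) : u₁ = u₂ := by
  rcases u with p | p
  swap
  · simp [typeOf] at hu
  rcases u₁ with q₁ | ⟨g₁, q₁⟩
  · simp [typeOf] at h₁
  rcases u₂ with q₂ | ⟨g₂, q₂⟩
  · simp [typeOf] at h₂
  simp only [typeOf, Sum.inl.injEq, Sum.inr.injEq] at hu h₁ h₂
  subst h₁
  subst h₂
  simp only [bAdj, helperAgree, decide_eq_true_eq] at k₁ k₂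
  have e1 := g₂.2.1.ne
  have e2 := g₂.2.2.1
  rcases k₁ with ⟨_, k₁⟩ | ⟨e, -⟩ | e
  · rcases k₂ with ⟨_, k₂⟩ | ⟨e, -⟩ | e
    · rw [k₁, k₂]
    · exact absurd (hu.symm.trans e) e1
    · exact absurd (hu.symm.trans e).symm e2
  · exact absurd (hu.symm.trans e) e1
  · exact absurd (hu.symm.trans e).symm e2

theorem injOn_ty {w : Fin t → LiftV C b} (hw : ∀ a, ty (w a) = Sum.inl a) {T : Finset (Fin t)}
    (hT : T.card = 3) : Set.InjOn ty (hcn w T : Set (LiftV C b)) := by
  intro z hz z' hz' e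
  obtain ⟨h1, h, hh⟩ := mem_hcn.1 hz
  have hh' : ty z' = Sum.inr h := e ▸ hh
  have h2 : h.1.1 ∈ T := by
    rw [← hset_eq hw hT hz hh]
    simp [hset]
  refine ext_bit (base_unique (hw _) hh hh' ((adj_iff _ _).1 (h1 _ h2)).1
    ((adj_iff _ _).1 ((mem_hcn.1 hz').1 _ h2)).1) (funext fun a => ?_)
  rcases a with a | a
  · rw [bit_hcn hw hT hz hh, bit_hcn hw hT hz' hh']
  · rw [bit_eq_false (by simp [hh, tAdj]), bit_eq_false (by simp [hh', tAdj])]

/-- The helper types adjacent to all mains in `T`. -/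
def hty (T : Finset (Fin t)) : Finset (TV t) :=
  (univ.filter fun h : Helper t => hset h = T).map ⟨Sum.inr, Sum.inr_injective⟩

theorem card_hty {T : Finset (Fin t)} (hT : T.card = 3) : (hty T).card = 3 := by
  rw [hty, card_map, card_hset_fiber hT]

theorem ty_mem_hty {w : Fin t → LiftV C b} (hw : ∀ a, ty (w a) = Sum.inl a) {T : Finset (Fin t)}
    (hT : T.card = 3) {z : LiftV C b} (hz : z ∈ hcn w T) : ty z ∈ hty T := by
  obtain ⟨-, h, hh⟩ := mem_hcn.1 hz
  exact mem_map.2 ⟨h, mem_filter.2 ⟨mem_univ _, hset_eq hw hT hz hh⟩, hh.symm⟩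

/-- A good tuple can be reordered so that its `a`-th entry has main type `a`. -/
theorem exists_sorted (ht : 4 ≤ t) {v : Fin t → LiftV C b} (hv : Good (liftAdj C b) v) :
    ∃ w : Fin t → LiftV C b, Good (liftAdj C b) w ∧ ∀ a, ty (w a) = Sum.inl a := by
  have h1 : ∀ i, ∃ a, ty (v i) = Sum.inl a := by
    intro i
    rcases hi : ty (v i) with a | h
    · exact ⟨a, rfl⟩
    exfalso
    obtain ⟨T, h1, -, hT⟩ := exists_subsuperset_card_eq (subset_univ {i}) (n := 3) (by simp)
      (by rw [card_univ, Fintype.card_fin]; omega)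
    have h2 := ((good_iff _ _).1 hv).2 T hT
    have h3 : hcn v T = ∅ := by
      refine eq_empty_of_forall_notMem fun z hz => ?_
      obtain ⟨k1, h', k2⟩ := mem_hcn.1 hz
      have k3 := tAdj_of_adj (k1 i (h1 (mem_singleton_self i)))
      simp [hi, k2, tAdj] at k3
    rw [card_cn_mod ht v hT.le, h3] at h2
    simp at h2
  choose π hπ using h1
  have h2 : Function.Injective π := by
    intro i j hij
    by_contra hc
    have := tAdj_of_adj (hv.1 i j hc)
    rw [hπ, hπ, hij, tAdj_self] at this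
    exact Bool.false_ne_true this
  let e := Equiv.ofBijective π (Finite.injective_iff_bijective.1 h2)
  refine ⟨fun a => v (e.symm a), ⟨fun i j h => hv.1 _ _ (e.symm.injective.ne h),
    fun i j l k1 k2 k3 => hv.2 _ _ _ (e.symm.injective.ne k1) (e.symm.injective.ne k2)
      (e.symm.injective.ne k3)⟩, fun a => ?_⟩
  rw [hπ]
  exact congrArg _ (e.apply_symm_apply a)

theorem sum_bit (x : LiftV C b) :
    ∑ a, (if bit x a = true then 1 else 0 : ZMod 2) = ((b (ty x)).toNat : ZMod 2) := by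
  rw [sum_boole, ← par_bit, ZMod.natCast_mod]

end LiftAux

theorem lift0_good (ht : 4 ≤ t) (C : ChoiceSystem t) (h : C.Successful) :
    ∃ v : Fin t → LiftV C (lift0Parity t), Good (liftAdj C (lift0Parity t)) v := by
  obtain ⟨d, hd⟩ := h
  have hex : ∀ u : BV C, ∃ x : LiftV C (lift0Parity t), x.1.1 = u ∧ bit x = fun _ => false :=
    fun u => exists_bit u _ (by simp) (by simp [lift0Parity])
  choose w hw1 hw2 using fun i : Fin t => hex (Sum.inl ⟨i, d i⟩)
  have hw : ∀ a, ty (w a) = Sum.inl a := fun a => by rw [ty, hw1, typeOf]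
  refine ⟨w, (good_iff _ _).2 ⟨fun i j hij => (adj_iff _ _).2 ⟨?_, by rw [hw2, hw2]⟩,
    fun T hT => ?_⟩⟩
  · rw [hw1, hw1]
    simp only [bAdj, mainAgree, Bool.or_eq_true, decide_eq_true_eq]
    rcases lt_or_gt_of_ne hij with h | h
    exacts [Or.inl ⟨h, hd _ _ h⟩, Or.inr ⟨h, hd _ _ h⟩]
  · rw [card_cn_mod ht w hT.le, card_nbij ty (fun z hz => ty_mem_hty hw hT hz) (injOn_ty hw hT),
      card_hty hT]
    intro a ha
    obtain ⟨h, hh, rfl⟩ := mem_map.1 ha
    obtain ⟨z, hz1, hz2⟩ := hex (Sum.inr ⟨h, C.lamL _ _ (d h.1.1)⟩)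
    have hz : ty z = Sum.inr h := by rw [ty, hz1, typeOf]
    refine ⟨z, mem_hcn.2 ⟨fun k hk => (adj_iff _ _).2 ⟨?_, by rw [hw2, hz2]⟩, h, hz⟩, hz⟩
    rw [← (mem_filter.1 hh).2] at hk
    rw [hw1, hz1]
    simp only [bAdj, helperAgree, decide_eq_true_eq]
    simp only [hset, mem_insert, mem_singleton] at hk
    rcases hk with rfl | rfl | rfl
    exacts [Or.inl ⟨rfl, rfl⟩, Or.inr (Or.inl ⟨rfl, hd _ _ h.2.1⟩), Or.inr (Or.inr rfl)]

theorem liftStar_not_good (ht : 4 ≤ t) (C : ChoiceSystem t)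
    (v : Fin t → LiftV C (liftStarParity t)) : ¬ Good (liftAdj C (liftStarParity t)) v := by
  intro hv
  obtain ⟨w, hg, hw⟩ := exists_sorted ht hv
  have h1 : ∀ h : Helper t,
      ∑ a, (if bit (w a) (Sum.inr h) = true then 1 else 0 : ZMod 2) = 0 := by
    intro h
    have hT := card_hset h
    have k1 := ((good_iff _ _).1 hg).2 _ hT
    rw [card_cn_mod ht w hT.le] at k1
    obtain ⟨z, hz, hh⟩ := surj_on_of_inj_on_of_card_le (s := hcn w (hset h)) (t := hty (hset h))
      (fun z _ => ty z) (fun z hz => ty_mem_hty hw hT hz)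
      (fun z z' hz hz' e => injOn_ty hw hT hz hz' e) (by rw [card_hty hT]; omega) (Sum.inr h)
      (mem_map.2 ⟨h, mem_filter.2 ⟨mem_univ _, rfl⟩, rfl⟩)
    have k2 := sum_bit z
    rw [Fintype.sum_sum_type, ← hh] at k2
    have k3 : ∀ a : Helper t, bit z (Sum.inr a) = false := fun a =>
      bit_eq_false (by simp [← hh, tAdj])
    simpa [k3, bit_hcn hw hT hz hh.symm, liftStarParity] using k2
  have h2 : ∑ p : Fin t × Fin t,
      (if bit (w p.1) (Sum.inl p.2) = true then 1 else 0 : ZMod 2) = 0 := by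
    refine sum_involution (fun p _ => p.swap) (fun p _ => ?_) (fun p _ hp hc => hp ?_)
      (fun _ _ => mem_univ _) (fun p _ => p.swap_swap)
    · by_cases hp : p.1 = p.2
      · rw [Prod.fst_swap, Prod.snd_swap, hp]
        exact CharTwo.add_self_eq_zero _
      · have := ((adj_iff _ _).1 (hg.1 _ _ hp)).2
        rw [hw, hw] at this
        rw [Prod.fst_swap, Prod.snd_swap, this]
        exact CharTwo.add_self_eq_zero _
    · have : p.2 = p.1 := congrArg Prod.fst hc
      rw [this, bit_eq_false (by simp [hw, tAdj])]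
      simp
  have h3 : ∑ a, ∑ a', (if bit (w a) a' = true then 1 else 0 : ZMod 2) = 0 := by
    simp only [Fintype.sum_sum_type, sum_add_distrib]
    rw [← Fintype.sum_prod_type' (f := fun a a' =>
      (if bit (w a) (Sum.inl a') = true then 1 else 0 : ZMod 2)), h2, sum_comm]
    simp only [h1, sum_const_zero, add_zero]
  have h0 : 0 < t := by omega
  simp only [sum_bit, hw] at h3
  rw [sum_eq_single ⟨0, h0⟩ (fun a _ ha => by simp [liftStarParity, ha]) (by simp)] at h3
  simp [liftStarParity, h0] at h3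

end Crest.Agent.R290
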