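import Crest.Agent.R290.Game

/-!
# Row 290: good cliques are seen after one (separate) or two (joint) rounds
-/

set_option autoImplicit false

namespace Crest.Agent.R290

open Crest.WLRefine Crest.WLRefine.ParityLift

theorem good_comp_iff {V W : Type} [Fintype V] [Fintype W] {G : V → V → Bool}
    {U : W → W → Bool} {f : V → W} (hf : Function.Injective f) (h1 : ∀ a b, U (f a) (f b) = G a b)
    (h2 : ∀ a w, U (f a) w = true → ∃ b, f b = w) {t : ℕ} (v : Fin t → V) :
    Good U (f ∘ v) ↔ Good G v := by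
  have hc : ∀ a b c, (Finset.univ.filter fun z => G a z = true ∧ G b z = true ∧ G c z = true).card =
      (Finset.univ.filter fun z =>
        U (f a) z = true ∧ U (f b) z = true ∧ U (f c) z = true).card := by
    intro a b c
    refine Finset.card_bij (fun z _ => f z) (fun z hz => by simpa [h1] using hz)
      (fun _ _ _ _ h => hf h) fun w hw => ?_
    obtain ⟨z, rfl⟩ := h2 a w (Finset.mem_filter.1 hw).2.1
    exact ⟨z, by simpa [h1] using hw, rfl⟩
  simp only [Good, Function.comp_apply, h1, hc]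

theorem Good.exists_of_biso {V W : Type} [Fintype V] [Fintype W] {G : V → V → Bool}
    {H : W → W → Bool} (h : BIso G H) {t : ℕ} (hv : ∃ v : Fin t → V, Good G v) :
    ∃ v : Fin t → W, Good H v := by
  obtain ⟨e, he⟩ := h
  obtain ⟨v, hv⟩ := hv
  exact ⟨e ∘ v, (good_comp_iff e.injective he (fun _ w _ => e.surjective w) v).2 hv⟩

variable {n m k : ℕ} {G : Fin n → Fin n → Bool} {H : Fin m → Fin m → Bool}

theorem exists_fin_notMem {α : Type} [DecidableEq α] (hk : 4 ≤ k) {f : Fin k → α}
    (hf : Function.Injective f) (i j l : α) : ∃ r, i ≠ f r ∧ j ≠ f r ∧ l ≠ f r := by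
  by_contra hc
  have h : Finset.univ.image f ⊆ {i, j, l} := by
    intro x hx
    obtain ⟨r, -, rfl⟩ := Finset.mem_image.1 hx
    by_contra hx
    simp only [Finset.mem_insert, Finset.mem_singleton, not_or] at hx
    exact hc ⟨r, Ne.symm hx.1, Ne.symm hx.2.1, Ne.symm hx.2.2⟩
  have h1 := Finset.card_le_card h
  rw [Finset.card_image_of_injective _ hf, Finset.card_univ, Fintype.card_fin] at h1
  have h2 : ({i, j, l} : Finset α).card ≤ 3 := Finset.card_le_three
  omega

theorem agree_of_scolor (hk : 4 ≤ k) {u : Fin k → Fin n} {v : Fin k → Fin m}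
    (h : scolor G k 1 u = scolor H k 1 v) : (∀ i j, G (u i) (u j) = H (v i) (v j)) ∧ ∀ i j l,
      (Finset.univ.filter fun z =>
        G (u i) z = true ∧ G (u j) z = true ∧ G (u l) z = true).card =
      (Finset.univ.filter fun z =>
        H (v i) z = true ∧ H (v j) z = true ∧ H (v l) z = true).card := by
  refine ⟨fun i j => congrFun (congrFun (congrArg (fun c => c.1.2) h) i) j, fun i j l => ?_⟩
  obtain ⟨r, hi, hj, hl⟩ := exists_fin_notMem hk Function.injective_id i j l
  have h1 := congrArg (fun c : SColor k 1 => (c.2 r).countP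
    fun a => a.2 i r = true ∧ a.2 j r = true ∧ a.2 l r = true) h
  simp only [id] at hi hj hl
  simp only [scolor, atomicType, Multiset.countP_map, Function.update_self,
    Function.update_of_ne hi, Function.update_of_ne hj, Function.update_of_ne hl] at h1
  exact h1

theorem scolor_of_jcolor {u : Fin k → Fin n} {v : Fin k → Fin m}
    (h : jcolor G k 1 u = jcolor H k 1 v) : scolor G k 1 u = scolor H k 1 v := by
  have h0 : atomicType G u = atomicType H v := congrArg Prod.fst h
  refine Prod.ext h0 (funext fun r => ?_)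
  have h1 := congrArg (fun c : JColor k 1 => c.2.map fun a => a r) h
  simp only [jcolor, Multiset.map_map] at h1
  exact h1

theorem good_of_scolor (hk : 4 ≤ k) {u : Fin k → Fin n} {v : Fin k → Fin m}
    (h : scolor G k 1 u = scolor H k 1 v) (hu : Good G u) : Good H v := by
  obtain ⟨h1, h2⟩ := agree_of_scolor hk h
  simpa only [Good, h1, h2] using hu

theorem exists_update_init {r : Fin k} {x : Fin (k + 1)} (hx : x ≠ r.castSucc) :
    ∃ y : Fin k, ∀ (α : Type) (u : Fin (k + 1) → α),
      u x = Function.update (Fin.init u : Fin k → α) r (u (Fin.last k)) y := by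
  induction x using Fin.lastCases with
  | last => exact ⟨r, fun α u => by simp⟩
  | cast x =>
    refine ⟨x, fun α u => ?_⟩
    rw [Function.update_of_ne fun h => hx (congrArg _ h)]
    rfl

theorem good_of_jcolor (hk : 4 ≤ k) {u : Fin (k + 1) → Fin n} {v : Fin k → Fin m}
    (h : jcolor G k 2 (Fin.init u) = jcolor H k 2 v) (hu : Good G u) :
    ∃ z, Good H (Fin.snoc v z : Fin (k + 1) → Fin m) := by
  have h1 : (Finset.univ.val.map fun z i => jcolor G k 1 (Function.update (Fin.init u) i z)) =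
      Finset.univ.val.map fun z i => jcolor H k 1 (Function.update v i z) := congrArg Prod.snd h
  obtain ⟨z, -, hz⟩ := Multiset.mem_map.1
    (h1 ▸ Multiset.mem_map_of_mem _ (Finset.mem_univ (u (Fin.last k))))
  refine ⟨z, ?_⟩
  have h2 := fun r => agree_of_scolor hk (scolor_of_jcolor (congrFun hz r).symm)
  have h3 : ∀ {r : Fin k} {x : Fin (k + 1)}, x ≠ r.castSucc → ∃ y,
      u x = Function.update (Fin.init u) r (u (Fin.last k)) y ∧
      (Fin.snoc v z : Fin (k + 1) → Fin m) x = Function.update v r z y := fun hx => by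
    obtain ⟨y, hy⟩ := exists_update_init hx
    exact ⟨y, hy _ u, by simpa using hy _ (Fin.snoc v z : Fin (k + 1) → Fin m)⟩
  refine ⟨fun i j hij => ?_, fun i j l hij hil hjl => ?_⟩
  · obtain ⟨r, hi, hj, -⟩ := exists_fin_notMem hk (Fin.castSucc_injective k) i j j
    obtain ⟨i', a1, a2⟩ := h3 hi
    obtain ⟨j', b1, b2⟩ := h3 hj
    rw [a2, b2, ← (h2 r).1, ← a1, ← b1]
    exact hu.1 i j hij
  · obtain ⟨r, hi, hj, hl⟩ := exists_fin_notMem hk (Fin.castSucc_injective k) i j l
    obtain ⟨i', a1, a2⟩ := h3 hi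
    obtain ⟨j', b1, b2⟩ := h3 hj
    obtain ⟨l', c1, c2⟩ := h3 hl
    rw [a2, b2, c2, ← (h2 r).2, ← a1, ← b1, ← c1]
    exact hu.2 i j l hij hil hjl

theorem union_adj_inr {a : Fin m} {w : Fin (Fintype.card (Fin n ⊕ Fin m))}
    (h : asMatrix (unionAdj G H) (Fintype.equivFin _ (Sum.inr a)) w = true) :
    ∃ b, Fintype.equivFin _ (Sum.inr b) = w := by
  obtain ⟨w, rfl⟩ := (Fintype.equivFin (Fin n ⊕ Fin m)).surjective w
  cases w with
  | inl b => simp [asMatrix, unionAdj] at h
  | inr b => exact ⟨b, rfl⟩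

theorem good_union_inl {t : ℕ} (u : Fin t → Fin n) :
    Good (asMatrix (unionAdj G H)) (Fintype.equivFin _ ∘ Sum.inl ∘ u) ↔ Good G u := by
  refine good_comp_iff (f := Fintype.equivFin _ ∘ Sum.inl)
    ((Equiv.injective _).comp Sum.inl_injective) (fun a b => by simp [asMatrix, unionAdj])
    (fun a w h => ?_) u
  obtain ⟨w, rfl⟩ := (Fintype.equivFin (Fin n ⊕ Fin m)).surjective w
  cases w with
  | inl b => exact ⟨b, rfl⟩
  | inr b => simp [asMatrix, unionAdj] at h

theorem good_union_inr {t : ℕ} (v : Fin t → Fin m) :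
    Good (asMatrix (unionAdj G H)) (Fintype.equivFin _ ∘ Sum.inr ∘ v) ↔ Good H v :=
  good_comp_iff (f := Fintype.equivFin _ ∘ Sum.inr)
    ((Equiv.injective _).comp Sum.inr_injective) (fun a b => by simp [asMatrix, unionAdj])
    (fun _ _ h => union_adj_inr h) v

theorem exists_eq_of_hist {α β γ : Type} [Fintype α] [Fintype β] {f : α → γ} {g : β → γ}
    (h : Finset.univ.val.map f = Finset.univ.val.map g) (a : α) : ∃ b, f a = g b := by
  obtain ⟨b, -, hb⟩ := Multiset.mem_map.1 (h ▸ Multiset.mem_map_of_mem f (Finset.mem_univ a))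
  exact ⟨b, hb.symm⟩

theorem shist_ne (hk : 4 ≤ k) (hG : ∃ u : Fin k → Fin n, Good G u)
    (hH : ¬ ∃ v : Fin k → Fin m, Good H v) :
    Finset.univ.val.map (scolor G k 1) ≠ Finset.univ.val.map (scolor H k 1) ∧
      ¬ PureSHistEq k 1 G H := by
  obtain ⟨u, hu⟩ := hG
  refine ⟨fun h => ?_, fun h => ?_⟩
  · obtain ⟨v, hv⟩ := exists_eq_of_hist h u
    exact hH ⟨v, good_of_scolor hk hv hu⟩
  · obtain ⟨v, hv⟩ := exists_eq_of_hist h u
    exact hH ⟨v, (good_union_inr v).1 (good_of_scolor hk hv ((good_union_inl u).2 hu))⟩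

theorem jhist_ne (hk : 4 ≤ k) (hG : ∃ u : Fin (k + 1) → Fin n, Good G u)
    (hH : ¬ ∃ v : Fin (k + 1) → Fin m, Good H v) :
    Finset.univ.val.map (jcolor G k 2) ≠ Finset.univ.val.map (jcolor H k 2) ∧
      ¬ PureJHistEq k 2 G H := by
  obtain ⟨u, hu⟩ := hG
  refine ⟨fun h => ?_, fun h => ?_⟩
  · obtain ⟨v, hv⟩ := exists_eq_of_hist h (Fin.init u)
    obtain ⟨z, hz⟩ := good_of_jcolor hk hv hu
    exact hH ⟨_, hz⟩
  · obtain ⟨v, hv⟩ := exists_eq_of_hist h (Fin.init u)
    obtain ⟨z, hz⟩ := good_of_jcolor (u := Fintype.equivFin _ ∘ Sum.inl ∘ u) hk hv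
      ((good_union_inl u).2 hu)
    have h1 := hz.1 (Fin.castSucc ⟨0, by omega⟩) (Fin.last k) (Fin.castSucc_ne_last _)
    rw [Fin.snoc_castSucc, Fin.snoc_last] at h1
    obtain ⟨b, rfl⟩ := union_adj_inr h1
    refine hH ⟨Fin.snoc v b, (good_union_inr (G := G) _).1 ?_⟩
    rwa [Fin.comp_snoc, Fin.comp_snoc]

end Crest.Agent.R290
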