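import Crest.Agent.R290.Lift1
import Crest.Agent.R290.Lift2
import Crest.Agent.R290.Lift3
import Crest.Agent.R290.LiftFin

/-!
# Row 290: the statement S0438
-/

set_option autoImplicit false

namespace Crest.Agent.R290

open Crest.WLRefine Crest.WLRefine.ParityLift

theorem final38 (k : ℕ) (hk : 4 ≤ k) :
    (∀ C : ChoiceSystem (k + 1),
      IsSimple (asMatrix (liftAdj C (lift0Parity (k + 1)))) ∧ IsSimple (asMatrix (liftAdj C (liftStarParity (k + 1)))) ∧
      Fintype.card (LiftV C (lift0Parity (k + 1))) = Fintype.card (LiftV C (liftStarParity (k + 1))) ∧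
      (∀ A : ℕ, 1 ≤ A → C.SizeAtMost A →
        Fintype.card (LiftV C (lift0Parity (k + 1))) ≤ A * orderFactor (k + 1)) ∧
      (JEquiv k (asMatrix (liftAdj C (lift0Parity (k + 1)))) (asMatrix (liftAdj C (liftStarParity (k + 1)))) ↔ ¬ C.Successful) ∧
      (PureJEquiv k (asMatrix (liftAdj C (lift0Parity (k + 1)))) (asMatrix (liftAdj C (liftStarParity (k + 1)))) ↔ ¬ C.Successful) ∧
      (C.Successful → (Finset.univ.val.map (jcolor (asMatrix (liftAdj C (lift0Parity (k + 1)))) k 2)) ≠
          Finset.univ.val.map (jcolor (asMatrix (liftAdj C (liftStarParity (k + 1)))) k 2) ∧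
        ¬ PureJHistEq k 2 (asMatrix (liftAdj C (lift0Parity (k + 1)))) (asMatrix (liftAdj C (liftStarParity (k + 1)))))) ∧
    (∀ C : ChoiceSystem k,
      IsSimple (asMatrix (liftAdj C (lift0Parity k))) ∧ IsSimple (asMatrix (liftAdj C (liftStarParity k))) ∧
      Fintype.card (LiftV C (lift0Parity k)) = Fintype.card (LiftV C (liftStarParity k)) ∧
      (∀ A : ℕ, 1 ≤ A → C.SizeAtMost A →
        Fintype.card (LiftV C (lift0Parity k)) ≤ A * orderFactor k) ∧
      (SEquiv k (asMatrix (liftAdj C (lift0Parity k))) (asMatrix (liftAdj C (liftStarParity k))) ↔ ¬ C.Successful) ∧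
      (PureSEquiv k (asMatrix (liftAdj C (lift0Parity k))) (asMatrix (liftAdj C (liftStarParity k))) ↔ ¬ C.Successful) ∧
      (C.Successful → (Finset.univ.val.map (scolor (asMatrix (liftAdj C (lift0Parity k))) k 1)) ≠
          Finset.univ.val.map (scolor (asMatrix (liftAdj C (liftStarParity k))) k 1) ∧
        ¬ PureSHistEq k 1 (asMatrix (liftAdj C (lift0Parity k))) (asMatrix (liftAdj C (liftStarParity k))))) := by
  refine ⟨fun C => ?_, fun C => ?_⟩
  · have ht : 4 ≤ k + 1 := by omega
    have h1 : ¬ C.Successful → PEquiv (asMatrix (liftAdj C (lift0Parity (k + 1))))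
        (asMatrix (liftAdj C (liftStarParity (k + 1)))) (k + 1) := fun h =>
      (lift_pequiv ht C h).congr (biso_asMatrix _) (biso_asMatrix _)
    have h2 := fun h : C.Successful => jhist_ne hk
      (Good.exists_of_biso (biso_asMatrix _) (lift0_good ht C h))
      (H := asMatrix (liftAdj C (liftStarParity (k + 1)))) fun h' =>
        (Good.exists_of_biso (biso_asMatrix _).symm h').elim (liftStar_not_good ht C)
    exact ⟨lift_simple C _, lift_simple C _, lift_card_eq ht C _ _,
      fun A _ hA => lift_card_le ht C _ hA, ⟨fun h hs => (h2 hs).1 (h 2), fun h => (h1 h).jequiv⟩,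
      ⟨fun h hs => (h2 hs).2 (h 2), fun h => (h1 h).pureJ⟩, h2⟩
  · have h1 : ¬ C.Successful → PEquiv (asMatrix (liftAdj C (lift0Parity k)))
        (asMatrix (liftAdj C (liftStarParity k))) k := fun h =>
      (lift_pequiv hk C h).congr (biso_asMatrix _) (biso_asMatrix _)
    have h2 := fun h : C.Successful => shist_ne hk
      (Good.exists_of_biso (biso_asMatrix _) (lift0_good hk C h))
      (H := asMatrix (liftAdj C (liftStarParity k))) fun h' =>
        (Good.exists_of_biso (biso_asMatrix _).symm h').elim (liftStar_not_good hk C)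
    exact ⟨lift_simple C _, lift_simple C _, lift_card_eq hk C _ _,
      fun A _ hA => lift_card_le hk C _ hA, ⟨fun h hs => (h2 hs).1 (h 1), fun h => (h1 h).sequiv⟩,
      ⟨fun h hs => (h2 hs).2 (h 1), fun h => (h1 h).pureS⟩, h2⟩

end Crest.Agent.R290
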