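import Crest.Agent.R290.Defs

/-!
# Row 290: the bijective pebble game implies Weisfeiler-Leman equivalence
-/

set_option autoImplicit false

namespace Crest.Agent.R290

open Crest.WLRefine Crest.WLRefine.ParityLift

section basic
variable {V W U : Type}

theorem BIso.refl (G : V → V → Bool) : BIso G G := ⟨Equiv.refl V, fun _ _ => rfl⟩

theorem BIso.symm {G : V → V → Bool} {H : W → W → Bool} (h : BIso G H) : BIso H G := by
  obtain ⟨e, he⟩ := h
  exact ⟨e.symm, fun a b => by rw [← he]; simp⟩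

theorem BIso.trans {G : V → V → Bool} {H : W → W → Bool} {J : U → U → Bool} (h : BIso G H)
    (h' : BIso H J) : BIso G J := by
  obtain ⟨e, he⟩ := h
  obtain ⟨e', he'⟩ := h'
  exact ⟨e.trans e', fun a b => by simp [he, he']⟩

theorem biso_asMatrix [Fintype V] (G : V → V → Bool) : BIso G (asMatrix G) :=
  ⟨Fintype.equivFin V, fun a b => by simp [asMatrix]⟩

theorem adjIso_iff {n m : ℕ} (G : Fin n → Fin n → Bool) (H : Fin m → Fin m → Bool) :
    AdjIso G H ↔ BIso G H := Iff.rfl

end basic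

section game
variable {V W V' W' : Type} [DecidableEq V] [DecidableEq W] [DecidableEq V'] [DecidableEq W']
  {G : V → V → Bool} {H : W → W → Bool} {G' : V' → V' → Bool} {H' : W' → W' → Bool} {K K' : ℕ}

theorem Game.mono {P : Set (Finset (V × W))} (h : Game G H K P) (hK : K' ≤ K) : Game G H K' P :=
  ⟨h.empty, h.sub, h.iso, fun p hp hc => h.ext p hp (lt_of_lt_of_le hc hK)⟩

theorem PEquiv.mono (h : PEquiv G H K) (hK : K' ≤ K) : PEquiv G H K' :=
  let ⟨P, hP⟩ := h; ⟨P, hP.mono hK⟩

/-- Transport of a strategy along isomorphisms of both graphs. -/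
theorem Game.map {P : Set (Finset (V × W))} (h : Game G H K P) (e : V ≃ V') (f : W ≃ W')
    (he : ∀ a b, G' (e a) (e b) = G a b) (hf : ∀ a b, H' (f a) (f b) = H a b) :
    Game G' H' K {q | q.image (fun x => (e.symm x.1, f.symm x.2)) ∈ P} := by
  refine ⟨by simpa using h.empty, fun p hp q hq => h.sub _ hp _ (Finset.image_subset_image hq),
    fun p hp a ha b hb => ?_, fun p hp hc => ?_⟩
  · obtain ⟨h1, h2⟩ := h.iso _ hp _ (Finset.mem_image_of_mem _ ha) _ (Finset.mem_image_of_mem _ hb)
    refine ⟨by simpa using h1, ?_⟩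
    rw [← he, ← hf] at h2
    simpa using h2
  · obtain ⟨φ, hφ⟩ := h.ext _ hp (Finset.card_image_le.trans_lt hc)
    refine ⟨e.symm.trans (φ.trans f), fun z => ?_⟩
    simpa [Finset.image_insert] using hφ (e.symm z)

theorem Game.swap {P : Set (Finset (V × W))} (h : Game G H K P) :
    Game H G K {q | q.image Prod.swap ∈ P} := by
  refine ⟨by simpa using h.empty, fun p hp q hq => h.sub _ hp _ (Finset.image_subset_image hq),
    fun p hp a ha b hb => ?_, fun p hp hc => ?_⟩
  · obtain ⟨h1, h2⟩ := h.iso _ hp _ (Finset.mem_image_of_mem _ ha) _ (Finset.mem_image_of_mem _ hb)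
    exact ⟨h1.symm, h2.symm⟩
  · obtain ⟨φ, hφ⟩ := h.ext _ hp (Finset.card_image_le.trans_lt hc)
    refine ⟨φ.symm, fun z => ?_⟩
    simpa [Finset.image_insert] using hφ (φ.symm z)

theorem PEquiv.symm (h : PEquiv G H K) : PEquiv H G K :=
  let ⟨_, hP⟩ := h; ⟨_, hP.swap⟩

theorem PEquiv.congr (h : PEquiv G H K) (hG : BIso G G') (hH : BIso H H') : PEquiv G' H' K := by
  obtain ⟨P, hP⟩ := h
  obtain ⟨e, he⟩ := hG
  obtain ⟨f, hf⟩ := hH
  exact ⟨_, hP.map e f he hf⟩

theorem pequiv_of_iso (h : BIso G H) (K : ℕ) : PEquiv G H K := by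
  obtain ⟨e, he⟩ := h
  refine ⟨{p | ∀ a ∈ p, a.2 = e a.1}, by simp, fun p hp q hq a ha => hp a (hq ha),
    fun p hp a ha b hb => ?_, fun p hp _ => ⟨e, fun z a ha => ?_⟩⟩
  · rw [hp a ha, hp b hb, he]
    simp
  · rcases Finset.mem_insert.1 ha with rfl | ha
    · rfl
    · exact hp a ha

/-- A bijection between the `k`-tuples all of whose pairs are winning positions. -/
theorem Game.exists_tuple_equiv {P : Set (Finset (V × W))} (h : Game G H K P) {k : ℕ} (hk : k ≤ K) :
    ∃ Φ : (Fin k → V) ≃ (Fin k → W), ∀ u, (Finset.univ.image fun i => (u i, Φ u i)) ∈ P := by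
  induction k with
  | zero => exact ⟨Equiv.ofUnique _ _, fun u => by simpa using h.empty⟩
  | succ k ih =>
    obtain ⟨Φ, hΦ⟩ := ih (Nat.le_of_succ_le hk)
    choose φ hφ using fun u => h.ext _ (hΦ u)
      (Finset.card_image_le.trans_lt (by simpa using Nat.lt_of_succ_le hk))
    refine ⟨((Fin.consEquiv fun _ => V).symm.trans (Equiv.prodComm _ _)).trans
      ((Equiv.prodShear Φ φ).trans ((Equiv.prodComm _ _).trans (Fin.consEquiv fun _ => W))),
      fun u => h.sub _ (hφ (Fin.tail u) (u 0)) _ fun a ha => ?_⟩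
    obtain ⟨i, -, rfl⟩ := Finset.mem_image.1 ha
    refine Fin.cases ?_ (fun i => ?_) i
    · exact Finset.mem_insert_self _ _
    · exact Finset.mem_insert_of_mem (Finset.mem_image.2 ⟨i, Finset.mem_univ _, rfl⟩)

theorem iso_of_pequiv [Fintype V] (h : PEquiv G H K) (hK : Fintype.card V ≤ K) (h1 : 1 ≤ K) :
    BIso G H := by
  obtain ⟨P, hP⟩ := h
  obtain ⟨φ, -⟩ := hP.ext _ hP.empty h1
  obtain ⟨Φ, hΦ⟩ := hP.exists_tuple_equiv hK
  set ε := Fintype.equivFin V with hε
  have key : ∀ a b : V, (a = b ↔ Φ ε.symm (ε a) = Φ ε.symm (ε b)) ∧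
      G a b = H (Φ ε.symm (ε a)) (Φ ε.symm (ε b)) := fun a b => by
    simpa using hP.iso _ (hΦ ε.symm) _ (Finset.mem_image_of_mem _ (Finset.mem_univ (ε a))) _
      (Finset.mem_image_of_mem _ (Finset.mem_univ (ε b)))
  have hinj : Function.Injective fun a => Φ ε.symm (ε a) := fun a b hab => (key a b).1.2 hab
  exact ⟨Equiv.ofBijective _ ⟨hinj, (Finite.injective_iff_surjective_of_equiv φ).1 hinj⟩,
    fun a b => (key a b).2.symm⟩

end game

section wl
variable {n m : ℕ} {G : Fin n → Fin n → Bool} {H : Fin m → Fin m → Bool} {K k : ℕ}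

theorem Game.atomicType_eq {P : Set (Finset (Fin n × Fin m))} (h : Game G H K P)
    (u : Fin k → Fin n) (v : Fin k → Fin m)
    (huv : (Finset.univ.image fun i => (u i, v i)) ∈ P) : atomicType G u = atomicType H v := by
  have key := fun i j => h.iso _ huv _ (Finset.mem_image_of_mem _ (Finset.mem_univ i)) _
    (Finset.mem_image_of_mem _ (Finset.mem_univ j))
  refine Prod.ext (funext fun i => funext fun j => ?_) (funext fun i => funext fun j => (key i j).2)
  exact decide_eq_decide.2 (key i j).1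

theorem game_map_univ {α β γ : Type} [Fintype α] [Fintype β] (φ : α ≃ β) {f : α → γ} {g : β → γ}
    (h : ∀ z, f z = g (φ z)) :
    (Finset.univ : Finset α).val.map f = (Finset.univ : Finset β).val.map g := by
  rw [← Finset.map_univ_equiv φ, Finset.map_val, Multiset.map_map]
  exact Multiset.map_congr rfl fun z _ => h z

theorem Game.jcolor_eq {P : Set (Finset (Fin n × Fin m))} (h : Game G H K P) (hk : k + 1 ≤ K)
    (s : ℕ) (u : Fin k → Fin n) (v : Fin k → Fin m)
    (huv : (Finset.univ.image fun i => (u i, v i)) ∈ P) : jcolor G k s u = jcolor H k s v := by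
  induction s generalizing u v with
  | zero => exact h.atomicType_eq u v huv
  | succ s ih =>
    obtain ⟨φ, hφ⟩ := h.ext _ huv (Finset.card_image_le.trans_lt (by simpa using hk))
    refine Prod.ext (ih u v huv) (game_map_univ φ fun z => funext fun i =>
      ih _ _ (h.sub _ (hφ z) _ fun a ha => ?_))
    obtain ⟨j, -, rfl⟩ := Finset.mem_image.1 ha
    rcases eq_or_ne j i with rfl | hj
    · simp
    · simp only [Function.update_of_ne hj]
      exact Finset.mem_insert_of_mem (Finset.mem_image_of_mem _ (Finset.mem_univ j))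

theorem Game.scolor_eq {P : Set (Finset (Fin n × Fin m))} (h : Game G H K P) (hk : k ≤ K)
    (s : ℕ) (u : Fin k → Fin n) (v : Fin k → Fin m)
    (huv : (Finset.univ.image fun i => (u i, v i)) ∈ P) : scolor G k s u = scolor H k s v := by
  induction s generalizing u v with
  | zero => exact h.atomicType_eq u v huv
  | succ s ih =>
    refine Prod.ext (ih u v huv) (funext fun i => ?_)
    obtain ⟨φ, hφ⟩ := h.ext ((Finset.univ.erase i).image fun j => (u j, v j))
      (h.sub _ huv _ (Finset.image_subset_image (Finset.erase_subset _ _)))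
      (Finset.card_image_le.trans_lt ((Finset.card_erase_lt_of_mem (Finset.mem_univ i)).trans_le
        (by simpa using hk)))
    refine game_map_univ φ fun z => ih _ _ (h.sub _ (hφ z) _ fun a ha => ?_)
    obtain ⟨j, -, rfl⟩ := Finset.mem_image.1 ha
    rcases eq_or_ne j i with rfl | hj
    · simp
    · simp only [Function.update_of_ne hj]
      exact Finset.mem_insert_of_mem (Finset.mem_image_of_mem _ (by simpa using hj))

theorem PEquiv.jequiv (h : PEquiv G H (k + 1)) : JEquiv k G H := by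
  obtain ⟨P, hP⟩ := h
  obtain ⟨Φ, hΦ⟩ := hP.exists_tuple_equiv k.le_succ
  exact fun s => game_map_univ Φ fun u => hP.jcolor_eq le_rfl s u _ (hΦ u)

theorem PEquiv.sequiv (h : PEquiv G H k) : SEquiv k G H := by
  obtain ⟨P, hP⟩ := h
  obtain ⟨Φ, hΦ⟩ := hP.exists_tuple_equiv le_rfl
  exact fun s => game_map_univ Φ fun u => hP.scolor_eq le_rfl s u _ (hΦ u)

theorem Game.crcolor_eq {P : Set (Finset (Fin n × Fin m))} (h : Game G H K P) (hK : 2 ≤ K)
    (s : ℕ) (u : Fin n) (v : Fin m) (huv : {(u, v)} ∈ P) : crcolor G s u = crcolor H s v := by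
  induction s generalizing u v with
  | zero => rfl
  | succ s ih =>
    obtain ⟨φ, hφ⟩ := h.ext _ huv (by rw [Finset.card_singleton]; omega)
    have h1 : ∀ z, G u z = H v (φ z) := fun z =>
      (h.iso _ (hφ z) (u, v) (by simp) (z, φ z) (by simp)).2
    have h2 : (Finset.univ.filter fun w => H v w = true) =
        (Finset.univ.filter fun w => G u w = true).map φ.toEmbedding := by
      ext w
      simp [h1]
    rw [crcolor, crcolor, h2, Finset.map_val, Multiset.map_map]
    refine Prod.ext (ih u v huv) ?_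
    dsimp only
    exact Multiset.map_congr rfl fun z _ => ih z (φ z) (h.sub _ (hφ z) _ (by simp))

theorem PEquiv.crequiv (h : PEquiv G H 2) : CREquiv G H := by
  obtain ⟨P, hP⟩ := h
  obtain ⟨φ, hφ⟩ := hP.ext _ hP.empty two_pos
  exact fun s => game_map_univ φ fun u => hP.crcolor_eq le_rfl s u _ (by simpa using hφ u)

theorem PEquiv.wlequiv (h : PEquiv G H (k + 1)) : WLEquiv k G H := by
  unfold WLEquiv
  split_ifs with hk
  · subst hk; exact h.crequiv
  · exact h.jequiv

/-- The swap strategy on the disjoint union. -/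
theorem Game.union {P : Set (Finset (Fin n × Fin m))} (h : Game G H K P) :
    Game (unionAdj G H) (unionAdj G H) K
      {q | (∀ x ∈ q, ∃ y : Fin n × Fin m, x = (.inl y.1, .inr y.2) ∨ x = (.inr y.2, .inl y.1)) ∧
        ∀ p : Finset (Fin n × Fin m),
          (∀ y ∈ p, (.inl y.1, .inr y.2) ∈ q ∨ (.inr y.2, .inl y.1) ∈ q) → p ∈ P} := by
  refine ⟨⟨by simp, fun p hp => ?_⟩, fun q hq q' hq' => ⟨fun x hx => hq.1 x (hq' hx),
    fun p hp => hq.2 p fun y hy => (hp y hy).imp (@hq' _) (@hq' _)⟩,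
    fun q hq a ha b hb => ?_, fun q hq hc => ?_⟩
  · rw [Finset.eq_empty_of_forall_notMem (s := p) fun y hy => by simpa using hp y hy]
    exact h.empty
  · obtain ⟨y, hy⟩ := hq.1 a ha
    obtain ⟨y', hy'⟩ := hq.1 b hb
    have hy2 : (.inl y.1, .inr y.2) ∈ q ∨ (.inr y.2, .inl y.1) ∈ q :=
      hy.imp (fun e => by rw [← e]; exact ha) fun e => by rw [← e]; exact ha
    have hy2' : (.inl y'.1, .inr y'.2) ∈ q ∨ (.inr y'.2, .inl y'.1) ∈ q :=
      hy'.imp (fun e => by rw [← e]; exact hb) fun e => by rw [← e]; exact hb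
    have h1 := h.iso _ (hq.2 {y, y'} (by
      simp only [Finset.mem_insert, Finset.mem_singleton]
      rintro _ (rfl | rfl)
      exacts [hy2, hy2'])) y (by simp) y' (by simp)
    rcases hy with rfl | rfl <;> rcases hy' with rfl | rfl <;> simp [unionAdj, h1.1, h1.2]
  · set p₀ : Finset (Fin n × Fin m) := Finset.univ.filter fun y =>
      (.inl y.1, .inr y.2) ∈ q ∨ (.inr y.2, .inl y.1) ∈ q with hp₀
    have hcard : p₀.card ≤ q.card := by
      refine Finset.card_le_card_of_injOn (fun y => if (.inl y.1, .inr y.2) ∈ q then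
        (.inl y.1, .inr y.2) else (.inr y.2, .inl y.1)) (fun y hy => ?_) fun y _ y' _ hyy => ?_
      · have hy' := (Finset.mem_filter.1 (Finset.mem_coe.1 hy)).2
        beta_reduce
        split_ifs with h1
        · exact h1
        · exact hy'.resolve_left h1
      · beta_reduce at hyy
        split_ifs at hyy <;> simp_all [Prod.ext_iff]
    obtain ⟨φ, hφ⟩ := h.ext p₀ (hq.2 _ fun y hy => (Finset.mem_filter.1 hy).2) (hcard.trans_lt hc)
    refine ⟨(Equiv.sumComm _ _).trans (Equiv.sumCongr φ.symm φ), fun z => ⟨fun x hx => ?_,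
      fun p hp => h.sub _ (hφ (z.elim id φ.symm)) _ fun y hy => ?_⟩⟩
    · rcases Finset.mem_insert.1 hx with rfl | hx
      · rcases z with a | b
        · exact ⟨(a, φ a), Or.inl rfl⟩
        · exact ⟨(φ.symm b, b), Or.inr rfl⟩
      · exact hq.1 x hx
    · have := hp y hy
      rcases z with a | b <;> simp only [Finset.mem_insert, hp₀, Finset.mem_filter] at this ⊢ <;>
        simp [Prod.ext_iff] at this ⊢ <;> tauto

theorem Game.exists_pure {P : Set (Finset (Fin n × Fin m))} (h : Game G H K P) (hk : k ≤ K) :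
    ∃ (Q : Set (Finset _)) (Φ : (Fin k → Fin n) ≃ (Fin k → Fin m)),
      Game (asMatrix (unionAdj G H)) (asMatrix (unionAdj G H)) K Q ∧ ∀ u,
        (Finset.univ.image fun i => ((Fintype.equivFin _ ∘ Sum.inl ∘ u) i,
          (Fintype.equivFin _ ∘ Sum.inr ∘ Φ u) i)) ∈ Q := by
  obtain ⟨Φ, hΦ⟩ := h.exists_tuple_equiv hk
  refine ⟨_, Φ, h.union.map (Fintype.equivFin _) (Fintype.equivFin _) (by simp [asMatrix])
    (by simp [asMatrix]), fun u => ?_⟩
  simp only [Set.mem_ofPred_eq, Finset.image_image, Function.comp_def, Equiv.symm_apply_apply]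
  refine ⟨fun x hx => ?_, fun p hp => h.sub _ (hΦ u) _ fun y hy => ?_⟩
  · obtain ⟨i, -, rfl⟩ := Finset.mem_image.1 hx
    exact ⟨(u i, Φ u i), Or.inl rfl⟩
  · simpa [Prod.ext_iff] using hp y hy

theorem PEquiv.pureJ (h : PEquiv G H (k + 1)) : PureJEquiv k G H := by
  obtain ⟨P, hP⟩ := h
  obtain ⟨Q, Φ, hQ, hΦ⟩ := hP.exists_pure k.le_succ
  exact fun s => game_map_univ Φ fun u => hQ.jcolor_eq le_rfl s _ _ (hΦ u)

theorem PEquiv.pureS (h : PEquiv G H k) : PureSEquiv k G H := by
  obtain ⟨P, hP⟩ := h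
  obtain ⟨Q, Φ, hQ, hΦ⟩ := hP.exists_pure le_rfl
  exact fun s => game_map_univ Φ fun u => hQ.scolor_eq le_rfl s _ _ (hΦ u)

end wl

end Crest.Agent.R290
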