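import Crest.Agent.R290.Red
import Crest.Agent.R290.GameConv
import Crest.Agent.R290.Codes
import Crest.Agent.R290.Unary
import Crest.Agent.R290.PolyRed

/-!
# Row 290: the three languages are hard for exponential time
-/

set_option autoImplicit false

namespace Crest.Agent.R290

open Crest.WLRefine Crest.Agent.Lib.PolyTime Crest.ExpTime

namespace HardAux

theorem poly_code (M : Tbl) {d : List Bool → ℕ} (hd : Poly d) (hb : PB d) (tw : Bool) :
    Poly fun w : List Bool => adjMatrixCode (redG M w 2 (d w) (32 * d w) tw) := by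
  have h1 : Poly fun w : List Bool => (⟨d w⟩ : Un) := hd.unMk hb
  have h2 : Poly fun w : List Bool => (⟨32 * d w⟩ : Un) :=
    Lib.PolyTime.Poly.unMk (by fun_prop) (by fun_prop)
  have h3 : Poly fun w : List Bool =>
      ((M, w, ⟨2⟩, ⟨d w⟩, ⟨32 * d w⟩) : List ℕ × List Bool × Un × Un × Un) :=
    (Lib.PolyTime.Poly.const _).pair (Lib.PolyTime.Poly.id'.pair
      ((Lib.PolyTime.Poly.const _).pair (h1.pair h2)))
  have h4 := Lib.PolyTime.Poly.comp (poly_redG tw) h3
  simpa only [] using h4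

theorem jequiv_iff {M : Tbl} {w : List Bool} {d T : ℕ} {β : Bool} (hM : M.WF) (hd : 1 ≤ d)
    (hB : w.length + T < 2 ^ d) (h : M.Halts w T β) :
    JEquiv (32 * d + 4) (redG M w 2 d (32 * d) false) (redG M w 2 d (32 * d) true) ↔
      β = false := by
  cases β with
  | false => exact ⟨fun _ => rfl, fun _ => (red_reject hM le_rfl hd le_rfl hB h).jequiv⟩
  | true =>
    refine ⟨fun hJ => ?_, fun h' => by cases h'⟩
    exact (red_not_iso hM le_rfl hd le_rfl
      (red_accept hM le_rfl hd le_rfl hB h (pequiv_of_jequiv (by omega) hJ))).elim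

theorem identifies_iff {M : Tbl} {w : List Bool} {d T : ℕ} {β : Bool} (hM : M.WF) (hd : 1 ≤ d)
    (hB : w.length + T < 2 ^ d) (h : M.Halts w T β) :
    (∃ k', 1 ≤ k' ∧ k' ≤ 32 * d + 4 ∧ Identifies k' (redG M w 2 d (32 * d) false)) ↔
      β = true := by
  cases β with
  | true =>
    refine ⟨fun _ => rfl, fun _ => ⟨32 * d + 4, by omega, le_rfl, fun m H _ hW => ?_⟩⟩
    rw [WLEquiv, if_neg (by omega)] at hW
    exact red_accept hM le_rfl hd le_rfl hB h (pequiv_of_jequiv (by omega) hW)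
  | false =>
    refine ⟨?_, fun h' => by cases h'⟩
    rintro ⟨k', -, hk, hI⟩
    have h1 : PEquiv (redG M w 2 d (32 * d) false) (redG M w 2 d (32 * d) true) (k' + 1) :=
      (red_reject hM le_rfl hd le_rfl hB h).mono (by omega)
    exact (red_not_iso hM le_rfl hd le_rfl
      (hI _ _ (red_subcubic le_rfl hd le_rfl true).1 h1.wlequiv)).elim

theorem poly_pair (M : Tbl) {d : List Bool → ℕ} (hd : Poly d) (hb : PB d) :
    Poly fun w : List Bool => Crest.Enc.natCode (32 * d w + 4) ++
      adjMatrixCode (redG M w 2 (d w) (32 * d w) false) ++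
      adjMatrixCode (redG M w 2 (d w) (32 * d w) true) :=
  ((Lib.PolyTime.Poly.natCode (by fun_prop)).append (poly_code M hd hb false)).append
    (poly_code M hd hb true)

end HardAux

open HardAux

theorem hard_varDim : EXPHard varDimEquivLang := by
  intro A hA
  obtain ⟨M, d, hM, hd, hb, h⟩ := exists_tbl_of_inEXP hA true
  refine ⟨_, (poly_pair M hd hb).polyTime, fun w => ?_⟩
  obtain ⟨h1, T, β, hB, hH, hw⟩ := h w
  rw [mem_varDimEquivLang_iff, jequiv_iff hM h1 hB hH, hw]
  exact ⟨fun h' => ⟨by omega, (red_subcubic le_rfl h1 le_rfl false).1,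
    (red_subcubic le_rfl h1 le_rfl true).1, h'⟩, fun h' => h'.2.2.2⟩

theorem hard_subcubic : EXPHard subcubicVarDimEquivLang := by
  intro A hA
  obtain ⟨M, d, hM, hd, hb, h⟩ := exists_tbl_of_inEXP hA true
  refine ⟨_, (poly_pair M hd hb).polyTime, fun w => ?_⟩
  obtain ⟨h1, T, β, hB, hH, hw⟩ := h w
  rw [mem_subcubicVarDimEquivLang_iff, jequiv_iff hM h1 hB hH, hw]
  exact ⟨fun h' => ⟨by omega, redN_pos le_rfl h1 le_rfl, red_subcubic le_rfl h1 le_rfl false,
    red_subcubic le_rfl h1 le_rfl true, h'⟩, fun h' => h'.2.2.2.2⟩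

theorem hard_wlDimLe : EXPHard wlDimLeLang := by
  intro A hA
  obtain ⟨M, d, hM, hd, hb, h⟩ := exists_tbl_of_inEXP hA false
  have hp : Poly fun w : List Bool => Crest.Enc.natCode (32 * d w + 4) ++
      adjMatrixCode (redG M w 2 (d w) (32 * d w) false) :=
    (Lib.PolyTime.Poly.natCode (by fun_prop)).append (poly_code M hd hb false)
  refine ⟨_, hp.polyTime, fun w => ?_⟩
  obtain ⟨h1, T, β, hB, hH, hw⟩ := h w
  rw [mem_wlDimLeLang_iff, identifies_iff hM h1 hB hH, hw]
  exact ⟨fun h' => ⟨by omega, redN_pos le_rfl h1 le_rfl, (red_subcubic le_rfl h1 le_rfl false).1,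
    h'⟩, fun h' => h'.2.2.2⟩

end Crest.Agent.R290
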