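import Crest.Agent.R290.LiftAux

/-!
# Row 290: the parity lifts are simple; their orders
-/

set_option autoImplicit false

namespace Crest.Agent.R290

open Crest.WLRefine Crest.WLRefine.ParityLift Finset LiftAux

variable {t : ℕ}

theorem lift_simple (C : ChoiceSystem t) (b : TV t → Bool) : IsSimple (asMatrix (liftAdj C b)) := by
  refine ⟨fun v w => ?_, fun v => ?_⟩
  · rw [Bool.eq_iff_iff]
    simp only [asMatrix, adj_iff]
    rw [bAdj_symm, eq_comm (a := bit _ _)]
  · rw [← Bool.not_eq_true]
    intro h
    have h1 := tAdj_of_bAdj ((adj_iff _ _).1 h).1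
    rw [tAdj_self] at h1
    exact Bool.false_ne_true h1

theorem lift_card_eq (ht : 4 ≤ t) (C : ChoiceSystem t) (b b' : TV t → Bool) :
    Fintype.card (LiftV C b) = Fintype.card (LiftV C b') := by
  rw [card_liftV ht, card_liftV ht]

theorem lift_card_le (ht : 4 ≤ t) (C : ChoiceSystem t) (b : TV t → Bool) {A : ℕ}
    (hA : C.SizeAtMost A) : Fintype.card (LiftV C b) ≤ A * orderFactor t := by
  rw [card_liftV ht, Fintype.sum_sum_type, Fintype.sum_sigma, Fintype.sum_sigma, orderFactor,
    mul_add]
  refine add_le_add ?_ ?_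
  · refine (sum_le_card_nsmul _ _ (A * 2 ^ (t - 2 + 3 * (t - 1).choose 2)) fun i _ => ?_).trans ?_
    · simp only [typeOf, sum_const, card_univ, Fintype.card_fin, smul_eq_mul]
      refine Nat.mul_le_mul (hA.1 i) (Nat.pow_le_pow_right (by norm_num) ?_)
      have := card_nb_inl_le i
      omega
    · rw [card_univ, Fintype.card_fin, smul_eq_mul]
      exact le_of_eq (by ring)
  · refine (sum_le_card_nsmul _ _ (A * 4) fun h _ => ?_).trans ?_
    · simp only [typeOf, sum_const, card_univ, Fintype.card_fin, smul_eq_mul, card_nb_inr]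
      exact Nat.mul_le_mul (hA.2 _ _ h.2.1) (by norm_num)
    · rw [card_univ, smul_eq_mul]
      calc _ ≤ 3 * t.choose 3 * (A * 4) := Nat.mul_le_mul_right _ card_helper_le
        _ = _ := by ring

end Crest.Agent.R290
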