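import Crest.Agent.R290.Defs

/-!
# Row 290: counting tags in the parity lifts
-/

set_option autoImplicit false

namespace Crest.Agent.R290.LiftAux

open Crest.WLRefine Crest.WLRefine.ParityLift Finset

theorem card_flip {I : Type} [Fintype I] [DecidableEq I] (f : I → Bool) (i : I) :
    (univ.filter fun a => Function.update f i (!f i) a = true).card % 2 =
      ((univ.filter fun a => f a = true).card + 1) % 2 := by
  by_cases h : f i = true
  · have h1 : (univ.filter fun a => f a = true) =
        insert i (univ.filter fun a => Function.update f i (!f i) a = true) := by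
      ext a
      by_cases ha : a = i
      · simp [ha, h]
      · simp [ha]
    rw [h1, card_insert_of_notMem (by simp [h])]
    omega
  · have h1 : (univ.filter fun a => Function.update f i (!f i) a = true) =
        insert i (univ.filter fun a => f a = true) := by
      ext a
      by_cases ha : a = i
      · simp [ha, h]
      · simp [ha]
    rw [h1, card_insert_of_notMem (by simp [h])]

/-- Boolean vectors prescribed outside `F`, of a given parity. -/
theorem card_par {I : Type} [Fintype I] [DecidableEq I] (F : Finset I) (hF : F.Nonempty)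
    (g : I → Bool) (β : Bool) :
    (univ.filter fun f : I → Bool => (∀ j, j ∉ F → f j = g j) ∧
      (univ.filter fun a => f a = true).card % 2 = β.toNat).card = 2 ^ (F.card - 1) := by
  obtain ⟨i, hi⟩ := hF
  set S := univ.filter fun f : I → Bool => ∀ j, j ∉ F → f j = g j with hS
  have h1 : S.card = 2 ^ F.card := by
    have h2 : S = Fintype.piFinset fun j => if j ∈ F then univ else {g j} := by
      ext f
      simp only [hS, mem_filter, mem_univ, true_and, Fintype.mem_piFinset]
      refine forall_congr' fun j => ?_
      split_ifs with h <;> simp [h]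
    rw [h2, Fintype.card_piFinset]
    simp only [apply_ite Finset.card, card_univ, Fintype.card_bool, card_singleton]
    rw [prod_ite_mem, univ_inter, prod_const]
  have hβ : β.toNat < 2 := by cases β <;> simp
  have h2 : (S.filter fun f => (univ.filter fun a => f a = true).card % 2 = β.toNat).card =
      (S.filter fun f => ¬ (univ.filter fun a => f a = true).card % 2 = β.toNat).card := by
    have key : ∀ f ∈ S, Function.update f i (!f i) ∈ S := fun f hf => by
      simp only [hS, mem_filter, mem_univ, true_and] at hf ⊢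
      intro j hj
      rw [Function.update_of_ne (by rintro rfl; exact hj hi), hf j hj]
    refine card_nbij' (fun f => Function.update f i (!f i)) (fun f => Function.update f i (!f i))
      (fun f hf => ?_) (fun f hf => ?_) (fun f _ => by simp) (fun f _ => by simp)
    · simp only [coe_filter, Set.mem_ofPred_eq] at hf ⊢
      refine ⟨key f hf.1, ?_⟩
      rw [card_flip]
      omega
    · simp only [coe_filter, Set.mem_ofPred_eq] at hf ⊢
      refine ⟨key f hf.1, ?_⟩
      rw [card_flip]
      omega
  have h3 := card_filter_add_card_filter_not (s := S)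
    (fun f => (univ.filter fun a => f a = true).card % 2 = β.toNat)
  rw [← h2, h1] at h3
  rw [← filter_filter]
  obtain ⟨n, hn⟩ : ∃ n, F.card = n + 1 := ⟨F.card - 1, by have := card_pos.2 ⟨i, hi⟩; omega⟩
  rw [hn, pow_succ] at h3
  rw [hn, Nat.add_sub_cancel]
  change (S.filter _).card = _
  omega

variable {t : ℕ}

theorem tAdj_symm (a a' : TV t) : tAdj a a' = tAdj a' a := by
  rcases a with a | a <;> rcases a' with a' | a' <;> simp [tAdj, eq_comm]

theorem tAdj_self (a : TV t) : tAdj a a = false := by
  rcases a with a | a <;> simp [tAdj]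

variable {C : ChoiceSystem t} {b : TV t → Bool}

theorem bAdj_symm (u u' : BV C) : bAdj C u u' = bAdj C u' u := by
  rcases u with u | u <;> rcases u' with u' | u' <;> simp [bAdj, Bool.or_comm]

theorem tAdj_of_helperAgree {p : Σ i : Fin t, Fin (C.dom i)}
    {hq : Σ h : Helper t, Fin (C.lab h.1.1 h.1.2.1)} (h : helperAgree C p hq = true) :
    p.1 = hq.1.1.1 ∨ p.1 = hq.1.1.2.1 ∨ p.1 = hq.1.1.2.2 := by
  simp only [helperAgree, decide_eq_true_eq] at h
  rcases h with ⟨e, -⟩ | ⟨e, -⟩ | e
  exacts [Or.inl e, Or.inr (Or.inl e), Or.inr (Or.inr e)]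

theorem tAdj_of_bAdj {u u' : BV C} (h : bAdj C u u' = true) :
    tAdj (typeOf C u) (typeOf C u') = true := by
  rcases u with u | u <;> rcases u' with u' | u'
  · simp only [bAdj, mainAgree, Bool.or_eq_true, decide_eq_true_eq] at h
    simp only [typeOf, tAdj, decide_eq_true_eq]
    rcases h with ⟨h, -⟩ | ⟨h, -⟩
    exacts [h.ne, h.ne']
  · simpa only [typeOf, tAdj, decide_eq_true_eq] using tAdj_of_helperAgree h
  · simpa only [typeOf, tAdj, decide_eq_true_eq] using tAdj_of_helperAgree h
  · simp [bAdj] at h

/-- The type of a vertex of the lift. -/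
def ty (x : LiftV C b) : TV t := typeOf C x.1.1

/-- The tag of a vertex of the lift, extended by `false`. -/
def bit (x : LiftV C b) (a : TV t) : Bool :=
  if h : tAdj (typeOf C x.1.1) a = true then x.1.2 ⟨a, h⟩ else false

theorem bit_eq_false {x : LiftV C b} {a : TV t} (h : ¬ tAdj (ty x) a = true) : bit x a = false :=
  dif_neg h

theorem tAdj_of_bit {x : LiftV C b} {a : TV t} (h : bit x a = true) : tAdj (ty x) a = true := by
  by_contra hc
  rw [bit_eq_false hc] at h
  exact Bool.false_ne_true h

theorem adj_iff (x y : LiftV C b) :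
    liftAdj C b x y = true ↔ bAdj C x.1.1 y.1.1 = true ∧ bit x (ty y) = bit y (ty x) := by
  simp only [liftAdj, decide_eq_true_eq]
  constructor
  · rintro ⟨h, h', h1, h2⟩
    refine ⟨h1, ?_⟩
    simp only [bit, ty, dif_pos h, dif_pos h', h2]
  · rintro ⟨h1, h2⟩
    have h := tAdj_of_bAdj h1
    have h' := (tAdj_symm _ _).trans h
    refine ⟨h, h', h1, ?_⟩
    simpa only [bit, ty, dif_pos h, dif_pos h'] using h2

theorem card_bit (x : LiftV C b) :
    (univ.filter fun a => bit x a = true).card = (univ.filter fun a' => x.1.2 a' = true).card := by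
  symm
  refine card_nbij Subtype.val (fun a ha => ?_) Subtype.val_injective.injOn (fun a ha => ?_)
  · simp only [coe_filter, mem_univ, true_and, Set.mem_ofPred_eq] at ha ⊢
    rw [bit, dif_pos a.2]
    exact ha
  · simp only [coe_filter, mem_univ, true_and, Set.mem_ofPred_eq] at ha
    have h : tAdj (typeOf C x.1.1) a = true := tAdj_of_bit ha
    refine ⟨⟨a, h⟩, ?_, rfl⟩
    simp only [coe_filter, mem_univ, true_and, Set.mem_ofPred_eq]
    rwa [bit, dif_pos h] at ha

theorem par_bit (x : LiftV C b) :
    (univ.filter fun a => bit x a = true).card % 2 = (b (ty x)).toNat := by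
  rw [card_bit]
  exact x.2

theorem ext_bit {x y : LiftV C b} (h1 : x.1.1 = y.1.1) (h2 : bit x = bit y) : x = y := by
  obtain ⟨⟨u, z⟩, hx⟩ := x
  obtain ⟨⟨u', z'⟩, hy⟩ := y
  obtain rfl : u = u' := h1
  have : z = z' := by
    funext a
    have := congrFun h2 a.1
    simpa only [bit, dif_pos a.2] using this
  subst this
  rfl

theorem exists_bit (u : BV C) (f : TV t → Bool) (hf : ∀ a, f a = true → tAdj (typeOf C u) a = true)
    (hp : (univ.filter fun a => f a = true).card % 2 = (b (typeOf C u)).toNat) :
    ∃ x : LiftV C b, x.1.1 = u ∧ bit x = f := by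
  have h1 : (univ.filter fun a' : Nbr (typeOf C u) => f a'.1 = true).card =
      (univ.filter fun a => f a = true).card := by
    refine card_nbij Subtype.val (fun a ha => ?_) Subtype.val_injective.injOn (fun a ha => ?_)
    · simpa using ha
    · simp only [coe_filter, mem_univ, true_and, Set.mem_ofPred_eq] at ha
      exact ⟨⟨a, hf a ha⟩, by simpa using ha, rfl⟩
  refine ⟨⟨⟨u, fun a => f a.1⟩, h1.symm ▸ hp⟩, rfl, ?_⟩
  funext a
  unfold bit
  split_ifs with h
  · rfl
  · by_contra hc
    exact h (hf a (by simpa using hc))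

/-- The template neighbours of a template vertex. -/
def nb (a : TV t) : Finset (TV t) := univ.filter fun a' => tAdj a a' = true

theorem card_fiber (u : BV C) (T : Finset (TV t)) (g : TV t → Bool)
    (hg : ∀ a, g a = true → tAdj (typeOf C u) a = true) (hF : (nb (typeOf C u) \ T).Nonempty) :
    (univ.filter fun z : LiftV C b => z.1.1 = u ∧ ∀ a ∈ T, bit z a = g a).card =
      2 ^ ((nb (typeOf C u) \ T).card - 1) := by
  rw [← card_par _ hF g (b (typeOf C u))]
  refine card_nbij bit (fun z hz => ?_) (fun z hz z' hz' h => ?_) (fun f hf => ?_)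
  · simp only [coe_filter, mem_univ, true_and, Set.mem_ofPred_eq] at hz ⊢
    obtain ⟨rfl, hz⟩ := hz
    refine ⟨fun j hj => ?_, par_bit z⟩
    by_cases hjT : j ∈ T
    · exact hz j hjT
    · have h1 : ¬ tAdj (typeOf C z.1.1) j = true := fun h => hj (by simp [nb, h, hjT])
      rw [bit_eq_false h1]
      by_contra hc
      exact h1 (hg j (by simpa using hc))
  · simp only [coe_filter, mem_univ, true_and, Set.mem_ofPred_eq] at hz hz'
    exact ext_bit (hz.1.trans hz'.1.symm) h
  · simp only [coe_filter, mem_univ, true_and, Set.mem_ofPred_eq] at hf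
    obtain ⟨x, hx1, hx2⟩ := exists_bit (b := b) u f (fun a ha => by
      by_contra hc
      exact hc (hg a (hf.1 a (by simp [nb, hc]) ▸ ha))) hf.2
    refine ⟨x, ?_, hx2⟩
    simp only [coe_filter, mem_univ, true_and, Set.mem_ofPred_eq]
    exact ⟨hx1, fun a ha => hx2 ▸ hf.1 a (by simp [ha])⟩

/-- The three mains of a helper. -/
def hset (h : Helper t) : Finset (Fin t) := {h.1.1, h.1.2.1, h.1.2.2}

theorem mem_hset {h : Helper t} {i : Fin t} :
    i ∈ hset h ↔ tAdj (Sum.inl i) (Sum.inr h) = true := by
  simp [hset, tAdj]

theorem card_hset (h : Helper t) : (hset h).card = 3 :=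
  card_eq_three.2 ⟨_, _, _, h.2.1.ne, h.2.2.1.symm, h.2.2.2.symm, rfl⟩

theorem card_hset_fiber {T : Finset (Fin t)} (hT : T.card = 3) :
    (univ.filter fun h : Helper t => hset h = T).card = 3 := by
  rw [← hT]
  refine card_nbij (fun h => h.1.2.2) (fun h hh => ?_) (fun h hh h' hh' e => ?_) (fun l hl => ?_)
  · simp only [coe_filter, mem_univ, true_and, Set.mem_ofPred_eq] at hh
    simp [← hh, hset]
  · simp only [coe_filter, mem_univ, true_and, Set.mem_ofPred_eq] at hh hh'
    obtain ⟨⟨a, c, l⟩, h1, h2, h3⟩ := h
    obtain ⟨⟨a', c', l'⟩, h1', h2', h3'⟩ := h'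
    have h4 := Finset.ext_iff.1 (hh.trans hh'.symm)
    have k1 := h4 a
    have k2 := h4 c
    have k3 := h4 a'
    have k4 := h4 c'
    simp only [hset, mem_insert, mem_singleton, true_or, or_true, true_iff, iff_true] at k1 k2 k3 k4
    simp only at e h1 h2 h3 h1' h2' h3'
    subst e
    have : a = a' ∧ c = c' := by omega
    obtain ⟨rfl, rfl⟩ := this
    rfl
  · have hl' : l ∈ T := hl
    obtain ⟨a, c, hac, h⟩ := card_eq_two.1 (show (T.erase l).card = 2 by
      rw [card_erase_of_mem hl', hT])
    have ha : a ≠ l := ne_of_mem_erase (h ▸ by simp : a ∈ T.erase l)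
    have hc : c ≠ l := ne_of_mem_erase (h ▸ by simp : c ∈ T.erase l)
    have hT' : T = insert l {a, c} := by rw [← h, insert_erase hl']
    rcases lt_or_gt_of_ne hac with h1 | h1
    · refine ⟨⟨(a, c, l), h1, ha.symm, hc.symm⟩, ?_, rfl⟩
      simp only [coe_filter, mem_univ, true_and, Set.mem_ofPred_eq, hT', hset]
      ext x
      simp only [mem_insert, mem_singleton]
      tauto
    · refine ⟨⟨(c, a, l), h1, hc.symm, ha.symm⟩, ?_, rfl⟩
      simp only [coe_filter, mem_univ, true_and, Set.mem_ofPred_eq, hT', hset]
      ext x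
      simp only [mem_insert, mem_singleton]
      tauto

theorem card_nb_inr (h : Helper t) : (nb (Sum.inr h : TV t)).card = 3 := by
  have : nb (Sum.inr h : TV t) = (hset h).map ⟨Sum.inl, Sum.inl_injective⟩ := by
    ext a
    rcases a with a | a
    · simp only [nb, tAdj, hset, mem_filter, mem_univ, true_and, decide_eq_true_eq, mem_map,
        Function.Embedding.coeFn_mk, Sum.inl.injEq, exists_eq_right, mem_insert, mem_singleton]
    · simp [nb, tAdj]
  rw [this, card_map, card_hset]

theorem card_nb_inl (i : Fin t) : (nb (Sum.inl i : TV t)).card =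
    (t - 1) + (univ.filter fun h : Helper t => i ∈ hset h).card := by
  have : nb (Sum.inl i : TV t) = (univ.erase i).disjSum (univ.filter fun h => i ∈ hset h) := by
    ext a
    rcases a with a | a
    · simp only [nb, tAdj, mem_filter, mem_univ, true_and, decide_eq_true_eq, inl_mem_disjSum,
        mem_erase, and_true]
      exact ne_comm
    · simp [nb, mem_hset]
  rw [this, card_disjSum, card_erase_of_mem (mem_univ _), card_univ, Fintype.card_fin]

theorem card_nb_inl_le (i : Fin t) :
    (nb (Sum.inl i : TV t)).card ≤ t - 1 + 3 * (t - 1).choose 2 := by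
  rw [card_nb_inl]
  have h := card_le_mul_card_image_of_maps_to (f := fun h : Helper t => (hset h).erase i)
    (s := univ.filter fun h : Helper t => i ∈ hset h) (t := powersetCard 2 (univ.erase i))
    (fun h hh => ?_) 3 (fun T hT => ?_)
  · rw [card_powersetCard, card_erase_of_mem (mem_univ _), card_univ, Fintype.card_fin] at h
    omega
  · rw [mem_powersetCard, card_erase_of_mem (mem_filter.1 hh).2, card_hset]
    exact ⟨erase_subset_erase _ (subset_univ _), rfl⟩
  · obtain ⟨h1, h2⟩ := mem_powersetCard.1 hT
    have hi : i ∉ T := fun h => notMem_erase i univ (h1 h)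
    rw [← card_hset_fiber (T := insert i T) (by rw [card_insert_of_notMem hi, h2])]
    refine card_le_card fun h hh => ?_
    simp only [mem_filter, mem_univ, true_and] at hh ⊢
    rw [← hh.2, insert_erase hh.1]

theorem six_le_card_nb_inl (ht : 4 ≤ t) (i : Fin t) : 6 ≤ (nb (Sum.inl i : TV t)).card := by
  rw [card_nb_inl]
  obtain ⟨T, hT, hc⟩ := exists_subset_card_eq (s := univ.erase i) (n := 2) (by
    rw [card_erase_of_mem (mem_univ _), card_univ, Fintype.card_fin]; omega)
  have hi : i ∉ T := fun h => notMem_erase i univ (hT h)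
  have h1 : 3 ≤ (univ.filter fun h : Helper t => i ∈ hset h).card := by
    rw [← card_hset_fiber (T := insert i T) (by rw [card_insert_of_notMem hi, hc])]
    refine card_le_card fun h hh => ?_
    simp only [mem_filter, mem_univ, true_and] at hh ⊢
    rw [hh]
    exact mem_insert_self _ _
  omega

theorem card_helper_le : Fintype.card (Helper t) ≤ 3 * t.choose 3 := by
  have h := card_le_mul_card_image_of_maps_to (f := fun h : Helper t => hset h)
    (s := univ) (t := powersetCard 3 univ)
    (fun h _ => mem_powersetCard.2 ⟨subset_univ _, card_hset h⟩) 3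
    (fun T hT => (card_hset_fiber (mem_powersetCard.1 hT).2).le)
  rwa [card_powersetCard, card_univ, card_univ, Fintype.card_fin] at h

theorem card_liftV (ht : 4 ≤ t) (C : ChoiceSystem t) (b : TV t → Bool) :
    Fintype.card (LiftV C b) = ∑ u : BV C, 2 ^ ((nb (typeOf C u)).card - 1) := by
  rw [← card_univ, card_eq_sum_card_fiberwise (f := fun z : LiftV C b => z.1.1) (t := univ)
    fun _ _ => mem_coe.2 (mem_univ _)]
  refine sum_congr rfl fun u _ => ?_
  have h := card_fiber (b := b) u ∅ (fun _ => false) (by simp) (by
    rw [sdiff_empty, ← card_pos]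
    rcases u with u | u
    · exact lt_of_lt_of_le (by norm_num) (six_le_card_nb_inl ht u.1)
    · exact (card_nb_inr u.1).symm ▸ (by norm_num))
  simpa using h

end Crest.Agent.R290.LiftAux
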