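import Crest.Agent.R290.WLAlg
import Crest.Agent.R290.GameConv
import Crest.Agent.R290.Unary

/-!
# Row 290: the three languages are in exponential time
-/

set_option autoImplicit false

namespace Crest.Agent.R290

open Crest.WLRefine Crest.Agent.Lib.PolyTime Crest.ExpTime

namespace MemberAux

open Crest.Enc

/-- matrices as lists of rows -/
abbrev LL : Type := List (List Bool)

variable {n m k : ℕ}

def ent (A : LL) (i j : ℕ) : Bool := (A.getD i []).getD j false

def sqB (A : LL) : Bool := A.all fun r => r.length == A.length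

def simpleB (A : LL) : Bool := (List.range A.length).all fun i =>
  ((List.range A.length).all fun j => ent A i j == ent A j i) && !ent A i i

def degB (A : LL) : Bool := A.all fun r => decide (r.count true ≤ 3)

def bitsB (n F : ℕ) : LL := Poly.allBits (min n (Nat.log 2 F))

def connB (A : LL) (F : ℕ) : Bool := (bitsB A.length F).all fun s =>
  !((List.range A.length).all fun i => (List.range A.length).all fun j =>
      !ent A i j || s.getD i false == s.getD j false) ||
    (List.range A.length).all fun i => (List.range A.length).all fun j =>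
      s.getD i false == s.getD j false

def cut (n : ℕ) (s : List Bool) : LL :=
  (List.range n).map fun i => (List.range n).map fun j => s.getD (i * n + j) false

def code (A : LL) : List Bool := natCode A.length ++ A.flatten

section poly
variable {α : Type} [PEnc α]

@[fun_prop] theorem poly_ent {A : α → LL} {i j : α → ℕ} (hA : Poly A) (hi : Poly i) (hj : Poly j) :
    Poly fun a => ent (A a) (i a) (j a) := by
  unfold ent; fun_prop

@[fun_prop] theorem poly_sqB {A : α → LL} (hA : Poly A) : Poly fun a => sqB (A a) := by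
  unfold sqB; fun_prop

@[fun_prop] theorem poly_simpleB {A : α → LL} (hA : Poly A) : Poly fun a => simpleB (A a) := by
  unfold simpleB; fun_prop

@[fun_prop] theorem poly_degB {A : α → LL} (hA : Poly A) : Poly fun a => degB (A a) := by
  unfold degB; fun_prop

@[fun_prop] theorem poly_bitsB {n : α → ℕ} {F : α → Un} (hn : Poly n) (hF : Poly F) :
    Poly fun a => bitsB (n a) (F a).n :=
  Poly.allBits' (k := fun a => min (n a) (Nat.log 2 (F a).n)) (by fun_prop) ((PB.two_pow_log (PB.unVal hF)).mono fun _ =>
    Nat.pow_le_pow_right (by norm_num) (min_le_right _ _))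

@[fun_prop] theorem poly_connB {A : α → LL} {F : α → Un} (hA : Poly A) (hF : Poly F) :
    Poly fun a => connB (A a) (F a).n := by
  unfold connB; fun_prop

@[fun_prop] theorem poly_cut {n : α → ℕ} {s : α → List Bool} (hn : Poly n) (hb : PB n)
    (hs : Poly s) : Poly fun a => cut (n a) (s a) := by
  unfold cut; fun_prop

@[fun_prop] theorem poly_code {A : α → LL} (hA : Poly A) : Poly fun a => code (A a) := by
  unfold code; fun_prop

end poly

theorem ent_rows (G : Fin n → Fin n → Bool) (i j : Fin n) : ent (rows G) i j = G i j :=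
  rows_getD G i j

theorem code_rows (G : Fin n → Fin n → Bool) : code (rows G) = adjMatrixCode G := by
  rw [code, length_rows, adjMatrixCode_eq]

theorem sqB_rows (G : Fin n → Fin n → Bool) : sqB (rows G) = true := by
  simp [sqB, rows]

theorem exists_rows {A : LL} (h : sqB A = true) :
    ∃ (n : ℕ) (G : Fin n → Fin n → Bool), A = rows G := by
  refine ⟨A.length, fun i j => ent A i j, ?_⟩
  simp only [sqB, List.all_eq_true, beq_iff_eq] at h
  refine List.ext_getElem (by simp [rows]) fun i h1 h2 => ?_
  refine List.ext_getElem (by simpa [rows] using h _ (List.getElem_mem h1)) fun j h3 h4 => ?_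
  simp [rows, ent, h3]

theorem all_range {p : ℕ → Bool} : (List.range n).all p = true ↔ ∀ i : Fin n, p i = true := by
  simp only [List.all_eq_true, List.mem_range]
  exact ⟨fun h i => h i i.2, fun h i hi => h ⟨i, hi⟩⟩

theorem simpleB_rows (G : Fin n → Fin n → Bool) : simpleB (rows G) = true ↔ IsSimple G := by
  simp only [simpleB, length_rows, all_range, Bool.and_eq_true, ent_rows, beq_iff_eq,
    Bool.not_eq_true', IsSimple, forall_and]

theorem degB_rows (G : Fin n → Fin n → Bool) : degB (rows G) = true ↔ MaxDegLeThree G := by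
  simp only [degB, rows, List.all_eq_true, List.mem_ofFn', Set.mem_range, forall_exists_index,
    forall_apply_eq_imp_iff, decide_eq_true_eq, MaxDegLeThree]
  refine forall_congr' fun v => ?_
  rw [← Fin.card_filter_univ_eq_vector_get_eq_count true (List.Vector.ofFn (G v)) |>.symm.trans
    (by simp) |> fun (h : (List.Vector.ofFn (G v)).toList.count true =
      (Finset.univ.filter fun w => G v w = true).card) => h, List.Vector.toList_ofFn]

theorem mem_bitsB {F : ℕ} (h : 2 ^ n ≤ F) {s : List Bool} : s ∈ bitsB n F ↔ s.length = n := by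
  rw [bitsB, Poly.mem_allBits, min_eq_left (Nat.le_log_of_pow_le (by norm_num) h)]

theorem connB_rows (G : Fin n → Fin n → Bool) {F : ℕ} (h : 2 ^ n ≤ F) :
    connB (rows G) F = true ↔ (adjGraph G).Preconnected := by
  classical
  rw [connB, List.all_eq_true]
  simp only [length_rows, mem_bitsB h, Bool.or_eq_true, Bool.not_eq_true', ← Bool.not_eq_true,
    all_range, ent_rows, beq_iff_eq, ← imp_iff_not_or]
  constructor
  · intro H u v
    have := H (List.ofFn fun i => decide ((adjGraph G).Reachable u i)) (by simp) (fun i j hij => by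
      by_cases e : i = j
      · rw [e]
      · have : (adjGraph G).Adj i j := by simp [adjGraph, e, hij]
        simpa using ⟨fun h => h.trans this.reachable, fun h => h.trans this.symm.reachable⟩) u v
    simpa using this
  · intro H s _ hs i j
    obtain ⟨p⟩ := H i j
    induction p with
    | nil => rfl
    | cons a p ih =>
      refine Eq.trans ?_ ih
      rcases ((SimpleGraph.fromRel_adj _ _ _).1 a).2 with h | h
      · exact hs _ _ h
      · exact (hs _ _ h).symm

theorem cut_eq (n : ℕ) (s : List Bool) :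
    cut n s = rows fun i j : Fin n => s.getD (i * n + j) false := by
  rw [cut, rows, ← ofFn_eq_map_range]
  congr 1
  funext i
  rw [← ofFn_eq_map_range]

theorem exists_cut (H : Fin n → Fin n → Bool) : ∃ s : List Bool, s.length = n * n ∧
    H = fun i j : Fin n => s.getD (i * n + j) false := by
  refine ⟨(List.range (n * n)).map fun x => ent (rows H) (x / n) (x % n), by simp, ?_⟩
  funext i j
  have h1 : i * n + j < n * n := by
    have := Nat.mul_le_mul_right n (Nat.succ_le_of_lt i.2)
    have := j.2
    rw [Nat.succ_mul] at *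
    omega
  have h2 : (i * n + j) / n = i := by
    rw [Nat.add_comm, Nat.add_mul_div_right _ _ j.pos, Nat.div_eq_of_lt j.2, Nat.zero_add]
  have h3 : (i * n + j) % n = j := by
    rw [Nat.add_comm, Nat.add_mul_mod_self_right, Nat.mod_eq_of_lt j.2]
  simp [List.getD, h1, h2, h3, ent_rows]

theorem budget1 {N : ℕ} (hn : n * n + 2 ≤ N) (hm : m * m + 2 ≤ N) (hk : k ≤ max n 2) :
    (n + 2) ^ k + (m + 2) ^ k ≤ 2 ^ N ^ 3 := by
  have h1 := Nat.le_mul_self n
  have h2 := Nat.le_mul_self m
  have h3 : ∀ x, x ≤ N → x ^ k ≤ 2 ^ (N * N) := fun x hx => by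
    rw [pow_mul]
    exact (Nat.pow_le_pow_left (hx.trans Nat.lt_two_pow_self.le) k).trans
      (Nat.pow_le_pow_right (by positivity) (by omega))
  have h4 : 2 ^ (N * N + 1) ≤ 2 ^ N ^ 3 := Nat.pow_le_pow_right (by norm_num) (by
    have : 2 ≤ N := by omega
    nlinarith [Nat.mul_le_mul this this, Nat.mul_le_mul_left (N * N) this])
  have := h3 (n + 2) (by omega)
  have := h3 (m + 2) (by omega)
  rw [pow_succ] at h4
  omega

theorem budget2 {N : ℕ} (hn : n ≤ N) : 2 ^ n ≤ 2 ^ N ^ 3 :=
  Nat.pow_le_pow_right (by norm_num) (hn.trans (Nat.le_self_pow (by norm_num) N))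

theorem le_length (G : Fin n → Fin n → Bool) : n * n + 2 ≤ (adjMatrixCode G).length := by
  rw [length_adjMatrixCode, length_natCode]
  omega

def prs1 (w : List Bool) : ℕ × LL := ((pNat w).1, (pSquare pBool (pNat w).2).1.2)

def prs2 (w : List Bool) : ℕ × LL × LL :=
  ((pNat w).1, (pSquare pBool (pNat w).2).1.2, (pSquare pBool (pSquare pBool (pNat w).2).2).1.2)

theorem poly_prs1 : Poly prs1 := by unfold prs1; fun_prop

theorem poly_prs2 : Poly prs2 := by unfold prs2; fun_prop

theorem prs1_code (G : Fin n → Fin n → Bool) : prs1 (natCode k ++ adjMatrixCode G) = (k, rows G) := by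
  have := pSquare_adjMatrixCode G []
  rw [List.append_nil] at this
  simp only [prs1, pNat_code, this]

theorem prs2_code (G : Fin n → Fin n → Bool) (H : Fin m → Fin m → Bool) :
    prs2 (natCode k ++ adjMatrixCode G ++ adjMatrixCode H) = (k, rows G, rows H) := by
  have := pSquare_adjMatrixCode H []
  rw [List.append_nil] at this
  simp only [prs2, List.append_assoc, pNat_code, pSquare_adjMatrixCode, this]

theorem inEXP_one {L : Set (List Bool)} {t : (ℕ × LL) × Un → Bool} (ht : Poly t)
    (h1 : ∀ w ∈ L, ∃ (k n : ℕ) (G : Fin n → Fin n → Bool), w = natCode k ++ adjMatrixCode G)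
    (h2 : ∀ (k n N : ℕ) (G : Fin n → Fin n → Bool), n * n + 2 ≤ N →
      (natCode k ++ adjMatrixCode G ∈ L ↔ t ((k, rows G), ⟨2 ^ N ^ 3⟩) = true)) : InEXP L := by
  have hp := poly_prs1
  refine inEXP_of_poly (g := fun x => sqB (prs1 x.1).2 &&
    (x.1 == natCode (prs1 x.1).1 ++ code (prs1 x.1).2) && t (prs1 x.1, x.2)) (by fun_prop) 3
    fun w => ?_
  have key : ∀ (k n : ℕ) (G : Fin n → Fin n → Bool), w = natCode k ++ adjMatrixCode G →
      (w ∈ L ↔ t (prs1 w, ⟨2 ^ w.length ^ 3⟩) = true) := by
    rintro k n G rfl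
    rw [prs1_code]
    exact h2 k n _ G (by have := le_length G; rw [List.length_append]; omega)
  simp only [Bool.and_eq_true, beq_iff_eq]
  constructor
  · intro hw
    obtain ⟨k, n, G, e⟩ := h1 w hw
    refine ⟨?_, (key k n G e).1 hw⟩
    rw [e, prs1_code, code_rows]
    exact ⟨sqB_rows G, rfl⟩
  · rintro ⟨⟨a, b⟩, c⟩
    obtain ⟨n, G, e⟩ := exists_rows a
    rw [e, code_rows] at b
    exact (key _ n G b).2 c

theorem inEXP_two {L : Set (List Bool)} {t : (ℕ × LL × LL) × Un → Bool} (ht : Poly t)
    (h1 : ∀ w ∈ L, ∃ (k n m : ℕ) (G : Fin n → Fin n → Bool) (H : Fin m → Fin m → Bool),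
      w = natCode k ++ adjMatrixCode G ++ adjMatrixCode H)
    (h2 : ∀ (k n m N : ℕ) (G : Fin n → Fin n → Bool) (H : Fin m → Fin m → Bool), n * n + 2 ≤ N →
      m * m + 2 ≤ N → (natCode k ++ adjMatrixCode G ++ adjMatrixCode H ∈ L ↔
        t ((k, rows G, rows H), ⟨2 ^ N ^ 3⟩) = true)) : InEXP L := by
  have hp := poly_prs2
  refine inEXP_of_poly (g := fun x => sqB (prs2 x.1).2.1 && sqB (prs2 x.1).2.2 &&
    (x.1 == natCode (prs2 x.1).1 ++ code (prs2 x.1).2.1 ++ code (prs2 x.1).2.2) &&
      t (prs2 x.1, x.2)) (by fun_prop) 3 fun w => ?_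
  have key : ∀ (k n m : ℕ) (G : Fin n → Fin n → Bool) (H : Fin m → Fin m → Bool),
      w = natCode k ++ adjMatrixCode G ++ adjMatrixCode H →
      (w ∈ L ↔ t (prs2 w, ⟨2 ^ w.length ^ 3⟩) = true) := by
    rintro k n m G H rfl
    rw [prs2_code]
    exact h2 k n m _ G H (by have := le_length G; simp only [List.length_append]; omega)
      (by have := le_length H; simp only [List.length_append]; omega)
  simp only [Bool.and_eq_true, beq_iff_eq]
  constructor
  · intro hw
    obtain ⟨k, n, m, G, H, e⟩ := h1 w hw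
    refine ⟨?_, (key k n m G H e).1 hw⟩
    rw [e, prs2_code, code_rows, code_rows]
    exact ⟨⟨sqB_rows G, sqB_rows H⟩, rfl⟩
  · rintro ⟨⟨⟨a, a'⟩, b⟩, c⟩
    obtain ⟨n, G, e⟩ := exists_rows a
    obtain ⟨m, H, e'⟩ := exists_rows a'
    rw [e, e', code_rows, code_rows] at b
    exact (key _ n m G H b).2 c

theorem jequiv_iff_wl {G : Fin n → Fin n → Bool} {H : Fin m → Fin m → Bool} (hk : 2 ≤ k) :
    JEquiv k G H ↔ WLEquiv (min k (max n 2)) G H := by
  rw [jequiv_iff_min hk, WLEquiv, if_neg (by omega)]

end MemberAux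

open MemberAux

theorem inEXP_varDim : InEXP varDimEquivLang := by
  obtain ⟨g, hg, hs⟩ := exists_wlAlg
  refine inEXP_two (t := fun x => decide (2 ≤ x.1.1) && (simpleB x.1.2.1 && (simpleB x.1.2.2 &&
    g ((min x.1.1 (max x.1.2.1.length 2), x.1.2.1, x.1.2.2), x.2)))) (by fun_prop) ?_ ?_
  · rintro w ⟨k, n, m, G, H, -, -, -, -, e⟩
    exact ⟨k, n, m, G, H, e⟩
  · intro k n m N G H hn hm
    simp only [mem_varDimEquivLang_iff, Bool.and_eq_true, decide_eq_true_eq, simpleB_rows,
      length_rows]
    refine and_congr_right fun hk => ?_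
    rw [hs _ n m G H _ (by omega) (budget1 hn hm (min_le_right _ _)), jequiv_iff_wl hk]

theorem inEXP_subcubic : InEXP subcubicVarDimEquivLang := by
  obtain ⟨g, hg, hs⟩ := exists_wlAlg
  refine inEXP_two (t := fun x => (x.1.2.1.length == x.1.2.2.length) && (decide (2 ≤ x.1.1) &&
    (decide (0 < x.1.2.1.length) && ((simpleB x.1.2.1 && (connB x.1.2.1 x.2.n && degB x.1.2.1)) &&
    ((simpleB x.1.2.2 && (connB x.1.2.2 x.2.n && degB x.1.2.2)) &&
    g ((min x.1.1 (max x.1.2.1.length 2), x.1.2.1, x.1.2.2), x.2)))))) (by fun_prop) ?_ ?_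
  · rintro w ⟨k, n, G, H, -, -, -, -, -, e⟩
    exact ⟨k, n, n, G, H, e⟩
  · intro k n m N G H hn hm
    simp only [Bool.and_eq_true, decide_eq_true_eq, simpleB_rows, length_rows, beq_iff_eq,
      degB_rows]
    by_cases e : n = m
    · subst e
      have h2 : 2 ^ n ≤ 2 ^ N ^ 3 := budget2 (by have := Nat.le_mul_self n; omega)
      simp only [mem_subcubicVarDimEquivLang_iff, true_and, connB_rows _ h2]
      refine and_congr_right fun hk => and_congr_right fun h0 => ?_
      have : Nonempty (Fin n) := ⟨⟨0, h0⟩⟩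
      rw [hs _ n n G H _ (by omega) (budget1 hn hm (min_le_right _ _)), jequiv_iff_wl hk]
      simp only [SimpleConnSubcubic, SimpleGraph.connected_iff, this, and_true]
    · refine iff_of_false ?_ fun h => e h.1
      rintro ⟨k', n', G', H', -, -, -, -, -, e'⟩
      have := congrArg prs2 e'
      rw [prs2_code, prs2_code] at this
      have h1 := congrArg (fun x => x.2.1.length) this
      have h2 := congrArg (fun x => x.2.2.length) this
      simp only [length_rows] at h1 h2
      omega

theorem inEXP_wlDimLe : InEXP wlDimLeLang := by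
  obtain ⟨g, hg, hs⟩ := exists_wlAlg
  refine inEXP_one (t := fun x => decide (1 ≤ x.1.1) && (decide (0 < x.1.2.length) &&
    (simpleB x.1.2 && (List.range' 1 (min x.1.1 (max x.1.2.length 2))).any fun k' =>
      (bitsB (x.1.2.length * x.1.2.length) x.2.n).all fun s =>
        !simpleB (cut x.1.2.length s) || (!g ((k', x.1.2, cut x.1.2.length s), x.2) ||
          g ((max x.1.2.length 2, x.1.2, cut x.1.2.length s), x.2))))) (by fun_prop) ?_ ?_
  · rintro w ⟨k, n, G, -, -, -, -, e⟩
    exact ⟨k, n, G, e⟩
  · intro k n N G hn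
    have h2 : 2 ^ (n * n) ≤ 2 ^ N ^ 3 := budget2 (by omega)
    simp only [mem_wlDimLeLang_iff, Bool.and_eq_true, decide_eq_true_eq, simpleB_rows,
      length_rows, List.any_eq_true, List.all_eq_true, mem_bitsB h2, cut_eq, Bool.or_eq_true,
      Bool.not_eq_true', ← Bool.not_eq_true, ← imp_iff_not_or, List.mem_range'_1]
    refine and_congr_right fun hk => and_congr_right fun _ => and_congr_right fun _ => ?_
    rw [exists_identifies_iff hk]
    refine exists_congr fun k' => ?_
    rw [← and_assoc]
    refine (and_congr_left' (by omega)).trans (and_congr_right fun hk' => ?_)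
    have e1 := fun H => hs k' n n G H _ hk'.1 (budget1 hn hn (by omega))
    have e2 := fun H => hs (max n 2) n n G H _ (by omega) (budget1 hn hn le_rfl)
    simp only [e1, e2]
    refine ⟨fun h s _ => h _, fun h H => ?_⟩
    obtain ⟨s, k1, rfl⟩ := exists_cut H
    exact h s k1

end Crest.Agent.R290
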