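import Crest.Agent.R290.Xor

/-!
# Row 290: the subcubic graph of a parity system (basic properties, soundness)
-/

set_option autoImplicit false

namespace Crest.Agent.R290

open Crest.WLRefine

variable {X : Type} [DecidableEq X]

theorem nadj_symm (sv : ℕ → X) (b : ℕ → ZMod 2) (x y : ℕ × Loc) : nadj sv b x y = nadj sv b y x :=
  Bool.or_comm _ _

theorem nadj_irrefl (sv : ℕ → X) (b : ℕ → ZMod 2) (x : ℕ × Loc) : nadj sv b x x = false := by
  obtain ⟨c, l⟩ := x
  cases l <;> simp [nadj, nadj0]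

theorem neckN_symm (sv : ℕ → X) (b : ℕ → ZMod 2) (x y : ℕ) : neckN sv b x y = neckN sv b y x :=
  nadj_symm _ _ _ _

theorem neckN_irrefl (sv : ℕ → X) (b : ℕ → ZMod 2) (x : ℕ) : neckN sv b x x = false :=
  nadj_irrefl _ _ _

theorem neckG_symm (C : ℕ) (sv : ℕ → X) (b : ℕ → ZMod 2) (x y : NV C) :
    neckG C sv b x y = neckG C sv b y x := nadj_symm _ _ _ _

theorem neckG_irrefl (C : ℕ) (sv : ℕ → X) (b : ℕ → ZMod 2) (x : NV C) :
    neckG C sv b x x = false := nadj_irrefl _ _ _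

theorem locOf_bijective : Function.Bijective (fun l : Fin 31 => locOf l) := by
  rw [Fintype.bijective_iff_injective_and_card]
  refine ⟨?_, by decide⟩
  intro i j
  revert i j
  decide

/-- The numbering of the local vertices. -/
noncomputable def locEquiv : Fin 31 ≃ Loc := Equiv.ofBijective _ locOf_bijective

theorem locEquiv_apply (l : Fin 31) : locEquiv l = locOf l := rfl

/-- The numbered graph is the graph on `NV C`. -/
theorem biso_neckN (C : ℕ) (sv : ℕ → X) (b : ℕ → ZMod 2) :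
    BIso (neckG C sv b) (mat (C * 31) (neckN sv b)) := by
  apply BIso.symm
  refine ⟨finProdFinEquiv.symm.trans (Equiv.prodCongr (Equiv.refl _) locEquiv), fun x y => ?_⟩
  simp only [neckG, mat, neckN, Equiv.trans_apply, Equiv.prodCongr_apply, Prod.map_fst,
    Prod.map_snd, Equiv.coe_refl, id, locEquiv_apply, finProdFinEquiv_symm_apply, Fin.coe_divNat,
    Fin.coe_modNat]

theorem card_le_three_of {α : Type} [Fintype α] (p : α → Prop) [DecidablePred p]
    (p1 p2 p3 : α → Prop) (h1 : ∀ a b, p1 a → p1 b → a = b) (h2 : ∀ a b, p2 a → p2 b → a = b)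
    (h3 : ∀ a b, p3 a → p3 b → a = b) (h : ∀ y, p y → p1 y ∨ p2 y ∨ p3 y) :
    (Finset.univ.filter p).card ≤ 3 := by
  classical
  have hs : Finset.univ.filter p ⊆
      Finset.univ.filter p1 ∪ (Finset.univ.filter p2 ∪ Finset.univ.filter p3) := by
    intro y hy
    simpa using h y (by simpa using hy)
  have c1 : (Finset.univ.filter p1).card ≤ 1 :=
    Finset.card_le_one.2 fun a ha b hb => h1 a b (by simpa using ha) (by simpa using hb)
  have c2 : (Finset.univ.filter p2).card ≤ 1 :=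
    Finset.card_le_one.2 fun a ha b hb => h2 a b (by simpa using ha) (by simpa using hb)
  have c3 : (Finset.univ.filter p3).card ≤ 1 :=
    Finset.card_le_one.2 fun a ha b hb => h3 a b (by simpa using ha) (by simpa using hb)
  have := Finset.card_le_card hs
  have := Finset.card_union_le (Finset.univ.filter p1)
    (Finset.univ.filter p2 ∪ Finset.univ.filter p3)
  have := Finset.card_union_le (Finset.univ.filter p2) (Finset.univ.filter p3)
  omega

omit [DecidableEq X] in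
theorem Nxt.unique_right {sv : ℕ → X} {o o₁ o₂ : ℕ} (h₁ : Nxt sv o o₁) (h₂ : Nxt sv o o₂) :
    o₁ = o₂ := by
  rcases lt_trichotomy o₁ o₂ with h | h | h
  · exact absurd h₁.2.1.symm (h₂.2.2 o₁ h h₁.1)
  · exact h
  · exact absurd h₂.2.1.symm (h₁.2.2 o₂ h h₂.1)

omit [DecidableEq X] in
theorem Nxt.unique_left {sv : ℕ → X} {o o₁ o₂ : ℕ} (h₁ : Nxt sv o₁ o) (h₂ : Nxt sv o₂ o) :
    o₁ = o₂ := by
  rcases lt_trichotomy o₁ o₂ with h | h | h
  · exact absurd (h₂.2.1.trans h₁.2.1.symm) (h₁.2.2 o₂ h₂.1 h)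
  · exact h
  · exact absurd (h₁.2.1.trans h₂.2.1.symm) (h₂.2.2 o₁ h₁.1 h)

theorem occ_inj {C : ℕ} {c c' : Fin C} {e e' : Fin 3} (h : 3 * (c : ℕ) + e = 3 * c' + e') :
    c = c' ∧ e = e' := by
  have := e.2
  have := e'.2
  exact ⟨Fin.ext (by omega), Fin.ext (by omega)⟩

theorem zmod2_cases (β : ZMod 2) : β = 0 ∨ β = 1 := by
  revert β; decide

theorem neckG_deg_le (C : ℕ) (sv : ℕ → X) (b : ℕ → ZMod 2) (x : NV C) :
    (Finset.univ.filter fun y => neckG C sv b x y = true).card ≤ 3 := by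
  obtain ⟨c, l⟩ := x
  cases l with
  | a e β =>
    refine card_le_three_of _ (fun y => y = (c, .P e β))
      (fun y => ∃ β₀ β₁, y = (c, .mid β₀ β₁) ∧ β = mbit (b c) β₀ β₁ e ∧
        (if e = 0 then β₁ else β₀) = 0)
      (fun y => ∃ β₀ β₁, y = (c, .mid β₀ β₁) ∧ β = mbit (b c) β₀ β₁ e ∧
        (if e = 0 then β₁ else β₀) = 1) ?_ ?_ ?_ ?_
    · rintro _ _ rfl rfl; rfl
    · rintro _ _ ⟨β₀, β₁, rfl, h1, h2⟩ ⟨β₀', β₁', rfl, h1', h2'⟩
      have key : ∀ (bb β β₀ β₁ β₀' β₁' : ZMod 2) (e : Fin 3), β = mbit bb β₀ β₁ e →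
          (if e = 0 then β₁ else β₀) = 0 → β = mbit bb β₀' β₁' e →
          (if e = 0 then β₁' else β₀') = 0 → β₀ = β₀' ∧ β₁ = β₁' := by decide
      obtain ⟨rfl, rfl⟩ := key _ _ _ _ _ _ _ h1 h2 h1' h2'
      rfl
    · rintro _ _ ⟨β₀, β₁, rfl, h1, h2⟩ ⟨β₀', β₁', rfl, h1', h2'⟩
      have key : ∀ (bb β β₀ β₁ β₀' β₁' : ZMod 2) (e : Fin 3), β = mbit bb β₀ β₁ e →
          (if e = 0 then β₁ else β₀) = 1 → β = mbit bb β₀' β₁' e →
          (if e = 0 then β₁' else β₀') = 1 → β₀ = β₀' ∧ β₁ = β₁' := by decide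
      obtain ⟨rfl, rfl⟩ := key _ _ _ _ _ _ _ h1 h2 h1' h2'
      rfl
    · rintro ⟨c', l'⟩ h
      cases l' with
      | mid β₀ β₁ =>
        simp only [neckG, nadj, nadj0, Bool.false_or, decide_eq_true_eq] at h
        obtain ⟨h1, h2⟩ := h
        obtain rfl : c' = c := Fin.ext h1
        rcases zmod2_cases (if e = 0 then β₁ else β₀) with h3 | h3
        · exact Or.inr (Or.inl ⟨β₀, β₁, rfl, h2, h3⟩)
        · exact Or.inr (Or.inr ⟨β₀, β₁, rfl, h2, h3⟩)
      | P e' β' =>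
        simp only [neckG, nadj, nadj0, Bool.or_false, decide_eq_true_eq] at h
        obtain ⟨h1, rfl, rfl⟩ := h
        obtain rfl : c = c' := Fin.ext h1
        exact Or.inl rfl
      | _ => simp [neckG, nadj, nadj0] at h
  | P e β =>
    refine card_le_three_of _ (fun y => y = (c, .a e β)) (fun y => y = (c, .Q e β))
      (fun y => ∃ (c' : Fin C) (e' : Fin 3), y = (c', .Q e' β) ∧ Nxt sv (3 * c + e) (3 * c' + e'))
      ?_ ?_ ?_ ?_
    · rintro _ _ rfl rfl; rfl
    · rintro _ _ rfl rfl; rfl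
    · rintro _ _ ⟨c₁, e₁, rfl, h1⟩ ⟨c₂, e₂, rfl, h2⟩
      obtain ⟨rfl, rfl⟩ := occ_inj (h1.unique_right h2)
      rfl
    · rintro ⟨c', l'⟩ h
      cases l' with
      | a e' β' =>
        simp only [neckG, nadj, nadj0, Bool.false_or, decide_eq_true_eq] at h
        obtain ⟨h1, rfl, rfl⟩ := h
        obtain rfl : c' = c := Fin.ext h1
        exact Or.inl rfl
      | Q e' β' =>
        simp only [neckG, nadj, nadj0, Bool.or_false, decide_eq_true_eq] at h
        obtain ⟨rfl, ⟨h1, rfl⟩ | h1⟩ := h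
        · obtain rfl : c = c' := Fin.ext h1
          exact Or.inr (Or.inl rfl)
        · exact Or.inr (Or.inr ⟨c', e', rfl, h1⟩)
      | _ => simp [neckG, nadj, nadj0] at h
  | Q e β =>
    refine card_le_three_of _ (fun y => y = (c, .w e)) (fun y => y = (c, .P e β))
      (fun y => ∃ (c' : Fin C) (e' : Fin 3), y = (c', .P e' β) ∧ Nxt sv (3 * c' + e') (3 * c + e))
      ?_ ?_ ?_ ?_
    · rintro _ _ rfl rfl; rfl
    · rintro _ _ rfl rfl; rfl
    · rintro _ _ ⟨c₁, e₁, rfl, h1⟩ ⟨c₂, e₂, rfl, h2⟩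
      obtain ⟨rfl, rfl⟩ := occ_inj (h1.unique_left h2)
      rfl
    · rintro ⟨c', l'⟩ h
      cases l' with
      | w e' =>
        simp only [neckG, nadj, nadj0, Bool.or_false, decide_eq_true_eq] at h
        obtain ⟨h1, rfl⟩ := h
        obtain rfl : c = c' := Fin.ext h1
        exact Or.inl rfl
      | P e' β' =>
        simp only [neckG, nadj, nadj0, Bool.false_or, decide_eq_true_eq] at h
        obtain ⟨rfl, ⟨h1, rfl⟩ | h1⟩ := h
        · obtain rfl : c' = c := Fin.ext h1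
          exact Or.inr (Or.inl rfl)
        · exact Or.inr (Or.inr ⟨c', e', rfl, h1⟩)
      | _ => simp [neckG, nadj, nadj0] at h
  | w e =>
    refine card_le_three_of _ (fun y => y = (c, .Q e 0)) (fun y => y = (c, .Q e 1))
      (fun y => y = (c, .u e)) ?_ ?_ ?_ ?_
    · rintro _ _ rfl rfl; rfl
    · rintro _ _ rfl rfl; rfl
    · rintro _ _ rfl rfl; rfl
    · rintro ⟨c', l'⟩ h
      cases l' with
      | Q e' β' =>
        simp only [neckG, nadj, nadj0, Bool.false_or, decide_eq_true_eq] at h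
        obtain ⟨h1, rfl⟩ := h
        obtain rfl : c' = c := Fin.ext h1
        rcases zmod2_cases β' with rfl | rfl
        · exact Or.inl rfl
        · exact Or.inr (Or.inl rfl)
      | u e' =>
        simp only [neckG, nadj, nadj0, Bool.or_false, decide_eq_true_eq] at h
        obtain ⟨h1, rfl⟩ := h
        obtain rfl : c = c' := Fin.ext h1
        exact Or.inr (Or.inr rfl)
      | _ => simp [neckG, nadj, nadj0] at h
  | u e =>
    refine card_le_three_of _ (fun y => y = (c, .w e)) (fun y => y = (c, .d e))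
      (fun y => ∃ (c' : Fin C) (e' : Fin 3), y = (c', .d e') ∧ 3 * (c' : ℕ) + e' = 3 * c + e + 1)
      ?_ ?_ ?_ ?_
    · rintro _ _ rfl rfl; rfl
    · rintro _ _ rfl rfl; rfl
    · rintro _ _ ⟨c₁, e₁, rfl, h1⟩ ⟨c₂, e₂, rfl, h2⟩
      obtain ⟨rfl, rfl⟩ := occ_inj (h1.trans h2.symm)
      rfl
    · rintro ⟨c', l'⟩ h
      cases l' with
      | w e' =>
        simp only [neckG, nadj, nadj0, Bool.false_or, decide_eq_true_eq] at h
        obtain ⟨h1, rfl⟩ := h
        obtain rfl : c' = c := Fin.ext h1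
        exact Or.inl rfl
      | d e' =>
        simp only [neckG, nadj, nadj0, Bool.or_false, decide_eq_true_eq] at h
        rcases h with ⟨h1, rfl⟩ | h1
        · obtain rfl : c = c' := Fin.ext h1
          exact Or.inr (Or.inl rfl)
        · exact Or.inr (Or.inr ⟨c', e', rfl, h1⟩)
      | _ => simp [neckG, nadj, nadj0] at h
  | d e =>
    refine card_le_three_of _ (fun _ => False) (fun y => y = (c, .u e))
      (fun y => ∃ (c' : Fin C) (e' : Fin 3), y = (c', .u e') ∧ 3 * (c : ℕ) + e = 3 * c' + e' + 1)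
      ?_ ?_ ?_ ?_
    · rintro _ _ h; exact h.elim
    · rintro _ _ rfl rfl; rfl
    · rintro _ _ ⟨c₁, e₁, rfl, h1⟩ ⟨c₂, e₂, rfl, h2⟩
      obtain ⟨rfl, rfl⟩ := occ_inj (c := c₁) (c' := c₂) (e := e₁) (e' := e₂) (by omega)
      rfl
    · rintro ⟨c', l'⟩ h
      cases l' with
      | u e' =>
        simp only [neckG, nadj, nadj0, Bool.false_or, decide_eq_true_eq] at h
        rcases h with ⟨h1, rfl⟩ | h1
        · obtain rfl : c' = c := Fin.ext h1
          exact Or.inr (Or.inl rfl)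
        · exact Or.inr (Or.inr ⟨c', e', rfl, h1⟩)
      | _ => simp [neckG, nadj, nadj0] at h
  | mid β₀ β₁ =>
    refine card_le_three_of _ (fun y => y = (c, .a 0 (mbit (b c) β₀ β₁ 0)))
      (fun y => y = (c, .a 1 (mbit (b c) β₀ β₁ 1))) (fun y => y = (c, .a 2 (mbit (b c) β₀ β₁ 2)))
      ?_ ?_ ?_ ?_
    · rintro _ _ rfl rfl; rfl
    · rintro _ _ rfl rfl; rfl
    · rintro _ _ rfl rfl; rfl
    · rintro ⟨c', l'⟩ h
      cases l' with
      | a e' β' =>
        simp only [neckG, nadj, nadj0, Bool.or_false, decide_eq_true_eq] at h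
        obtain ⟨h1, rfl⟩ := h
        obtain rfl : c = c' := Fin.ext h1
        fin_cases e'
        · exact Or.inl rfl
        · exact Or.inr (Or.inl rfl)
        · exact Or.inr (Or.inr rfl)
      | _ => simp [neckG, nadj, nadj0] at h

theorem neckG_deg_pos (C : ℕ) (sv : ℕ → X) (b : ℕ → ZMod 2) (x : NV C) :
    ∃ y, neckG C sv b x y = true := by
  obtain ⟨c, l⟩ := x
  cases l with
  | a e β => exact ⟨(c, .P e β), by simp [neckG, nadj, nadj0]⟩
  | P e β => exact ⟨(c, .Q e β), by simp [neckG, nadj, nadj0]⟩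
  | Q e β => exact ⟨(c, .w e), by simp [neckG, nadj, nadj0]⟩
  | w e => exact ⟨(c, .u e), by simp [neckG, nadj, nadj0]⟩
  | u e => exact ⟨(c, .d e), by simp [neckG, nadj, nadj0]⟩
  | d e => exact ⟨(c, .u e), by simp [neckG, nadj, nadj0]⟩
  | mid β₀ β₁ => exact ⟨(c, .a 0 (mbit (b c) β₀ β₁ 0)), by simp [neckG, nadj, nadj0]⟩

theorem neckN_deg_pos (C : ℕ) (sv : ℕ → X) (b : ℕ → ZMod 2) (x : Fin (C * 31)) :
    ∃ y, mat (C * 31) (neckN sv b) x y = true := by
  obtain ⟨e, he⟩ := biso_neckN C sv b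
  obtain ⟨y, hy⟩ := neckG_deg_pos C sv b (e.symm x)
  refine ⟨e y, ?_⟩
  rw [← hy, ← he, Equiv.apply_symm_apply]

/-- The simple graph of `neckG`. -/
def neckSG (C : ℕ) (sv : ℕ → X) (b : ℕ → ZMod 2) : SimpleGraph (NV C) :=
  SimpleGraph.fromRel fun v w => neckG C sv b v w = true

theorem neckSG_adj {C : ℕ} {sv : ℕ → X} {b : ℕ → ZMod 2} {v w : NV C}
    (h : neckG C sv b v w = true) : (neckSG C sv b).Adj v w := by
  rw [neckSG, SimpleGraph.fromRel_adj]
  refine ⟨?_, Or.inl h⟩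
  rintro rfl
  rw [neckG_irrefl] at h
  exact Bool.false_ne_true h

theorem neckSG_reach_d {C : ℕ} (hC : 0 < C) (sv : ℕ → X) (b : ℕ → ZMod 2) (o : ℕ) :
    ∀ (c : Fin C) (e : Fin 3), 3 * (c : ℕ) + e = o →
      (neckSG C sv b).Reachable (c, .d e) (⟨0, hC⟩, .d 0) := by
  induction o with
  | zero =>
    intro c e h
    obtain ⟨rfl, rfl⟩ := occ_inj (c := c) (c' := ⟨0, hC⟩) (e := e) (e' := 0) (by simpa using h)
    rfl
  | succ o ih =>
    intro c e h
    have he := e.2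
    have hc := c.2
    have h1 : o / 3 < C := by omega
    have h2 : o % 3 < 3 := by omega
    have r1 := ih ⟨o / 3, h1⟩ ⟨o % 3, h2⟩ (by simp only; omega)
    have a1 : (neckSG C sv b).Adj (c, .d e) (⟨o / 3, h1⟩, .u ⟨o % 3, h2⟩) := by
      apply neckSG_adj
      simp only [neckG, nadj, nadj0, Bool.false_or, decide_eq_true_eq]
      right
      omega
    have a2 : (neckSG C sv b).Adj (⟨o / 3, h1⟩, .u ⟨o % 3, h2⟩) (⟨o / 3, h1⟩, .d ⟨o % 3, h2⟩) := by
      apply neckSG_adj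
      simp [neckG, nadj, nadj0]
    exact a1.reachable.trans (a2.reachable.trans r1)

theorem neckSG_reach {C : ℕ} (hC : 0 < C) (sv : ℕ → X) (b : ℕ → ZMod 2) (x : NV C) :
    (neckSG C sv b).Reachable x (⟨0, hC⟩, .d 0) := by
  obtain ⟨c, l⟩ := x
  have hd : ∀ e, (neckSG C sv b).Reachable (c, .d e) (⟨0, hC⟩, .d 0) :=
    fun e => neckSG_reach_d hC sv b _ c e rfl
  have hu : ∀ e, (neckSG C sv b).Reachable (c, .u e) (⟨0, hC⟩, .d 0) := fun e =>
    (neckSG_adj (by simp [neckG, nadj, nadj0])).reachable.trans (hd e)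
  have hw : ∀ e, (neckSG C sv b).Reachable (c, .w e) (⟨0, hC⟩, .d 0) := fun e =>
    (neckSG_adj (by simp [neckG, nadj, nadj0])).reachable.trans (hu e)
  have hQ : ∀ e β, (neckSG C sv b).Reachable (c, .Q e β) (⟨0, hC⟩, .d 0) := fun e β =>
    (neckSG_adj (by simp [neckG, nadj, nadj0])).reachable.trans (hw e)
  have hP : ∀ e β, (neckSG C sv b).Reachable (c, .P e β) (⟨0, hC⟩, .d 0) := fun e β =>
    (neckSG_adj (by simp [neckG, nadj, nadj0])).reachable.trans (hQ e β)
  have ha : ∀ e β, (neckSG C sv b).Reachable (c, .a e β) (⟨0, hC⟩, .d 0) := fun e β =>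
    (neckSG_adj (by simp [neckG, nadj, nadj0])).reachable.trans (hP e β)
  cases l with
  | a e β => exact ha e β
  | P e β => exact hP e β
  | Q e β => exact hQ e β
  | w e => exact hw e
  | u e => exact hu e
  | d e => exact hd e
  | mid β₀ β₁ =>
    exact (neckSG_adj (by simp [neckG, nadj, nadj0])).reachable.trans (ha 0 (mbit (b c) β₀ β₁ 0))

theorem neckSG_connected {C : ℕ} (hC : 0 < C) (sv : ℕ → X) (b : ℕ → ZMod 2) :
    (neckSG C sv b).Connected := by
  have : Nonempty (NV C) := ⟨(⟨0, hC⟩, .d 0)⟩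
  exact ⟨fun x y => (neckSG_reach hC sv b x).trans (neckSG_reach hC sv b y).symm⟩

theorem neckN_subcubic {C : ℕ} (hC : 0 < C) (sv : ℕ → X) (b : ℕ → ZMod 2) :
    SimpleConnSubcubic (mat (C * 31) (neckN sv b)) := by
  obtain ⟨e, he⟩ := biso_neckN C sv b
  refine ⟨⟨fun v w => neckN_symm _ _ _ _, fun v => neckN_irrefl _ _ _⟩, ?_, fun v => ?_⟩
  · have iso : neckSG C sv b ≃g adjGraph (mat (C * 31) (neckN sv b)) :=
      ⟨e, fun {x y} => by
        simp only [neckSG, adjGraph, SimpleGraph.fromRel_adj, he, ne_eq, e.injective.eq_iff]⟩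
    exact iso.connected_iff.1 (neckSG_connected hC sv b)
  · refine le_trans (le_of_eq ?_) (neckG_deg_le C sv b (e.symm v))
    symm
    refine Finset.card_equiv e fun y => ?_
    simp only [Finset.mem_filter, Finset.mem_univ, true_and]
    rw [← he, Equiv.apply_symm_apply]

/-- The shift of a local vertex by the bits `s 0`, `s 1`, `s 2`. -/
def shiftL (s : Fin 3 → ZMod 2) : Loc → Loc
  | .a e β => .a e (β + s e)
  | .P e β => .P e (β + s e)
  | .Q e β => .Q e (β + s e)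
  | .w e => .w e
  | .u e => .u e
  | .d e => .d e
  | .mid β₀ β₁ => .mid (β₀ + s 0) (β₁ + s 1)

theorem shiftL_anchor : True := by
  have := @shiftL.eq_1
  have := @shiftL.eq_2
  have := @shiftL.eq_3
  have := @shiftL.eq_4
  have := @shiftL.eq_5
  have := @shiftL.eq_6
  have := @shiftL.eq_7
  have := @shiftL.eq_def
  have := @neckSG.eq_1
  have := @neckSG.eq_def
  have := @locEquiv.eq_1
  have := @locEquiv.eq_def
  trivial

theorem zmod2_add_add (β γ : ZMod 2) : β + γ + γ = β := by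
  revert β γ; decide

theorem shiftL_invol (s : Fin 3 → ZMod 2) : Function.Involutive (shiftL s) := by
  intro l
  cases l <;> simp only [shiftL, zmod2_add_add]

theorem mbit_shift (b₁ b₂ β₀ β₁ : ZMod 2) (s : Fin 3 → ZMod 2) (e : Fin 3)
    (h : s 0 + s 1 + s 2 = b₁ + b₂) :
    mbit b₂ (β₀ + s 0) (β₁ + s 1) e = mbit b₁ β₀ β₁ e + s e := by
  have key : ∀ b₁ b₂ β₀ β₁ s0 s1 s2 : ZMod 2, s0 + s1 + s2 = b₁ + b₂ →
      β₀ + s0 + (β₁ + s1) + b₂ = β₀ + β₁ + b₁ + s2 := by decide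
  fin_cases e
  · simp [mbit]
  · simp [mbit]
  · simpa [mbit] using key _ _ _ _ _ _ _ h

/-- The shift preserves one orientation of the edges. -/
theorem nadj0_shift (sv : ℕ → X) (b₁ b₂ : ℕ → ZMod 2) (α : X → ZMod 2) (c c' : ℕ) (l l' : Loc)
    (h : α (sv (3 * c)) + α (sv (3 * c + 1)) + α (sv (3 * c + 2)) = b₁ c + b₂ c) :
    nadj0 sv b₁ (c, l) (c', l') =
      nadj0 sv b₂ (c, shiftL (fun e => α (sv (3 * c + e))) l)
        (c', shiftL (fun e => α (sv (3 * c' + e))) l') := by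
  cases l <;> cases l' <;> simp only [nadj0, shiftL]
  · rename_i e β e' β'
    apply decide_eq_decide.2
    constructor
    · rintro ⟨rfl, rfl, rfl⟩; exact ⟨rfl, rfl, rfl⟩
    · rintro ⟨rfl, rfl, h3⟩; exact ⟨rfl, rfl, add_right_cancel h3⟩
  · rename_i e β e' β'
    apply decide_eq_decide.2
    constructor
    · rintro ⟨rfl, ⟨rfl, rfl⟩ | h2⟩
      · exact ⟨rfl, Or.inl ⟨rfl, rfl⟩⟩
      · exact ⟨by rw [h2.2.1], Or.inr h2⟩
    · rintro ⟨h1, ⟨rfl, rfl⟩ | h2⟩
      · exact ⟨add_right_cancel h1, Or.inl ⟨rfl, rfl⟩⟩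
      · rw [h2.2.1] at h1
        exact ⟨add_right_cancel h1, Or.inr h2⟩
  · rename_i β₀ β₁ e β
    apply decide_eq_decide.2
    have hm := mbit_shift (b₁ c) (b₂ c) β₀ β₁ (fun e => α (sv (3 * c + e))) e (by simpa using h)
    constructor
    · rintro ⟨rfl, rfl⟩; exact ⟨rfl, hm.symm⟩
    · rintro ⟨rfl, h2⟩
      exact ⟨rfl, add_right_cancel (h2.trans hm)⟩

omit [DecidableEq X] in
theorem ev_sl3 {C : ℕ} (sv : ℕ → X) (α : X → ZMod 2) (c : Fin C) :
    ev (sl3 C sv) α c = α (sv (3 * c)) + α (sv (3 * c + 1)) + α (sv (3 * c + 2)) := by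
  simp [ev, sl3, add_assoc]

/-- Duplicator transfers her strategy from the constraints to the graphs. -/
theorem neck_sound {C K : ℕ} {sv : ℕ → X} {b₁ b₂ : ℕ → ZMod 2}
    (h : Consistent (sl3 C sv) (fun c => b₁ c + b₂ c) K) :
    PEquiv (neckG C sv b₁) (neckG C sv b₂) K := by
  refine pequiv_of_consistent h Prod.fst Prod.fst
    (fun α v w => w = (v.1, shiftL (fun e => α (sv (3 * v.1 + e))) v.2)) ?_ ?_ ?_
  · intro c α _
    refine ⟨Function.Involutive.toPerm
      (fun v => ⟨(v.1.1, shiftL (fun e => α (sv (3 * v.1.1 + e))) v.1.2), v.2⟩) ?_, fun v => rfl⟩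
    rintro ⟨⟨c', l⟩, hv⟩
    simp only [shiftL_invol _ l]
  · rintro α α' ⟨c, l⟩ w rfl hα
    have : (fun e : Fin 3 => α' (sv (3 * c + e))) = fun e : Fin 3 => α (sv (3 * c + e)) := by
      funext e
      apply hα
      fin_cases e <;> simp [sl3]
    simp only [this]
  · rintro α ⟨c, l⟩ _ ⟨c', l'⟩ _ h1 h2 rfl rfl
    rw [ev_sl3] at h1 h2
    refine ⟨⟨?_, ?_⟩, ?_⟩
    · intro h; cases h; rfl
    · intro h
      obtain ⟨rfl, h4⟩ := Prod.ext_iff.1 h
      exact Prod.ext rfl ((shiftL_invol _).injective h4)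
    · simp only [neckG, nadj]
      rw [nadj0_shift sv b₁ b₂ α c c' l l' h1, nadj0_shift sv b₁ b₂ α c' c l' l h2]

theorem neck_iso {C : ℕ} {sv : ℕ → X} {b₁ b₂ : ℕ → ZMod 2}
    (h : Solvable (sl3 C sv) (fun c => b₁ c + b₂ c)) : BIso (neckG C sv b₁) (neckG C sv b₂) :=
  iso_of_pequiv (neck_sound (consistent_of_solvable h (Fintype.card (NV C) + 1))) (Nat.le_succ _)
    (Nat.le_add_left _ _)

end Crest.Agent.R290
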