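import Crest.Agent.R290.NeckBasic

/-!
# Row 290: the classes of the subcubic graph are rigid; Spoiler transfers his strategy
-/

set_option autoImplicit false

namespace Crest.Agent.R290

variable {X : Type} [DecidableEq X]

namespace NC

section adj
variable {C : ℕ} {sv : ℕ → X} {b : ℕ → ZMod 2}

theorem neckG_symm (x y : NV C) : neckG C sv b x y = neckG C sv b y x := nadj_symm _ _ _ _

theorem adj_d (v : NV C) (c : Fin C) (e : Fin 3) :
    neckG C sv b v (c, .d e) = true ↔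
      ∃ e', v.2 = .u e' ∧ ((v.1 = c ∧ e' = e) ∨ 3 * (c : ℕ) + e = 3 * v.1 + e' + 1) := by
  obtain ⟨c', l⟩ := v
  cases l <;> simp [neckG, nadj, nadj0, Fin.val_inj]

theorem adj_u (v : NV C) (c : Fin C) (e : Fin 3) :
    neckG C sv b v (c, .u e) = true ↔
      v = (c, .w e) ∨ ∃ e', v.2 = .d e' ∧ ((c = v.1 ∧ e = e') ∨ 3 * (v.1 : ℕ) + e' = 3 * c + e + 1) := by
  obtain ⟨c', l⟩ := v
  cases l <;> simp [neckG, nadj, nadj0, Fin.val_inj]

theorem adj_w (v : NV C) (c : Fin C) (e : Fin 3) :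
    neckG C sv b v (c, .w e) = true ↔ v = (c, .u e) ∨ ∃ β, v = (c, .Q e β) := by
  obtain ⟨c', l⟩ := v
  cases l <;> simp [neckG, nadj, nadj0, Fin.val_inj] <;> aesop

theorem adj_Q (v : NV C) (c : Fin C) (e : Fin 3) (β : ZMod 2) :
    neckG C sv b v (c, .Q e β) = true ↔
      v = (c, .w e) ∨ ∃ e', v.2 = .P e' β ∧
        ((v.1 = c ∧ e' = e) ∨ Nxt sv (3 * v.1 + e') (3 * c + e)) := by
  obtain ⟨c', l⟩ := v
  cases l <;> simp [neckG, nadj, nadj0, Fin.val_inj] <;> aesop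

theorem adj_P (v : NV C) (c : Fin C) (e : Fin 3) (β : ZMod 2) :
    neckG C sv b v (c, .P e β) = true ↔
      v = (c, .a e β) ∨ ∃ e', v.2 = .Q e' β ∧
        ((c = v.1 ∧ e = e') ∨ Nxt sv (3 * c + e) (3 * v.1 + e')) := by
  obtain ⟨c', l⟩ := v
  cases l <;> simp [neckG, nadj, nadj0, Fin.val_inj] <;> aesop

theorem adj_a (v : NV C) (c : Fin C) (e : Fin 3) (β : ZMod 2) :
    neckG C sv b v (c, .a e β) = true ↔
      v = (c, .P e β) ∨ ∃ β₀ β₁, v = (c, .mid β₀ β₁) ∧ β = mbit (b c) β₀ β₁ e := by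
  obtain ⟨c', l⟩ := v
  cases l <;> simp [neckG, nadj, nadj0, Fin.val_inj] <;> aesop

theorem adj_mid (v : NV C) (c : Fin C) (β₀ β₁ : ZMod 2) :
    neckG C sv b v (c, .mid β₀ β₁) = true ↔ ∃ e, v = (c, .a e (mbit (b c) β₀ β₁ e)) := by
  obtain ⟨c', l⟩ := v
  cases l <;> simp [neckG, nadj, nadj0, Fin.val_inj] <;> aesop

theorem exists_mbit (t β : ZMod 2) (e : Fin 3) : ∃ β₀ β₁, β = mbit t β₀ β₁ e := by
  revert t β e
  decide

end adj

/-- A bisimulation. -/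
def Bis (C : ℕ) (sv : ℕ → X) (b₁ b₂ : ℕ → ZMod 2) (R : NV C → NV C → Prop) : Prop :=
  ∀ v v', R v v' → ∃ φ : NV C ≃ NV C, ∀ z,
    neckG C sv b₁ v z = neckG C sv b₂ v' (φ z) ∧ R z (φ z)

theorem Bis.symm {C : ℕ} {sv : ℕ → X} {b₁ b₂ : ℕ → ZMod 2} {R : NV C → NV C → Prop}
    (h : Bis C sv b₁ b₂ R) : Bis C sv b₂ b₁ (fun x y => R y x) := by
  intro v v' hv
  obtain ⟨φ, hφ⟩ := h v' v hv
  refine ⟨φ.symm, fun z => ?_⟩
  have := hφ (φ.symm z)
  rw [Equiv.apply_symm_apply] at this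
  exact ⟨this.1.symm, this.2⟩

/-- The class `k` is respected by all bisimulations. -/
def Fix (C : ℕ) (sv : ℕ → X) (k : NV C) : Prop :=
  ∀ (b₁ b₂ : ℕ → ZMod 2) (R : NV C → NV C → Prop), Bis C sv b₁ b₂ R →
    ∀ v v', R v v' → cls v = k → cls v' = k

/-- At least two neighbours. -/
def Two (C : ℕ) (sv : ℕ → X) (b : ℕ → ZMod 2) (v : NV C) : Prop :=
  ∃ z₁ z₂, z₁ ≠ z₂ ∧ neckG C sv b z₁ v = true ∧ neckG C sv b z₂ v = true

/-- At least three neighbours. -/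
def Three (C : ℕ) (sv : ℕ → X) (b : ℕ → ZMod 2) (v : NV C) : Prop :=
  ∃ z₁ z₂ z₃, z₁ ≠ z₂ ∧ z₁ ≠ z₃ ∧ z₂ ≠ z₃ ∧ neckG C sv b z₁ v = true ∧ neckG C sv b z₂ v = true ∧
    neckG C sv b z₃ v = true

section fix
variable {C : ℕ} {sv : ℕ → X}

theorem Bis.two {b₁ b₂ : ℕ → ZMod 2} {R : NV C → NV C → Prop} (h : Bis C sv b₁ b₂ R) {v v' : NV C}
    (hv : R v v') (h2 : Two C sv b₁ v) : Two C sv b₂ v' := by
  obtain ⟨φ, hφ⟩ := h v v' hv
  obtain ⟨z₁, z₂, hne, h1, h2⟩ := h2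
  refine ⟨φ z₁, φ z₂, fun e => hne (φ.injective e), ?_, ?_⟩
  · rw [neckG_symm, ← (hφ z₁).1, neckG_symm]; exact h1
  · rw [neckG_symm, ← (hφ z₂).1, neckG_symm]; exact h2

theorem Bis.three {b₁ b₂ : ℕ → ZMod 2} {R : NV C → NV C → Prop} (h : Bis C sv b₁ b₂ R)
    {v v' : NV C} (hv : R v v') (h3 : Three C sv b₁ v) : Three C sv b₂ v' := by
  obtain ⟨φ, hφ⟩ := h v v' hv
  obtain ⟨z₁, z₂, z₃, h12, h13, h23, h1, h2, h3⟩ := h3
  refine ⟨φ z₁, φ z₂, φ z₃, fun e => h12 (φ.injective e), fun e => h13 (φ.injective e),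
    fun e => h23 (φ.injective e), ?_, ?_, ?_⟩
  · rw [neckG_symm, ← (hφ z₁).1, neckG_symm]; exact h1
  · rw [neckG_symm, ← (hφ z₂).1, neckG_symm]; exact h2
  · rw [neckG_symm, ← (hφ z₃).1, neckG_symm]; exact h3

theorem Fix.step {k k₀ : NV C} (h0 : Fix C sv k₀)
    (h1 : ∀ (b : ℕ → ZMod 2) v, cls v = k → ∃ z, cls z = k₀ ∧ neckG C sv b v z = true)
    (h2 : ∀ (b : ℕ → ZMod 2) v z, cls z = k₀ → neckG C sv b v z = true →
      cls v = k ∨ Fix C sv (cls v) ∨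
        (¬ Three C sv b v ∧ ∀ (b' : ℕ → ZMod 2) y, cls y = k → Three C sv b' y)) :
    Fix C sv k := by
  intro b₁ b₂ R hR v v' hv hk
  obtain ⟨z, hz, hvz⟩ := h1 b₁ v hk
  obtain ⟨φ, hφ⟩ := hR v v' hv
  have hz' : cls (φ z) = k₀ := h0 b₁ b₂ R hR z (φ z) (hφ z).2 hz
  have hadj : neckG C sv b₂ v' (φ z) = true := by rw [← (hφ z).1]; exact hvz
  rcases h2 b₂ v' (φ z) hz' hadj with h | h | ⟨h, h'⟩
  · exact h
  · rw [← hk]
    exact (h b₂ b₁ _ hR.symm v' v hv rfl).symm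
  · exact absurd (hR.three hv (h' b₁ v hk)) h

theorem cls_d {v : NV C} {c : Fin C} {e : Fin 3} : cls v = (c, .d e) ↔ v = (c, .d e) := by
  obtain ⟨c', l⟩ := v
  cases l <;> simp [cls, Loc.cls]

theorem cls_u {v : NV C} {c : Fin C} {e : Fin 3} : cls v = (c, .u e) ↔ v = (c, .u e) := by
  obtain ⟨c', l⟩ := v
  cases l <;> simp [cls, Loc.cls]

theorem cls_w {v : NV C} {c : Fin C} {e : Fin 3} : cls v = (c, .w e) ↔ v = (c, .w e) := by
  obtain ⟨c', l⟩ := v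
  cases l <;> simp [cls, Loc.cls]

theorem cls_Q {v : NV C} {c : Fin C} {e : Fin 3} :
    cls v = (c, .Q e 0) ↔ ∃ β, v = (c, .Q e β) := by
  obtain ⟨c', l⟩ := v
  cases l <;> simp [cls, Loc.cls]

theorem cls_P {v : NV C} {c : Fin C} {e : Fin 3} :
    cls v = (c, .P e 0) ↔ ∃ β, v = (c, .P e β) := by
  obtain ⟨c', l⟩ := v
  cases l <;> simp [cls, Loc.cls]

theorem cls_a {v : NV C} {c : Fin C} {e : Fin 3} :
    cls v = (c, .a e 0) ↔ ∃ β, v = (c, .a e β) := by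
  obtain ⟨c', l⟩ := v
  cases l <;> simp [cls, Loc.cls]

theorem cls_mid {v : NV C} {c : Fin C} :
    cls v = (c, .mid 0 0) ↔ ∃ β₀ β₁, v = (c, .mid β₀ β₁) := by
  obtain ⟨c', l⟩ := v
  cases l <;> simp [cls, Loc.cls]

/-- The predecessor of a positive occurrence. -/
theorem exists_pred (c : Fin C) (e : Fin 3) (h : 0 < 3 * (c : ℕ) + e) :
    ∃ (c' : Fin C) (e' : Fin 3), 3 * (c : ℕ) + e = 3 * c' + e' + 1 := by
  have hc := c.2
  have he := e.2
  exact ⟨⟨(3 * (c : ℕ) + e - 1) / 3, by omega⟩, ⟨(3 * (c : ℕ) + e - 1) % 3, by omega⟩, by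
    simp only; omega⟩

theorem occ_inj {c c' : Fin C} {e e' : Fin 3} (h : 3 * (c : ℕ) + e = 3 * c' + e') :
    c = c' ∧ e = e' := by
  have he := e.2
  have he' := e'.2
  exact ⟨Fin.ext (by omega), Fin.ext (by omega)⟩

theorem two_of_ne (b : ℕ → ZMod 2) (v : NV C)
    (h : ∀ e, v.2 = .d e → 0 < 3 * (v.1 : ℕ) + e) : Two C sv b v := by
  obtain ⟨c, l⟩ := v
  cases l with
  | a e β =>
    obtain ⟨β₀, β₁, hβ⟩ := exists_mbit (b c) β e
    exact ⟨(c, .P e β), (c, .mid β₀ β₁), by simp, (adj_a _ _ _ _).2 (.inl rfl),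
      (adj_a _ _ _ _).2 (.inr ⟨_, _, rfl, hβ⟩)⟩
  | P e β =>
    exact ⟨(c, .a e β), (c, .Q e β), by simp, (adj_P _ _ _ _).2 (.inl rfl),
      (adj_P _ _ _ _).2 (.inr ⟨_, rfl, .inl ⟨rfl, rfl⟩⟩)⟩
  | Q e β =>
    exact ⟨(c, .w e), (c, .P e β), by simp, (adj_Q _ _ _ _).2 (.inl rfl),
      (adj_Q _ _ _ _).2 (.inr ⟨_, rfl, .inl ⟨rfl, rfl⟩⟩)⟩
  | w e =>
    exact ⟨(c, .u e), (c, .Q e 0), by simp, (adj_w _ _ _).2 (.inl rfl),
      (adj_w _ _ _).2 (.inr ⟨_, rfl⟩)⟩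
  | u e =>
    exact ⟨(c, .w e), (c, .d e), by simp, (adj_u _ _ _).2 (.inl rfl),
      (adj_u _ _ _).2 (.inr ⟨_, rfl, .inl ⟨rfl, rfl⟩⟩)⟩
  | d e =>
    obtain ⟨c', e', h'⟩ := exists_pred c e (h e rfl)
    refine ⟨(c, .u e), (c', .u e'), ?_, (adj_d _ _ _).2 ⟨_, rfl, .inl ⟨rfl, rfl⟩⟩,
      (adj_d _ _ _).2 ⟨_, rfl, .inr h'⟩⟩
    intro hh
    simp only [Prod.mk.injEq, Loc.u.injEq] at hh
    obtain ⟨rfl, rfl⟩ := hh
    omega
  | mid β₀ β₁ =>
    exact ⟨(c, .a 0 _), (c, .a 1 _), by simp, (adj_mid _ _ _ _).2 ⟨0, rfl⟩,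
      (adj_mid _ _ _ _).2 ⟨1, rfl⟩⟩

theorem not_two_d0 (b : ℕ → ZMod 2) (c : Fin C) (e : Fin 3) (h : 3 * (c : ℕ) + e = 0) :
    ¬ Two C sv b (c, .d e) := by
  rintro ⟨⟨c₁, l₁⟩, ⟨c₂, l₂⟩, hne, h1, h2⟩
  obtain ⟨e₁, h1, h1'⟩ := (adj_d _ _ _).1 h1
  obtain ⟨e₂, h2, h2'⟩ := (adj_d _ _ _).1 h2
  simp only at h1 h2 h1' h2'
  subst h1 h2
  rcases h1' with ⟨rfl, rfl⟩ | h1'
  · rcases h2' with ⟨rfl, rfl⟩ | h2'
    · exact hne rfl
    · omega
  · omega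

theorem not_three_d (b : ℕ → ZMod 2) (c : Fin C) (e : Fin 3) : ¬ Three C sv b (c, .d e) := by
  rintro ⟨⟨c₁, l₁⟩, ⟨c₂, l₂⟩, ⟨c₃, l₃⟩, h12, h13, h23, h1, h2, h3⟩
  obtain ⟨e₁, h1, h1'⟩ := (adj_d _ _ _).1 h1
  obtain ⟨e₂, h2, h2'⟩ := (adj_d _ _ _).1 h2
  obtain ⟨e₃, h3, h3'⟩ := (adj_d _ _ _).1 h3
  simp only at h1 h2 h3 h1' h2' h3'
  subst h1 h2 h3
  have key : ∀ {c c' : Fin C} {e e' : Fin 3}, ((c, Loc.u e) : NV C) ≠ (c', Loc.u e') →
      3 * (c : ℕ) + e ≠ 3 * c' + e' := by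
    intro c c' e e' hne hh
    obtain ⟨rfl, rfl⟩ := occ_inj hh
    exact hne rfl
  have k12 := key h12
  have k13 := key h13
  have k23 := key h23
  rcases h1' with ⟨rfl, rfl⟩ | h1' <;> rcases h2' with ⟨h2', h2''⟩ | h2' <;>
    rcases h3' with ⟨h3', h3''⟩ | h3' <;> (try subst h2' h2'') <;> (try subst h3' h3'') <;> omega

theorem three_w (b : ℕ → ZMod 2) (c : Fin C) (e : Fin 3) : Three C sv b (c, .w e) :=
  ⟨(c, .u e), (c, .Q e 0), (c, .Q e 1), by simp, by simp, by simp, (adj_w _ _ _).2 (.inl rfl),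
    (adj_w _ _ _).2 (.inr ⟨_, rfl⟩), (adj_w _ _ _).2 (.inr ⟨_, rfl⟩)⟩

theorem fix_d0 (c : Fin C) (e : Fin 3) (h : 3 * (c : ℕ) + e = 0) : Fix C sv (c, .d e) := by
  intro b₁ b₂ R hR v v' hv hk
  rw [cls_d] at hk ⊢
  subst hk
  by_contra hne
  refine not_two_d0 b₁ c e h (hR.symm.two hv (two_of_ne b₂ v' ?_))
  intro e' he'
  by_contra h0
  obtain ⟨c', l⟩ := v'
  simp only at he' h0
  subst he'
  obtain ⟨rfl, rfl⟩ := occ_inj (show 3 * (c' : ℕ) + e' = 3 * c + e by omega)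
  exact hne rfl

theorem fix_spine (n : ℕ) : ∀ (c : Fin C) (e : Fin 3), 3 * (c : ℕ) + e = n →
    Fix C sv (c, .d e) ∧ Fix C sv (c, .u e) ∧ Fix C sv (c, .w e) := by
  induction n using Nat.strong_induction_on with
  | _ n ih =>
    intro c e hn
    have hd : Fix C sv (c, .d e) := by
      rcases Nat.eq_zero_or_pos n with h0 | hpos
      · exact fix_d0 c e (by omega)
      · obtain ⟨c', e', h'⟩ := exists_pred c e (by omega)
        obtain ⟨i1, i2, i3⟩ := ih (3 * c' + e') (by omega) c' e' rfl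
        refine Fix.step i2 ?_ ?_
        · intro b v hv
          rw [cls_d] at hv
          subst hv
          exact ⟨(c', .u e'), rfl, (adj_u _ _ _).2 (.inr ⟨e, rfl, .inr h'⟩)⟩
        · intro b v z hz hadj
          rw [cls_u] at hz
          subst hz
          rcases (adj_u _ _ _).1 hadj with rfl | ⟨e'', h1, h2⟩
          · exact .inr (.inl i3)
          · obtain ⟨c'', l⟩ := v
            simp only at h1 h2
            subst h1
            rcases h2 with ⟨rfl, rfl⟩ | h2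
            · exact .inr (.inl i1)
            · obtain ⟨rfl, rfl⟩ := occ_inj (show 3 * (c'' : ℕ) + e'' = 3 * c + e by omega)
              exact .inl rfl
    have hu : Fix C sv (c, .u e) := by
      refine Fix.step hd ?_ ?_
      · intro b v hv
        rw [cls_u] at hv
        subst hv
        exact ⟨(c, .d e), rfl, (adj_d _ _ _).2 ⟨e, rfl, .inl ⟨rfl, rfl⟩⟩⟩
      · intro b v z hz hadj
        rw [cls_d] at hz
        subst hz
        obtain ⟨e', h1, h2⟩ := (adj_d _ _ _).1 hadj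
        obtain ⟨c', l⟩ := v
        simp only at h1 h2
        subst h1
        rcases h2 with ⟨rfl, rfl⟩ | h2
        · exact .inl rfl
        · exact .inr (.inl (ih (3 * c' + e') (by omega) c' e' rfl).2.1)
    refine ⟨hd, hu, Fix.step hu ?_ ?_⟩
    · intro b v hv
      rw [cls_w] at hv
      subst hv
      exact ⟨(c, .u e), rfl, (adj_u _ _ _).2 (.inl rfl)⟩
    · intro b v z hz hadj
      rw [cls_u] at hz
      subst hz
      rcases (adj_u _ _ _).1 hadj with rfl | ⟨e'', h1, -⟩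
      · exact .inl rfl
      · obtain ⟨c'', l⟩ := v
        simp only at h1
        subst h1
        refine .inr (.inr ⟨not_three_d b _ _, fun b' y hy => ?_⟩)
        rw [cls_w] at hy
        subst hy
        exact three_w b' _ _

theorem fix_Q (c : Fin C) (e : Fin 3) : Fix C sv (c, .Q e 0) := by
  obtain ⟨-, hu, hw⟩ := fix_spine (sv := sv) _ c e rfl
  refine Fix.step hw ?_ ?_
  · intro b v hv
    obtain ⟨β, rfl⟩ := cls_Q.1 hv
    exact ⟨(c, .w e), rfl, (adj_w _ _ _).2 (.inr ⟨β, rfl⟩)⟩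
  · intro b v z hz hadj
    rw [cls_w] at hz
    subst hz
    rcases (adj_w _ _ _).1 hadj with rfl | ⟨β, rfl⟩
    · exact .inr (.inl hu)
    · exact .inl rfl

theorem fix_P (n : ℕ) : ∀ (c : Fin C) (e : Fin 3), 3 * (c : ℕ) + e = n → Fix C sv (c, .P e 0) := by
  induction n using Nat.strong_induction_on with
  | _ n ih =>
    intro c e hn
    refine Fix.step (fix_Q c e) ?_ ?_
    · intro b v hv
      obtain ⟨β, rfl⟩ := cls_P.1 hv
      exact ⟨(c, .Q e β), rfl, (adj_Q _ _ _ _).2 (.inr ⟨e, rfl, .inl ⟨rfl, rfl⟩⟩)⟩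
    · intro b v z hz hadj
      obtain ⟨β, rfl⟩ := cls_Q.1 hz
      rcases (adj_Q _ _ _ _).1 hadj with rfl | ⟨e', h1, h2⟩
      · exact .inr (.inl (fix_spine _ c e rfl).2.2)
      · obtain ⟨c', l⟩ := v
        simp only at h1 h2
        subst h1
        rcases h2 with ⟨rfl, rfl⟩ | h2
        · exact .inl rfl
        · exact .inr (.inl (ih (3 * c' + e') (by have := h2.1; omega) c' e' rfl))

theorem fix_a (c : Fin C) (e : Fin 3) : Fix C sv (c, .a e 0) := by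
  refine Fix.step (fix_P _ c e rfl) ?_ ?_
  · intro b v hv
    obtain ⟨β, rfl⟩ := cls_a.1 hv
    exact ⟨(c, .P e β), rfl, (adj_P _ _ _ _).2 (.inl rfl)⟩
  · intro b v z hz hadj
    obtain ⟨β, rfl⟩ := cls_P.1 hz
    rcases (adj_P _ _ _ _).1 hadj with rfl | ⟨e', h1, -⟩
    · exact .inl rfl
    · obtain ⟨c', l⟩ := v
      simp only at h1
      subst h1
      exact .inr (.inl (fix_Q c' e'))

theorem fix_mid (c : Fin C) : Fix C sv (c, .mid 0 0) := by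
  refine Fix.step (fix_a c 0) ?_ ?_
  · intro b v hv
    obtain ⟨β₀, β₁, rfl⟩ := cls_mid.1 hv
    exact ⟨(c, .a 0 _), rfl, (adj_a _ _ _ _).2 (.inr ⟨β₀, β₁, rfl, rfl⟩)⟩
  · intro b v z hz hadj
    obtain ⟨β, rfl⟩ := cls_a.1 hz
    rcases (adj_a _ _ _ _).1 hadj with rfl | ⟨β₀, β₁, rfl, -⟩
    · exact .inr (.inl (fix_P _ c 0 rfl))
    · exact .inl rfl

theorem fix_all (v : NV C) : Fix C sv (cls v) := by
  obtain ⟨c, l⟩ := v
  cases l with
  | a e β => exact fix_a c e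
  | P e β => exact fix_P _ c e rfl
  | Q e β => exact fix_Q c e
  | w e => exact (fix_spine _ c e rfl).2.2
  | u e => exact (fix_spine _ c e rfl).2.1
  | d e => exact (fix_spine _ c e rfl).1
  | mid β₀ β₁ => exact fix_mid c

end fix

end NC

/-- A bisimulation between two graphs of the same system respects the classes. -/
theorem cls_eq_of_bisim {C : ℕ} {sv : ℕ → X} {b₁ b₂ : ℕ → ZMod 2} (R : NV C → NV C → Prop)
    (hR : ∀ v v', R v v' → ∃ φ : NV C ≃ NV C, ∀ z,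
      neckG C sv b₁ v z = neckG C sv b₂ v' (φ z) ∧ R z (φ z))
    {v v' : NV C} (h : R v v') : cls v = cls v' :=
  (NC.fix_all v b₁ b₂ R hR v v' h rfl).symm

/-- In the game with at least two pebbles, pebbled vertices have equal classes. -/
theorem Game.cls_eq {C K : ℕ} {sv : ℕ → X} {b₁ b₂ : ℕ → ZMod 2} {P : Set (Finset (NV C × NV C))}
    (h : Game (neckG C sv b₁) (neckG C sv b₂) K P) (hK : 2 ≤ K) {p : Finset (NV C × NV C)}
    (hp : p ∈ P) {a : NV C × NV C} (ha : a ∈ p) : cls a.1 = cls a.2 := by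
  refine cls_eq_of_bisim (sv := sv) (b₁ := b₁) (b₂ := b₂)
    (fun v v' => ({(v, v')} : Finset (NV C × NV C)) ∈ P) ?_
    (h.sub p hp _ (Finset.singleton_subset_iff.2 ha))
  intro v v' hv
  obtain ⟨φ, hφ⟩ := h.ext _ hv (by rw [Finset.card_singleton]; omega)
  refine ⟨φ, fun z => ⟨?_, ?_⟩⟩
  · exact (h.iso _ (hφ z) (v, v') (by simp) (z, φ z) (by simp)).2
  · exact h.sub _ (hφ z) _ (by simp)

namespace NC

section walk
variable {C K : ℕ} {sv : ℕ → X} {b₁ b₂ : ℕ → ZMod 2} {P : Set (Finset (NV C × NV C))}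

/-- Moving an extra pebble along an edge. -/
theorem move (h : Game (neckG C sv b₁) (neckG C sv b₂) (K + 2) P) {p : Finset (NV C × NV C)}
    (hc : p.card ≤ K) {z z' : NV C} (hz : insert (z, z') p ∈ P) (y : NV C)
    (hy : neckG C sv b₁ y z = true) :
    ∃ y', insert (y, y') p ∈ P ∧ cls y' = cls y ∧ neckG C sv b₂ y' z' = true := by
  obtain ⟨φ, hφ⟩ := h.ext _ hz (by have := Finset.card_insert_le (z, z') p; omega)
  refine ⟨φ y, h.sub _ (hφ y) _ ?_, ?_, ?_⟩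
  · exact Finset.insert_subset_insert _ (Finset.subset_insert _ _)
  · exact (h.cls_eq (by omega) (hφ y) (Finset.mem_insert_self _ _)).symm
  · rw [← hy]
    exact ((h.iso _ (hφ y) (y, φ y) (by simp) (z, z') (by simp)).2).symm

theorem move_PQ (h : Game (neckG C sv b₁) (neckG C sv b₂) (K + 2) P) {p : Finset (NV C × NV C)}
    (hc : p.card ≤ K) {c c' : Fin C} {e e' : Fin 3} {x x' : ZMod 2}
    (hz : insert ((c, .P e x), (c, .P e x')) p ∈ P)
    (ho : (c = c' ∧ e = e') ∨ Nxt sv (3 * c + e) (3 * c' + e')) :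
    insert ((c', .Q e' x), (c', .Q e' x')) p ∈ P := by
  obtain ⟨y', h1, h2, h3⟩ := move h hc hz (c', .Q e' x) ((adj_P _ _ _ _).2 (.inr ⟨e', rfl, ho⟩))
  obtain ⟨β, rfl⟩ := cls_Q.1 h2
  rcases (adj_P _ _ _ _).1 h3 with h4 | ⟨e'', h4, -⟩
  · simp at h4
  · simp only [Loc.Q.injEq] at h4
    rw [← h4.2]; exact h1

theorem move_QP (h : Game (neckG C sv b₁) (neckG C sv b₂) (K + 2) P) {p : Finset (NV C × NV C)}
    (hc : p.card ≤ K) {c c' : Fin C} {e e' : Fin 3} {x x' : ZMod 2}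
    (hz : insert ((c', .Q e' x), (c', .Q e' x')) p ∈ P)
    (ho : (c = c' ∧ e = e') ∨ Nxt sv (3 * c + e) (3 * c' + e')) :
    insert ((c, .P e x), (c, .P e x')) p ∈ P := by
  obtain ⟨y', h1, h2, h3⟩ := move h hc hz (c, .P e x) ((adj_Q _ _ _ _).2 (.inr ⟨e, rfl, ho⟩))
  obtain ⟨β, rfl⟩ := cls_P.1 h2
  rcases (adj_Q _ _ _ _).1 h3 with h4 | ⟨e'', h4, -⟩
  · simp at h4
  · simp only [Loc.P.injEq] at h4
    rw [← h4.2]; exact h1

theorem move_aP (h : Game (neckG C sv b₁) (neckG C sv b₂) (K + 2) P) {p : Finset (NV C × NV C)}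
    (hc : p.card ≤ K) {c : Fin C} {e : Fin 3} {x x' : ZMod 2}
    (hz : insert ((c, .a e x), (c, .a e x')) p ∈ P) :
    insert ((c, .P e x), (c, .P e x')) p ∈ P := by
  obtain ⟨y', h1, h2, h3⟩ := move h hc hz (c, .P e x) ((adj_a _ _ _ _).2 (.inl rfl))
  obtain ⟨β, rfl⟩ := cls_P.1 h2
  rcases (adj_a _ _ _ _).1 h3 with h4 | ⟨β₀, β₁, h4, -⟩
  · rw [← h4]; exact h1
  · simp at h4

theorem move_Pa (h : Game (neckG C sv b₁) (neckG C sv b₂) (K + 2) P) {p : Finset (NV C × NV C)}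
    (hc : p.card ≤ K) {c : Fin C} {e : Fin 3} {x x' : ZMod 2}
    (hz : insert ((c, .P e x), (c, .P e x')) p ∈ P) :
    insert ((c, .a e x), (c, .a e x')) p ∈ P := by
  obtain ⟨y', h1, h2, h3⟩ := move h hc hz (c, .a e x) ((adj_P _ _ _ _).2 (.inl rfl))
  obtain ⟨β, rfl⟩ := cls_a.1 h2
  rcases (adj_P _ _ _ _).1 h3 with h4 | ⟨e', h4, -⟩
  · rw [← h4]; exact h1
  · simp at h4

theorem move_mid (h : Game (neckG C sv b₁) (neckG C sv b₂) (K + 2) P) {p : Finset (NV C × NV C)}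
    (hp : p ∈ P) (hc : p.card ≤ K) {c : Fin C} {x₀ x₁ y₀ y₁ : ZMod 2}
    (hz : ((c, .mid x₀ x₁), (c, .mid y₀ y₁)) ∈ p) (e : Fin 3) :
    insert ((c, .a e (mbit (b₁ c) x₀ x₁ e)), (c, .a e (mbit (b₂ c) y₀ y₁ e))) p ∈ P := by
  obtain ⟨y', h1, h2, h3⟩ := move h hc (by rw [Finset.insert_eq_of_mem hz]; exact hp)
    (c, .a e (mbit (b₁ c) x₀ x₁ e)) ((adj_mid _ _ _ _).2 ⟨e, rfl⟩)
  obtain ⟨β, rfl⟩ := cls_a.1 h2
  obtain ⟨e', h4⟩ := (adj_mid _ _ _ _).1 h3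
  simp only [Prod.mk.injEq, Loc.a.injEq, true_and] at h4
  obtain ⟨rfl, rfl⟩ := h4
  exact h1

theorem walk (h : Game (neckG C sv b₁) (neckG C sv b₂) (K + 2) P) {p : Finset (NV C × NV C)}
    (hc : p.card ≤ K) (x x' : ZMod 2) (n : ℕ) : ∀ (c c' : Fin C) (e e' : Fin 3),
      3 * (c' : ℕ) + e' = 3 * c + e + n → sv (3 * c + e) = sv (3 * c' + e') →
      (insert ((c, .P e x), (c, .P e x')) p ∈ P ↔ insert ((c', .P e' x), (c', .P e' x')) p ∈ P) := by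
  induction n using Nat.strong_induction_on with
  | _ n ih =>
    intro c c' e e' hn hsv
    rcases Nat.eq_zero_or_pos n with h0 | hpos
    · obtain ⟨rfl, rfl⟩ := occ_inj (show 3 * (c' : ℕ) + e' = 3 * c + e by omega)
      exact Iff.rfl
    · have hex : ∃ o, 3 * (c : ℕ) + e < o ∧ sv o = sv (3 * c + e) := ⟨_, by omega, hsv.symm⟩
      have hle : Nat.find hex ≤ 3 * (c' : ℕ) + e' := Nat.find_min' hex ⟨by omega, hsv.symm⟩
      have hspec := Nat.find_spec hex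
      have hc' := c'.2
      have he' := e'.2
      obtain ⟨c'', e'', ho⟩ : ∃ (c'' : Fin C) (e'' : Fin 3), 3 * (c'' : ℕ) + e'' = Nat.find hex :=
        ⟨⟨Nat.find hex / 3, by omega⟩, ⟨Nat.find hex % 3, by omega⟩, by simp only; omega⟩
      have hN : Nxt sv (3 * c + e) (3 * c'' + e'') := by
        rw [ho]
        exact ⟨hspec.1, hspec.2.symm, fun o'' h1 h2 h3 => Nat.find_min hex h1 ⟨h2, h3⟩⟩
      rw [← ih (3 * c' + e' - (3 * c'' + e'')) (by omega) c'' c' e'' e' (by omega)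
        (by rw [ho, hspec.2, hsv])]
      constructor
      · intro hz
        exact move_QP h hc (move_PQ h hc hz (.inr hN)) (.inl ⟨rfl, rfl⟩)
      · intro hz
        exact move_QP h hc (move_PQ h hc hz (.inl ⟨rfl, rfl⟩)) (.inr hN)

/-- Two pebbled occurrences of one variable have equal shifts. -/
theorem shift_eq (h : Game (neckG C sv b₁) (neckG C sv b₂) (K + 2) P) {p : Finset (NV C × NV C)}
    (hp : p ∈ P) (hc : p.card ≤ K) {c c' : Fin C} {x₀ x₁ y₀ y₁ x₀' x₁' y₀' y₁' : ZMod 2}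
    (hz : ((c, .mid x₀ x₁), (c, .mid y₀ y₁)) ∈ p)
    (hz' : ((c', .mid x₀' x₁'), (c', .mid y₀' y₁')) ∈ p) {e e' : Fin 3}
    (hsv : sv (3 * c + e) = sv (3 * c' + e')) :
    mbit (b₁ c) x₀ x₁ e + mbit (b₂ c) y₀ y₁ e = mbit (b₁ c') x₀' x₁' e' + mbit (b₂ c') y₀' y₁' e' := by
  have h1 := move_aP h hc (move_mid h hp hc hz e)
  have h2 : insert ((c', .P e' (mbit (b₁ c) x₀ x₁ e)), (c', .P e' (mbit (b₂ c) y₀ y₁ e))) p ∈ P := by
    rcases le_total (3 * (c : ℕ) + e) (3 * c' + e') with hle | hle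
    · exact (walk h hc _ _ (3 * c' + e' - (3 * c + e)) c c' e e' (by omega) hsv).1 h1
    · exact (walk h hc _ _ (3 * c + e - (3 * c' + e')) c' c e' e (by omega) hsv.symm).2 h1
  have h3 := move_Pa h hc h2
  have h4 := (h.iso _ h3 _ (Finset.mem_insert_of_mem hz') _ (Finset.mem_insert_self _ _)).2
  simp only at h4
  have h5 : mbit (b₁ c) x₀ x₁ e = mbit (b₁ c') x₀' x₁' e' ↔
      mbit (b₂ c) y₀ y₁ e = mbit (b₂ c') y₀' y₁' e' := by
    have := Bool.eq_iff_iff.1 h4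
    rw [adj_a, adj_a] at this
    simpa using this
  generalize mbit (b₁ c) x₀ x₁ e = s₁ at h5 ⊢
  generalize mbit (b₂ c) y₀ y₁ e = s₂ at h5 ⊢
  generalize mbit (b₁ c') x₀' x₁' e' = s₃ at h5 ⊢
  generalize mbit (b₂ c') y₀' y₁' e' = s₄ at h5 ⊢
  revert s₁ s₂ s₃ s₄
  decide

end walk

omit [DecidableEq X] in
theorem mem_sl3 {C : ℕ} {sv : ℕ → X} {c : Fin C} {x : X} :
    x ∈ sl3 C sv c ↔ ∃ e : Fin 3, sv (3 * c + e) = x := by
  simp [sl3, Fin.exists_fin_succ, eq_comm]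

omit [DecidableEq X] in
theorem ev_sl3 {C : ℕ} {sv : ℕ → X} (c : Fin C) (α : X → ZMod 2) :
    ev (sl3 C sv) α c = α (sv (3 * c)) + α (sv (3 * c + 1)) + α (sv (3 * c + 2)) := by
  simp [ev, sl3, add_assoc]

theorem shift_val (t₁ t₂ a₀ a₁ a₂ : ZMod 2) (h : a₀ + a₁ + a₂ = t₁ + t₂) :
    mbit t₁ 0 0 0 + mbit t₂ a₀ a₁ 0 = a₀ ∧ mbit t₁ 0 0 1 + mbit t₂ a₀ a₁ 1 = a₁ ∧
      mbit t₁ 0 0 2 + mbit t₂ a₀ a₁ 2 = a₂ := by
  revert t₁ t₂ a₀ a₁ a₂
  decide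

theorem shift_sum (t₁ t₂ a₀ a₁ : ZMod 2) :
    mbit t₁ 0 0 0 + mbit t₂ a₀ a₁ 0 = a₀ ∧ mbit t₁ 0 0 1 + mbit t₂ a₀ a₁ 1 = a₁ ∧
      a₀ + a₁ + (mbit t₁ 0 0 2 + mbit t₂ a₀ a₁ 2) = t₁ + t₂ := by
  revert t₁ t₂ a₀ a₁
  decide

end NC

open NC in
theorem neck_complete {C K : ℕ} {sv : ℕ → X} {b₁ b₂ : ℕ → ZMod 2}
    (h : PEquiv (neckG C sv b₁) (neckG C sv b₂) (K + 2)) :
    Consistent (sl3 C sv) (fun c => b₁ c + b₂ c) K := by
  classical
  obtain ⟨P, h⟩ := h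
  let pr : (X → ZMod 2) → Fin C → NV C × NV C := fun α c =>
    ((c, .mid 0 0), (c, .mid (α (sv (3 * c))) (α (sv (3 * c + 1)))))
  refine ⟨{z | z.1.card ≤ K ∧ z.1.image (pr z.2) ∈ P ∧
    ∀ c ∈ z.1, ev (sl3 C sv) z.2 c = b₁ c + b₂ c}, ?_, ?_, ?_, ?_⟩
  · exact ⟨0, by simp, by simpa using h.empty, by simp⟩
  · rintro S α ⟨h1, h2, h3⟩ S' hS'
    exact ⟨(Finset.card_le_card hS').trans h1, h.sub _ h2 _ (Finset.image_subset_image hS'),
      fun c hc => h3 c (hS' hc)⟩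
  · rintro S α ⟨-, -, h3⟩ c hc
    exact h3 c hc
  · rintro S α ⟨-, h2, h3⟩ hS c
    simp only at h2 h3
    have hcard : (S.image (pr α)).card < K := lt_of_le_of_lt Finset.card_image_le hS
    obtain ⟨φ, hφ⟩ := h.ext _ h2 (by omega)
    have hp := hφ (c, .mid 0 0)
    obtain ⟨y₀, y₁, hy⟩ := cls_mid.1 (h.cls_eq (by omega) hp (Finset.mem_insert_self _ _)).symm
    simp only at hy
    rw [hy] at hp
    have hc' : (insert (((c, Loc.mid 0 0), (c, Loc.mid y₀ y₁)) : NV C × NV C)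
        (S.image (pr α))).card ≤ K := (Finset.card_insert_le _ _).trans hcard
    let s : Fin 3 → ZMod 2 := fun e => mbit (b₁ c) 0 0 e + mbit (b₂ c) y₀ y₁ e
    let α' : X → ZMod 2 := fun x => if hx : ∃ e : Fin 3, sv (3 * c + e) = x then s hx.choose else α x
    have hα1 : ∀ e : Fin 3, α' (sv (3 * c + e)) = s e := by
      intro e
      have hx : ∃ e' : Fin 3, sv (3 * c + e') = sv (3 * c + e) := ⟨e, rfl⟩
      simp only [α', dif_pos hx]
      exact shift_eq h hp hc' (Finset.mem_insert_self _ _) (Finset.mem_insert_self _ _)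
        hx.choose_spec
    have hα2 : ∀ c' ∈ S, ∀ x ∈ sl3 C sv c', α' x = α x := by
      intro c' hc'S x hx
      obtain ⟨e', rfl⟩ := mem_sl3.1 hx
      by_cases hx' : ∃ e : Fin 3, sv (3 * c + e) = sv (3 * c' + e')
      · obtain ⟨e, he⟩ := hx'
        rw [← he, hα1, he]
        have hm : pr α c' ∈ insert (((c, Loc.mid 0 0), (c, Loc.mid y₀ y₁)) : NV C × NV C)
            (S.image (pr α)) := Finset.mem_insert_of_mem (Finset.mem_image_of_mem _ hc'S)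
        have h5 := shift_eq h hp hc' (Finset.mem_insert_self _ _) hm he
        have h6 := h3 c' hc'S
        rw [ev_sl3] at h6
        obtain ⟨k0, k1, k2⟩ := shift_val _ _ _ _ _ h6
        refine h5.trans ?_
        fin_cases e'
        · exact k0
        · exact k1
        · exact k2
      · simp only [α', dif_neg hx']
    have hpr : ∀ c' ∈ S, pr α' c' = pr α c' := by
      intro c' hc'S
      simp only [pr]
      rw [hα2 c' hc'S (sv (3 * c')) (mem_sl3.2 ⟨0, rfl⟩),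
        hα2 c' hc'S (sv (3 * c' + 1)) (mem_sl3.2 ⟨1, rfl⟩)]
    obtain ⟨k0, k1, k2⟩ := shift_sum (b₁ c) (b₂ c) y₀ y₁
    have a0 : α' (sv (3 * c)) = y₀ := (hα1 0).trans k0
    have a1 : α' (sv (3 * c + 1)) = y₁ := (hα1 1).trans k1
    have a2 : α' (sv (3 * c + 2)) = s 2 := hα1 2
    refine ⟨α', ⟨?_, ?_, ?_⟩, hα2⟩
    · exact (Finset.card_insert_le _ _).trans hS
    · simp only
      rw [Finset.image_insert, Finset.image_congr (g := pr α) (fun c' hc' => hpr c' hc')]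
      simp only [pr, a0, a1]
      exact hp
    · intro c' hc'
      simp only at hc' ⊢
      rcases Finset.mem_insert.1 hc' with rfl | hc'S
      · rw [ev_sl3, a0, a1, a2]
        exact k2
      · rw [← h3 c' hc'S]
        simp only [ev]
        rw [Multiset.map_congr rfl (hα2 c' hc'S)]

theorem solvable_of_neck_iso {C : ℕ} {sv : ℕ → X} {b₁ b₂ : ℕ → ZMod 2}
    (h : BIso (neckG C sv b₁) (neckG C sv b₂)) : Solvable (sl3 C sv) (fun c => b₁ c + b₂ c) :=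
  solvable_of_consistent (neck_complete (pequiv_of_iso h (Fintype.card (Fin C) + 2))) le_rfl

end Crest.Agent.R290
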