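import Crest.Agent.R290.NeckComp

/-!
# Row 290: three pebbles determine the subcubic graph up to the right-hand sides
-/

set_option autoImplicit false

namespace Crest.Agent.R290

section aux
variable {X : Type} [DecidableEq X] {C : ℕ} {sv : ℕ → X} {b : ℕ → ZMod 2}

theorem ns_symm (x y : NV C) : neckG C sv b x y = neckG C sv b y x := nadj_symm _ _ _ _

theorem ns_mid_a (c c' : Fin C) (y0 y1 : ZMod 2) (e : Fin 3) (β : ZMod 2) :
    neckG C sv b (c, .mid y0 y1) (c', .a e β) =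
      decide ((c : ℕ) = c' ∧ β = mbit (b c) y0 y1 e) := Bool.or_false _

theorem ns_a_P (c c' : Fin C) (e e' : Fin 3) (β β' : ZMod 2) :
    neckG C sv b (c, .a e β) (c', .P e' β') =
      decide ((c : ℕ) = c' ∧ e = e' ∧ β = β') := Bool.or_false _

theorem ns_P_Q (c c' : Fin C) (e e' : Fin 3) (β β' : ZMod 2) :
    neckG C sv b (c, .P e β) (c', .Q e' β') =
      decide (β = β' ∧ (((c : ℕ) = c' ∧ e = e') ∨ Nxt sv (3 * c + e) (3 * c' + e'))) :=
  Bool.or_false _

theorem ns_cls_a {c : Fin C} {e : Fin 3} {β : ZMod 2} {y : NV C}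
    (h : cls y = cls (c, Loc.a e β)) : ∃ β', y = (c, Loc.a e β') := by
  obtain ⟨c', l⟩ := y
  have h1 : c' = c := congrArg Prod.fst h
  have h2 : l.cls = Loc.a e 0 := congrArg Prod.snd h
  subst h1
  cases l <;> cases h2
  exact ⟨_, rfl⟩

theorem ns_cls_P {c : Fin C} {e : Fin 3} {β : ZMod 2} {y : NV C}
    (h : cls y = cls (c, Loc.P e β)) : ∃ β', y = (c, Loc.P e β') := by
  obtain ⟨c', l⟩ := y
  have h1 : c' = c := congrArg Prod.fst h
  have h2 : l.cls = Loc.P e 0 := congrArg Prod.snd h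
  subst h1
  cases l <;> cases h2
  exact ⟨_, rfl⟩

theorem ns_cls_Q {c : Fin C} {e : Fin 3} {β : ZMod 2} {y : NV C}
    (h : cls y = cls (c, Loc.Q e β)) : ∃ β', y = (c, Loc.Q e β') := by
  obtain ⟨c', l⟩ := y
  have h1 : c' = c := congrArg Prod.fst h
  have h2 : l.cls = Loc.Q e 0 := congrArg Prod.snd h
  subst h1
  cases l <;> cases h2
  exact ⟨_, rfl⟩

theorem ns_cls_mid {c : Fin C} {y0 y1 : ZMod 2} {y : NV C}
    (h : cls y = cls (c, Loc.mid y0 y1)) : ∃ z0 z1, y = (c, Loc.mid z0 z1) := by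
  obtain ⟨c', l⟩ := y
  have h1 : c' = c := congrArg Prod.fst h
  have h2 : l.cls = Loc.mid 0 0 := congrArg Prod.snd h
  subst h1
  cases l <;> cases h2
  exact ⟨_, _, rfl⟩

theorem ns_cls_w {c : Fin C} {e : Fin 3} {y : NV C}
    (h : cls y = cls (c, Loc.w e)) : y = (c, Loc.w e) := by
  obtain ⟨c', l⟩ := y
  have h1 : c' = c := congrArg Prod.fst h
  have h2 : l.cls = Loc.w e := congrArg Prod.snd h
  subst h1
  cases l <;> cases h2
  rfl

theorem ns_cls_u {c : Fin C} {e : Fin 3} {y : NV C}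
    (h : cls y = cls (c, Loc.u e)) : y = (c, Loc.u e) := by
  obtain ⟨c', l⟩ := y
  have h1 : c' = c := congrArg Prod.fst h
  have h2 : l.cls = Loc.u e := congrArg Prod.snd h
  subst h1
  cases l <;> cases h2
  rfl

theorem ns_cls_d {c : Fin C} {e : Fin 3} {y : NV C}
    (h : cls y = cls (c, Loc.d e)) : y = (c, Loc.d e) := by
  obtain ⟨c', l⟩ := y
  have h1 : c' = c := congrArg Prod.fst h
  have h2 : l.cls = Loc.d e := congrArg Prod.snd h
  subst h1
  cases l <;> cases h2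
  rfl

/-- An injective map on a two-element class is a shift. -/
theorem ns_shift {V : Type} (σ : V ≃ V) (K : ZMod 2 → V) (hK : Function.Injective K)
    (h : ∀ β, ∃ β', σ (K β) = K β') : ∃ s, ∀ β, σ (K β) = K (β + s) := by
  obtain ⟨s0, h0⟩ := h 0
  obtain ⟨s1, h1⟩ := h 1
  have hne : s0 ≠ s1 := by
    rintro rfl
    have := hK (σ.injective (h0.trans h1.symm))
    exact absurd this (by decide)
  have e1 : s1 = 1 + s0 := by
    revert hne
    generalize s0 = u
    generalize s1 = v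
    revert u v
    decide
  refine ⟨s0, fun β => ?_⟩
  have hβ : β = 0 ∨ β = 1 := by
    revert β
    decide
  rcases hβ with rfl | rfl
  · rw [h0, zero_add]
  · rw [h1, e1]

/-- A matching between two two-element classes. -/
theorem ns_match (r : ZMod 2 → ZMod 2 → Bool)
    (h1 : ∀ β, ∃ s, ∀ β', r β β' = decide (β = β' + s))
    (h2 : ∀ β', ∃ s, ∀ β, r β β' = decide (β + s = β')) :
    ∃ t, ∀ β β', r β β' = decide (β' = β + t) := by
  obtain ⟨s0, h0⟩ := h1 0
  obtain ⟨s1, h1'⟩ := h1 1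
  obtain ⟨s, hs⟩ := h2 s0
  have e : s1 = s0 := by
    have a0 := (h0 s0).symm.trans (hs 0)
    have a1 := (h1' s0).symm.trans (hs 1)
    revert a0 a1
    generalize s0 = u
    generalize s1 = v
    generalize s = w
    revert u v w
    decide
  subst e
  refine ⟨s1, fun β β' => ?_⟩
  have hβ : β = 0 ∨ β = 1 := by
    revert β
    decide
  rcases hβ with rfl | rfl
  · rw [h0]
    generalize s1 = u
    revert β' u
    decide
  · rw [h1']
    generalize s1 = u
    revert β' u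
    decide

omit [DecidableEq X] in
theorem ns_nxt_unique {o₁ o₂ o : ℕ} (h₁ : Nxt sv o₁ o) (h₂ : Nxt sv o₂ o) : o₁ = o₂ := by
  rcases lt_trichotomy o₁ o₂ with h | h | h
  · exact absurd (h₂.2.1.trans h₁.2.1.symm) (h₁.2.2 o₂ h₂.1 h)
  · exact h
  · exact absurd (h₁.2.1.trans h₂.2.1.symm) (h₂.2.2 o₁ h₁.1 h)

omit [DecidableEq X] in
theorem ns_rec {I : Type} (idx : I → ℕ) (hidx : Function.Injective idx) (g : I → I → ZMod 2)
    (n : ℕ) : ∃ s : I → ZMod 2, ∀ i i', idx i' < n → Nxt sv (idx i) (idx i') →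
      s i' = s i + g i i' := by
  classical
  induction n with
  | zero => exact ⟨fun _ => 0, fun i i' h => absurd h (Nat.not_lt_zero _)⟩
  | succ n ih =>
    obtain ⟨s, hs⟩ := ih
    by_cases h : ∃ i i', idx i' = n ∧ Nxt sv (idx i) (idx i')
    · obtain ⟨i₀, i₀', hn, hN⟩ := h
      refine ⟨Function.update s i₀' (s i₀ + g i₀ i₀'), fun i i' hi hN' => ?_⟩
      have hii : i ≠ i₀' := by
        rintro rfl
        have := hN'.1
        omega
      rw [Function.update_of_ne hii]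
      by_cases hi' : i' = i₀'
      · subst hi'
        have : i = i₀ := hidx (ns_nxt_unique hN' hN)
        subst this
        rw [Function.update_self]
      · rw [Function.update_of_ne hi']
        refine hs i i' ?_ hN'
        have : idx i' ≠ n := fun h => hi' (hidx (h.trans hn.symm))
        omega
    · refine ⟨s, fun i i' hi hN' => hs i i' ?_ hN'⟩
      have : idx i' ≠ n := fun h' => h ⟨i, i', h', hN'⟩
      omega

theorem ns_mid_perm (τ : ZMod 2 × ZMod 2 → Fin 3 → ZMod 2) (b₀ : ZMod 2)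
    (h : ∀ y y', y ≠ y' → ∃ z : ZMod 2 × ZMod 2, z ≠ y ∧
      ∀ e, (τ y e = τ y' e ↔ mbit b₀ y.1 y.2 e = mbit b₀ z.1 z.2 e)) :
    ∃ (b' : ZMod 2) (π : ZMod 2 × ZMod 2 → ZMod 2 × ZMod 2), Function.Injective π ∧
      ∀ y e, τ (π y) e = mbit b' y.1 y.2 e := by
  have key : ∀ y y', y ≠ y' → τ y 0 + τ y 1 + τ y 2 = τ y' 0 + τ y' 1 + τ y' 2 ∧
      ¬ (τ y 0 = τ y' 0 ∧ τ y 1 = τ y' 1) := by
    intro y y' hy
    obtain ⟨z, hz, he⟩ := h y y' hy
    have h0 := he 0
    have h1 := he 1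
    have h2 := he 2
    have e0 : ∀ u v : ZMod 2, mbit b₀ u v 0 = u := fun _ _ => rfl
    have e1 : ∀ u v : ZMod 2, mbit b₀ u v 1 = v := fun _ _ => rfl
    have e2 : ∀ u v : ZMod 2, mbit b₀ u v 2 = u + v + b₀ := fun _ _ => rfl
    rw [e0, e0] at h0
    rw [e1, e1] at h1
    rw [e2, e2, add_left_inj] at h2
    have hz' : ¬ (z.1 = y.1 ∧ z.2 = y.2) := fun hh => hz (Prod.ext hh.1 hh.2)
    have hcase : (y.1 = z.1 ∧ y.2 ≠ z.2 ∧ y.1 + y.2 ≠ z.1 + z.2) ∨
        (y.1 ≠ z.1 ∧ y.2 = z.2 ∧ y.1 + y.2 ≠ z.1 + z.2) ∨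
        (y.1 ≠ z.1 ∧ y.2 ≠ z.2 ∧ y.1 + y.2 = z.1 + z.2) := by
      revert hz'
      generalize y.1 = p
      generalize y.2 = q
      generalize z.1 = r
      generalize z.2 = s
      revert p q r s
      decide
    simp only [ne_eq, ← h0, ← h1, ← h2] at hcase
    revert hcase
    generalize τ y 0 = p0
    generalize τ y 1 = p1
    generalize τ y 2 = p2
    generalize τ y' 0 = q0
    generalize τ y' 1 = q1
    generalize τ y' 2 = q2
    revert p0 p1 p2 q0 q1 q2
    decide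
  let f : ZMod 2 × ZMod 2 → ZMod 2 × ZMod 2 := fun y => (τ y 0, τ y 1)
  have hf : Function.Injective f := by
    intro y y' hyy
    by_contra hne
    exact (key y y' hne).2 ⟨congrArg Prod.fst hyy, congrArg Prod.snd hyy⟩
  have hfb : Function.Bijective f := (Finite.injective_iff_bijective).1 hf
  let E := Equiv.ofBijective f hfb
  refine ⟨τ 0 0 + τ 0 1 + τ 0 2, E.symm, E.symm.injective, fun y e => ?_⟩
  have hE : f (E.symm y) = y := E.apply_symm_apply y
  have h0 : τ (E.symm y) 0 = y.1 := congrArg Prod.fst hE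
  have h1 : τ (E.symm y) 1 = y.2 := congrArg Prod.snd hE
  have hp : τ (E.symm y) 0 + τ (E.symm y) 1 + τ (E.symm y) 2 = τ 0 0 + τ 0 1 + τ 0 2 := by
    by_cases hy : E.symm y = 0
    · rw [hy]
    · exact (key _ _ hy).1
  have he : e = 0 ∨ e = 1 ∨ e = 2 := by
    revert e
    decide
  rcases he with rfl | rfl | rfl
  · exact h0
  · exact h1
  · show _ = y.1 + y.2 + (τ 0 0 + τ 0 1 + τ 0 2)
    rw [← hp, h0, h1]
    generalize τ (E.symm y) 2 = p
    generalize y.1 = q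
    generalize y.2 = r
    revert p q r
    decide

theorem ns_core (H : NV C → NV C → Bool) (hsymm : ∀ x y, H x y = H y x)
    (hσ : ∀ x, ∃ σ : NV C ≃ NV C, ∀ y, cls (σ y) = cls y ∧ H x y = neckG C sv b x (σ y))
    (h3 : ∀ x x', x ≠ x' → ∃ z, z ≠ x ∧ cls z = cls x' ∧ ∃ σ : NV C ≃ NV C, ∀ y,
      cls (σ y) = cls y ∧ H x y = neckG C sv b x (σ y) ∧ H x' y = neckG C sv b z (σ y)) :
    ∃ b' : ℕ → ZMod 2, BIso (neckG C sv b') H := by
  classical
  have injA : ∀ (c : Fin C) e, Function.Injective fun β => ((c, Loc.a e β) : NV C) := by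
    intro c e β β' h
    simpa using h
  have injP : ∀ (c : Fin C) e, Function.Injective fun β => ((c, Loc.P e β) : NV C) := by
    intro c e β β' h
    simpa using h
  have injQ : ∀ (c : Fin C) e, Function.Injective fun β => ((c, Loc.Q e β) : NV C) := by
    intro c e β β' h
    simpa using h
  have hA : ∀ x c e, ∃ s, ∀ β, H x (c, Loc.a e β) = neckG C sv b x (c, Loc.a e (β + s)) := by
    intro x c e
    obtain ⟨σ, hs⟩ := hσ x
    obtain ⟨s, h⟩ := ns_shift σ _ (injA c e) (fun β => ns_cls_a (hs _).1)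
    exact ⟨s, fun β => by rw [(hs _).2, h]⟩
  have hP : ∀ x c e, ∃ s, ∀ β, H x (c, Loc.P e β) = neckG C sv b x (c, Loc.P e (β + s)) := by
    intro x c e
    obtain ⟨σ, hs⟩ := hσ x
    obtain ⟨s, h⟩ := ns_shift σ _ (injP c e) (fun β => ns_cls_P (hs _).1)
    exact ⟨s, fun β => by rw [(hs _).2, h]⟩
  have hQ : ∀ x c e, ∃ s, ∀ β, H x (c, Loc.Q e β) = neckG C sv b x (c, Loc.Q e (β + s)) := by
    intro x c e
    obtain ⟨σ, hs⟩ := hσ x
    obtain ⟨s, h⟩ := ns_shift σ _ (injQ c e) (fun β => ns_cls_Q (hs _).1)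
    exact ⟨s, fun β => by rw [(hs _).2, h]⟩
  have hM : ∀ x c y0 y1, ∃ z0 z1, H x (c, Loc.mid y0 y1) = neckG C sv b x (c, Loc.mid z0 z1) := by
    intro x c y0 y1
    obtain ⟨σ, hs⟩ := hσ x
    obtain ⟨z0, z1, h⟩ := ns_cls_mid (hs (c, Loc.mid y0 y1)).1
    exact ⟨z0, z1, by rw [(hs _).2, h]⟩
  have hW : ∀ x c e, H x (c, Loc.w e) = neckG C sv b x (c, Loc.w e) := by
    intro x c e
    obtain ⟨σ, hs⟩ := hσ x
    rw [(hs _).2, ns_cls_w (hs _).1]
  have hU : ∀ x c e, H x (c, Loc.u e) = neckG C sv b x (c, Loc.u e) := by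
    intro x c e
    obtain ⟨σ, hs⟩ := hσ x
    rw [(hs _).2, ns_cls_u (hs _).1]
  have hD : ∀ x c e, H x (c, Loc.d e) = neckG C sv b x (c, Loc.d e) := by
    intro x c e
    obtain ⟨σ, hs⟩ := hσ x
    rw [(hs _).2, ns_cls_d (hs _).1]
  -- twists of the matchings
  have tAP : ∀ (c : Fin C) (e : Fin 3), ∃ t, ∀ β β',
      H (c, Loc.a e β) (c, Loc.P e β') = decide (β' = β + t) := by
    intro c e
    refine ns_match _ (fun β => ?_) (fun β' => ?_)
    · obtain ⟨s, hs⟩ := hP (c, Loc.a e β) c e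
      exact ⟨s, fun β' => by rw [hs, ns_a_P]; simp⟩
    · obtain ⟨s, hs⟩ := hA (c, Loc.P e β') c e
      exact ⟨s, fun β => by rw [hsymm, hs, ns_symm, ns_a_P]; simp⟩
  have tPQ : ∀ i i' : Fin C × Fin 3, ∃ t,
      (((i.1 : ℕ) = i'.1 ∧ i.2 = i'.2) ∨ Nxt sv (3 * i.1 + i.2) (3 * i'.1 + i'.2)) → ∀ β β',
      H (i.1, Loc.P i.2 β) (i'.1, Loc.Q i'.2 β') = decide (β' = β + t) := by
    rintro ⟨c, e⟩ ⟨c', e'⟩
    by_cases hc : ((c : ℕ) = c' ∧ e = e') ∨ Nxt sv (3 * c + e) (3 * c' + e')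
    · have : ∃ t, ∀ β β', H (c, Loc.P e β) (c', Loc.Q e' β') = decide (β' = β + t) := by
        refine ns_match _ (fun β => ?_) (fun β' => ?_)
        · obtain ⟨s, hs⟩ := hQ (c, Loc.P e β) c' e'
          exact ⟨s, fun β' => by rw [hs, ns_P_Q]; simp only [hc, and_true]⟩
        · obtain ⟨s, hs⟩ := hP (c', Loc.Q e' β') c e
          exact ⟨s, fun β => by rw [hsymm, hs, ns_symm, ns_P_Q]; simp only [hc, and_true]⟩
      obtain ⟨t, ht⟩ := this
      exact ⟨t, fun _ => ht⟩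
    · exact ⟨0, fun h => absurd h hc⟩
  choose tA htA using tAP
  choose tQ htQ using tPQ
  have hidx : Function.Injective fun i : Fin C × Fin 3 => 3 * (i.1 : ℕ) + i.2 := by
    rintro ⟨c, e⟩ ⟨c', e'⟩ h
    have h' : 3 * (c : ℕ) + e = 3 * c' + e' := h
    have := e.2
    have := e'.2
    exact Prod.ext (Fin.ext (by simp only; omega)) (Fin.ext (by simp only; omega))
  obtain ⟨sQ, hsQ⟩ := ns_rec (sv := sv) _ hidx (fun i i' => tQ i i + tQ i i') (3 * C)
  have hsQ' : ∀ i i' : Fin C × Fin 3, Nxt sv (3 * i.1 + i.2) (3 * i'.1 + i'.2) →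
      sQ i' = sQ i + (tQ i i + tQ i i') := by
    intro i i' h
    refine hsQ i i' ?_ h
    have := i'.1.2
    have := i'.2.2
    omega
  let sP : Fin C × Fin 3 → ZMod 2 := fun i => sQ i + tQ i i
  let sA : Fin C × Fin 3 → ZMod 2 := fun i => sP i + tA i.1 i.2
  -- the middle vertices
  have hτ : ∀ (c : Fin C) (y : ZMod 2 × ZMod 2) (e : Fin 3), ∃ t, ∀ β,
      H (c, Loc.mid y.1 y.2) (c, Loc.a e β) = decide (β = t) := by
    intro c y e
    obtain ⟨s, hs⟩ := hA (c, Loc.mid y.1 y.2) c e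
    refine ⟨mbit (b c) y.1 y.2 e + s, fun β => ?_⟩
    rw [hs, ns_mid_a]
    simp only [true_and]
    generalize mbit (b c) y.1 y.2 e = p
    generalize s = q
    revert β p q
    decide
  choose τ hτ using hτ
  have hmid : ∀ c : Fin C, ∃ (b' : ZMod 2) (π : ZMod 2 × ZMod 2 → ZMod 2 × ZMod 2),
      Function.Injective π ∧ ∀ y e, τ c (π y) e + sA (c, e) = mbit b' y.1 y.2 e := by
    intro c
    refine ns_mid_perm (fun y e => τ c y e + sA (c, e)) (b c) (fun y y' hy => ?_)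
    have hne : ((c, Loc.mid y.1 y.2) : NV C) ≠ (c, Loc.mid y'.1 y'.2) := by
      intro h
      simp only [Prod.mk.injEq, Loc.mid.injEq, true_and] at h
      exact hy (Prod.ext h.1 h.2)
    obtain ⟨z, hz, hzc, σ, hs⟩ := h3 _ _ hne
    obtain ⟨z0, z1, rfl⟩ := ns_cls_mid hzc
    refine ⟨(z0, z1), ?_, fun e => ?_⟩
    · rintro rfl
      exact hz rfl
    · obtain ⟨s, h⟩ := ns_shift σ _ (injA c e) (fun β => ns_cls_a (hs _).1)
      have a1 := (hs (c, Loc.a e (τ c y e))).2.1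
      have a2 := (hs (c, Loc.a e (τ c y' e))).2.2
      rw [hτ, h, ns_mid_a] at a1 a2
      simp only [decide_true, true_and, true_eq_decide_iff] at a1 a2
      simp only [add_left_inj]
      rw [← a1, ← a2, add_left_inj]
  choose bb π hπ hbb using hmid
  let b' : ℕ → ZMod 2 := fun n => if h : n < C then bb ⟨n, h⟩ else 0
  have hb' : ∀ c : Fin C, b' c = bb c := fun c => by simp only [b', dif_pos c.2]
  let ψl : Fin C → Loc → Loc := fun c l => Loc.casesOn l
    (fun e β => Loc.a e (β + sA (c, e))) (fun e β => Loc.P e (β + sP (c, e)))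
    (fun e β => Loc.Q e (β + sQ (c, e))) Loc.w Loc.u Loc.d
    (fun y0 y1 => Loc.mid (π c (y0, y1)).1 (π c (y0, y1)).2)
  have eA : ∀ c e β, ψl c (Loc.a e β) = Loc.a e (β + sA (c, e)) := fun _ _ _ => rfl
  have eP : ∀ c e β, ψl c (Loc.P e β) = Loc.P e (β + sP (c, e)) := fun _ _ _ => rfl
  have eQ : ∀ c e β, ψl c (Loc.Q e β) = Loc.Q e (β + sQ (c, e)) := fun _ _ _ => rfl
  have eW : ∀ c e, ψl c (Loc.w e) = Loc.w e := fun _ _ => rfl
  have eU : ∀ c e, ψl c (Loc.u e) = Loc.u e := fun _ _ => rfl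
  have eD : ∀ c e, ψl c (Loc.d e) = Loc.d e := fun _ _ => rfl
  have eM : ∀ c y0 y1, ψl c (Loc.mid y0 y1) =
      Loc.mid (π c (y0, y1)).1 (π c (y0, y1)).2 := fun _ _ _ => rfl
  clear_value ψl
  have hψl : ∀ c, Function.Injective (ψl c) := by
    intro c l l' h
    cases l <;> cases l' <;> simp only [eA, eP, eQ, eW, eU, eD, eM, reduceCtorEq] at h
    · obtain ⟨rfl, h⟩ := Loc.a.inj h
      rw [add_right_cancel h]
    · obtain ⟨rfl, h⟩ := Loc.P.inj h
      rw [add_right_cancel h]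
    · obtain ⟨rfl, h⟩ := Loc.Q.inj h
      rw [add_right_cancel h]
    · exact h
    · exact h
    · exact h
    · obtain ⟨h1, h2⟩ := Loc.mid.inj h
      have := hπ c (Prod.ext h1 h2)
      obtain ⟨rfl, rfl⟩ := Prod.mk.inj this
      rfl
  let ψ : NV C → NV C := fun x => (x.1, ψl x.1 x.2)
  have hψ : Function.Injective ψ := by
    rintro ⟨c, l⟩ ⟨c', l'⟩ h
    have h1 : c = c' := congrArg Prod.fst h
    subst h1
    have h2 : ψl c l = ψl c l' := congrArg Prod.snd h
    rw [hψl c h2]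
  -- the three nontrivial class pairs
  have kMA : ∀ (c c' : Fin C) y0 y1 e β, H (ψ (c, Loc.mid y0 y1)) (ψ (c', Loc.a e β)) =
      neckG C sv b' (c, Loc.mid y0 y1) (c', Loc.a e β) := by
    intro c c' y0 y1 e β
    simp only [ψ, eA, eM]
    rw [ns_mid_a]
    by_cases hc : c = c'
    · subst hc
      rw [hτ, hb', ← hbb c (y0, y1) e]
      simp only [true_and]
      generalize τ c (π c (y0, y1)) e = p
      generalize sA (c, e) = q
      revert β p q
      decide
    · obtain ⟨s, hs⟩ := hA (c, Loc.mid (π c (y0, y1)).1 (π c (y0, y1)).2) c' e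
      have hc' : ¬ (c : ℕ) = c' := fun h => hc (Fin.ext h)
      rw [hs, ns_mid_a]
      simp only [hc', false_and]
  have kAP : ∀ (c c' : Fin C) e β e' β', H (ψ (c, Loc.a e β)) (ψ (c', Loc.P e' β')) =
      neckG C sv b' (c, Loc.a e β) (c', Loc.P e' β') := by
    intro c c' e β e' β'
    simp only [ψ, eA, eP]
    rw [ns_a_P]
    by_cases hc : (c : ℕ) = c' ∧ e = e'
    · obtain ⟨h1, rfl⟩ := hc
      obtain rfl : c = c' := Fin.ext h1
      have e1 : sA (c, e) = sP (c, e) + tA c e := rfl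
      rw [htA, e1]
      simp only [true_and]
      generalize sP (c, e) = p
      generalize tA c e = q
      revert β β' p q
      decide
    · obtain ⟨s, hs⟩ := hP (c, Loc.a e (β + sA (c, e))) c' e'
      rw [hs, ns_a_P]
      simp only [← and_assoc, hc, false_and]
  have kPQ : ∀ (c c' : Fin C) e β e' β', H (ψ (c, Loc.P e β)) (ψ (c', Loc.Q e' β')) =
      neckG C sv b' (c, Loc.P e β) (c', Loc.Q e' β') := by
    intro c c' e β e' β'
    simp only [ψ, eP, eQ]
    rw [ns_P_Q]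
    by_cases hc : ((c : ℕ) = c' ∧ e = e') ∨ Nxt sv (3 * c + e) (3 * c' + e')
    · have h1 := htQ (c, e) (c', e') hc
      simp only at h1
      rw [h1]
      simp only [hc, and_true]
      have h2 : sQ (c', e') = sP (c, e) + tQ (c, e) (c', e') := by
        rcases hc with ⟨h5, rfl⟩ | hc
        · obtain rfl : c = c' := Fin.ext h5
          simp only [sP]
          generalize sQ (c, e) = p
          generalize tQ (c, e) (c, e) = q
          revert p q
          decide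
        · rw [hsQ' (c, e) (c', e') hc]
          simp only [sP, add_assoc]
      rw [h2]
      generalize sP (c, e) = p
      generalize tQ (c, e) (c', e') = q
      revert β β' p q
      decide
    · obtain ⟨s, hs⟩ := hQ (c, Loc.P e (β + sP (c, e))) c' e'
      rw [hs, ns_P_Q]
      simp only [hc, and_false]
  have kW : ∀ x (c' : Fin C) e, H (ψ x) (ψ (c', Loc.w e)) = neckG C sv b' x (c', Loc.w e) := by
    rintro ⟨c, l⟩ c' e
    simp only [ψ, eW]
    rw [hW]
    cases l <;> simp only [eA, eP, eQ, eW, eU, eD, eM] <;> rfl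
  have kU : ∀ x (c' : Fin C) e, H (ψ x) (ψ (c', Loc.u e)) = neckG C sv b' x (c', Loc.u e) := by
    rintro ⟨c, l⟩ c' e
    simp only [ψ, eU]
    rw [hU]
    cases l <;> simp only [eA, eP, eQ, eW, eU, eD, eM] <;> rfl
  have kD : ∀ x (c' : Fin C) e, H (ψ x) (ψ (c', Loc.d e)) = neckG C sv b' x (c', Loc.d e) := by
    rintro ⟨c, l⟩ c' e
    simp only [ψ, eD]
    rw [hD]
    cases l <;> simp only [eA, eP, eQ, eW, eU, eD, eM] <;> rfl
  have main : ∀ x y, H (ψ x) (ψ y) = neckG C sv b' x y := by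
    rintro ⟨c, l⟩ ⟨c', l'⟩
    cases l' with
    | w e => exact kW _ _ _
    | u e => exact kU _ _ _
    | d e => exact kD _ _ _
    | a e' β' =>
      cases l with
      | w e => rw [hsymm, ns_symm]; exact kW _ _ _
      | u e => rw [hsymm, ns_symm]; exact kU _ _ _
      | d e => rw [hsymm, ns_symm]; exact kD _ _ _
      | mid y0 y1 => exact kMA _ _ _ _ _ _
      | P e β => rw [hsymm, ns_symm]; exact kAP _ _ _ _ _ _
      | a e β =>
        simp only [ψ, eA]
        obtain ⟨s, hs⟩ := hA (c, Loc.a e (β + sA (c, e))) c' e'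
        rw [hs]; rfl
      | Q e β =>
        simp only [ψ, eA, eQ]
        obtain ⟨s, hs⟩ := hA (c, Loc.Q e (β + sQ (c, e))) c' e'
        rw [hs]; rfl
    | P e' β' =>
      cases l with
      | w e => rw [hsymm, ns_symm]; exact kW _ _ _
      | u e => rw [hsymm, ns_symm]; exact kU _ _ _
      | d e => rw [hsymm, ns_symm]; exact kD _ _ _
      | a e β => exact kAP _ _ _ _ _ _
      | Q e β => rw [hsymm, ns_symm]; exact kPQ _ _ _ _ _ _
      | P e β =>
        simp only [ψ, eP]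
        obtain ⟨s, hs⟩ := hP (c, Loc.P e (β + sP (c, e))) c' e'
        rw [hs]; rfl
      | mid y0 y1 =>
        simp only [ψ, eP, eM]
        obtain ⟨s, hs⟩ := hP (c, Loc.mid (π c (y0, y1)).1 (π c (y0, y1)).2) c' e'
        rw [hs]; rfl
    | Q e' β' =>
      cases l with
      | w e => rw [hsymm, ns_symm]; exact kW _ _ _
      | u e => rw [hsymm, ns_symm]; exact kU _ _ _
      | d e => rw [hsymm, ns_symm]; exact kD _ _ _
      | P e β => exact kPQ _ _ _ _ _ _
      | a e β =>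
        simp only [ψ, eA, eQ]
        obtain ⟨s, hs⟩ := hQ (c, Loc.a e (β + sA (c, e))) c' e'
        rw [hs]; rfl
      | Q e β =>
        simp only [ψ, eQ]
        obtain ⟨s, hs⟩ := hQ (c, Loc.Q e (β + sQ (c, e))) c' e'
        rw [hs]; rfl
      | mid y0 y1 =>
        simp only [ψ, eQ, eM]
        obtain ⟨s, hs⟩ := hQ (c, Loc.mid (π c (y0, y1)).1 (π c (y0, y1)).2) c' e'
        rw [hs]; rfl
    | mid y0' y1' =>
      cases l with
      | w e => rw [hsymm, ns_symm]; exact kW _ _ _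
      | u e => rw [hsymm, ns_symm]; exact kU _ _ _
      | d e => rw [hsymm, ns_symm]; exact kD _ _ _
      | a e β => rw [hsymm, ns_symm]; exact kMA _ _ _ _ _ _
      | P e β =>
        simp only [ψ, eP, eM]
        obtain ⟨z0, z1, hs⟩ := hM (c, Loc.P e (β + sP (c, e))) c'
          (π c' (y0', y1')).1 (π c' (y0', y1')).2
        rw [hs]; rfl
      | Q e β =>
        simp only [ψ, eQ, eM]
        obtain ⟨z0, z1, hs⟩ := hM (c, Loc.Q e (β + sQ (c, e))) c'
          (π c' (y0', y1')).1 (π c' (y0', y1')).2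
        rw [hs]; rfl
      | mid y0 y1 =>
        simp only [ψ, eM]
        obtain ⟨z0, z1, hs⟩ := hM (c, Loc.mid (π c (y0, y1)).1 (π c (y0, y1)).2) c'
          (π c' (y0', y1')).1 (π c' (y0', y1')).2
        rw [hs]; rfl
  exact ⟨b', Equiv.ofBijective ψ ((Finite.injective_iff_bijective).1 hψ), main⟩

end aux

theorem neck_struct {X W : Type} [DecidableEq X] [DecidableEq W] {C : ℕ} {sv : ℕ → X}
    {b : ℕ → ZMod 2} {H : W → W → Bool} (h : PEquiv (neckG C sv b) H 3) :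
    ∃ b' : ℕ → ZMod 2, BIso (neckG C sv b') H := by
  obtain ⟨P, hP⟩ := h
  have hsing : ∀ (p : Finset (NV C × W)), p ∈ P → ∀ a ∈ p, ({a} : Finset (NV C × W)) ∈ P :=
    fun p hp a ha => hP.sub p hp _ (Finset.singleton_subset_iff.2 ha)
  have hext1 : ∀ a : NV C × W, ({a} : Finset (NV C × W)) ∈ P → ∃ φ : NV C ≃ W, ∀ z,
      insert (z, φ z) ({a} : Finset (NV C × W)) ∈ P :=
    fun a ha => hP.ext _ ha (by simp)
  have hcls : ∀ v v' w, ({(v, w)} : Finset (NV C × W)) ∈ P →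
      ({(v', w)} : Finset (NV C × W)) ∈ P → cls v = cls v' := by
    intro v v' w h1 h2
    refine cls_eq_of_bisim (sv := sv) (b₁ := b) (b₂ := b)
      (fun v v' => ∃ w, ({(v, w)} : Finset (NV C × W)) ∈ P ∧
        ({(v', w)} : Finset (NV C × W)) ∈ P) ?_ ⟨w, h1, h2⟩
    rintro v v' ⟨w, h1, h2⟩
    obtain ⟨φ₁, hφ₁⟩ := hext1 _ h1
    obtain ⟨φ₂, hφ₂⟩ := hext1 _ h2
    refine ⟨φ₁.trans φ₂.symm, fun z => ⟨?_, φ₁ z, ?_, ?_⟩⟩
    · have a1 := (hP.iso _ (hφ₁ z) (v, w) (by simp) (z, φ₁ z) (by simp)).2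
      have a2 := (hP.iso _ (hφ₂ (φ₂.symm (φ₁ z))) (v', w) (by simp)
        (φ₂.symm (φ₁ z), φ₂ (φ₂.symm (φ₁ z))) (by simp)).2
      simp only [Equiv.apply_symm_apply] at a1 a2
      simp only [Equiv.trans_apply]
      rw [a1, a2]
    · exact hsing _ (hφ₁ z) _ (by simp)
    · have := hsing _ (hφ₂ (φ₂.symm (φ₁ z))) (φ₂.symm (φ₁ z), φ₂ (φ₂.symm (φ₁ z))) (by simp)
      simpa only [Equiv.apply_symm_apply, Equiv.trans_apply] using this
  obtain ⟨φ₀, hφ₀⟩ := hP.ext _ hP.empty (by simp)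
  have h0 : ∀ z, ({(z, φ₀ z)} : Finset (NV C × W)) ∈ P := fun z => by simpa using hφ₀ z
  -- extension of a position, read through `φ₀`
  have hext : ∀ p ∈ P, p.card < 3 → ∃ σ : NV C ≃ NV C, ∀ y,
      insert (σ y, φ₀ y) p ∈ P ∧ cls (σ y) = cls y := by
    intro p hp hc
    obtain ⟨φ, hφ⟩ := hP.ext p hp hc
    refine ⟨φ₀.trans φ.symm, fun y => ?_⟩
    have h1 := hφ (φ.symm (φ₀ y))
    rw [Equiv.apply_symm_apply] at h1
    exact ⟨h1, hcls _ _ _ (hsing _ h1 _ (Finset.mem_insert_self _ _)) (h0 y)⟩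
  obtain ⟨b', ψ, hψ⟩ := ns_core (sv := sv) (b := b) (fun x y => H (φ₀ x) (φ₀ y)) (by
      intro x y
      obtain ⟨σ, hσ⟩ := hext _ (h0 x) (by simp)
      have a1 := (hP.iso _ (hσ y).1 (x, φ₀ x) (by simp) (σ y, φ₀ y) (by simp)).2
      have a2 := (hP.iso _ (hσ y).1 (σ y, φ₀ y) (by simp) (x, φ₀ x) (by simp)).2
      simp only at a1 a2
      rw [← a1, ← a2, ns_symm]) (by
      intro x
      obtain ⟨σ, hσ⟩ := hext _ (h0 x) (by simp)
      refine ⟨σ, fun y => ⟨(hσ y).2, ?_⟩⟩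
      exact (hP.iso _ (hσ y).1 (x, φ₀ x) (by simp) (σ y, φ₀ y) (by simp)).2.symm) (by
      intro x x' hx
      obtain ⟨σ, hσ⟩ := hext _ (h0 x) (by simp)
      have hp := (hσ x').1
      refine ⟨σ x', ?_, (hσ x').2, ?_⟩
      · intro hh
        have := (hP.iso _ hp (σ x', φ₀ x') (by simp) (x, φ₀ x) (by simp)).1.1 hh
        exact hx (φ₀.injective this).symm
      · obtain ⟨ρ, hρ⟩ := hext _ hp (lt_of_le_of_lt (Finset.card_insert_le _ _) (by simp))
        refine ⟨ρ, fun y => ⟨(hρ y).2, ?_, ?_⟩⟩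
        · exact (hP.iso _ (hρ y).1 (x, φ₀ x) (by simp) (ρ y, φ₀ y) (by simp)).2.symm
        · exact (hP.iso _ (hρ y).1 (σ x', φ₀ x') (by simp) (ρ y, φ₀ y) (by simp)).2.symm)
  exact ⟨b', ψ.trans φ₀, fun a a' => hψ a a'⟩

end Crest.Agent.R290
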