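import Crest.Agent.R290.Game

/-!
# Row 290: padding to graphs of diameter two
-/

set_option autoImplicit false

namespace Crest.Agent.R290

open Crest.WLRefine

variable {n N K : ℕ} {adj adj' : ℕ → ℕ → Bool}

namespace Pad

theorem padN_low (hn : N < n) (hi : ∀ x, adj x x = false) {x y : ℕ} (hx : x < N) (hy : y < N) :
    padN n N adj x y = adj x y := by
  unfold padN
  split_ifs with h1 h2 h3
  · rw [h1, hi]
  · omega
  · rfl
  · exact absurd ⟨hx, hy⟩ h3

theorem padN_high {x y : ℕ} (h : ¬ (x < N ∧ y < N)) :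
    padN n N adj x y = decide (x ≠ y ∧ (x = n - 1 ∨ y = n - 1)) := by
  unfold padN
  split_ifs with h1 h2
  · simp [h1]
  · simp [h1, h2]
  · simp [h2]

/-- The inclusion of pairs. -/
def emb (hn : N < n) : Fin N × Fin N ↪ Fin n × Fin n :=
  (Fin.castLEEmb hn.le).prodMap (Fin.castLEEmb hn.le)

theorem emb_apply (hn : N < n) (a : Fin N × Fin N) :
    emb hn a = (Fin.castLE hn.le a.1, Fin.castLE hn.le a.2) := rfl

/-- The out-degree. -/
def deg {V : Type} [Fintype V] (G : V → V → Bool) (x : V) : ℕ :=
  (Finset.univ.filter fun y => G x y = true).card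

theorem deg_eq {V W : Type} [Fintype V] [Fintype W] [DecidableEq V] [DecidableEq W]
    {G : V → V → Bool} {H : W → W → Bool} {P : Set (Finset (V × W))} (h : Game G H K P)
    (hK : 2 ≤ K) {x : V} {y : W} (hxy : {(x, y)} ∈ P) : deg G x = deg H y := by
  obtain ⟨φ, hφ⟩ := h.ext _ hxy (by simp; omega)
  refine Finset.card_equiv φ fun z => ?_
  have := (h.iso _ (hφ z) (x, y) (by simp) (z, φ z) (by simp)).2
  simp only [Finset.mem_filter, Finset.mem_univ, true_and]
  rw [this]

theorem low_iff (hn : N < n) (h6 : 6 ≤ n) (hi : ∀ x, adj x x = false)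
    (hd : MaxDegLeThree (mat N adj)) (hp : ∀ x, ∃ y, mat N adj x y = true) (x : Fin n) :
    (x : ℕ) < N ↔ 2 ≤ deg (mat n (padN n N adj)) x ∧ deg (mat n (padN n N adj)) x ≤ 4 := by
  set u : Fin n := ⟨n - 1, by omega⟩ with hu
  have hx := x.2
  by_cases h : (x : ℕ) < N
  · refine iff_of_true h ⟨?_, ?_⟩
    · obtain ⟨y, hy⟩ := hp ⟨x, h⟩
      have hy2 := y.2
      refine Finset.one_lt_card.2 ⟨u, ?_, Fin.castLE hn.le y, ?_, ?_⟩
      · simp only [Finset.mem_filter, Finset.mem_univ, true_and, mat, hu]
        rw [padN_high (by omega)]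
        simp
        omega
      · simp only [Finset.mem_filter, Finset.mem_univ, true_and, mat, Fin.val_castLE]
        rw [padN_low hn hi h hy2]
        exact hy
      · intro e
        have := congrArg Fin.val e
        simp [hu] at this
        omega
    · have h1 : (Finset.univ.filter fun y => mat n (padN n N adj) x y = true) ⊆
          insert u ((Finset.univ.filter fun w => mat N adj ⟨x, h⟩ w = true).map
            (Fin.castLEEmb hn.le)) := by
        intro y hy
        simp only [Finset.mem_filter, Finset.mem_univ, true_and, mat] at hy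
        rw [Finset.mem_insert]
        by_cases hy2 : (y : ℕ) < N
        · refine Or.inr (Finset.mem_map.2 ⟨⟨y, hy2⟩, ?_, rfl⟩)
          rw [padN_low hn hi h hy2] at hy
          simpa [mat] using hy
        · rw [padN_high (by omega)] at hy
          simp only [decide_eq_true_eq] at hy
          exact Or.inl (Fin.ext (by simp only [hu]; omega))
      refine (Finset.card_le_card h1).trans ((Finset.card_insert_le _ _).trans ?_)
      rw [Finset.card_map]
      have := hd ⟨x, h⟩
      omega
  · refine iff_of_false h ?_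
    by_cases hxu : x = u
    · have h1 : (Finset.univ.filter fun y => mat n (padN n N adj) x y = true) =
          Finset.univ.erase x := by
        ext y
        simp only [Finset.mem_filter, Finset.mem_univ, true_and, mat, Finset.mem_erase, and_true]
        rw [padN_high (by omega)]
        have : (x : ℕ) = n - 1 := by rw [hxu]
        simp only [decide_eq_true_eq, ne_eq, Fin.ext_iff]
        omega
      rw [deg, h1, Finset.card_erase_of_mem (Finset.mem_univ _), Finset.card_univ, Fintype.card_fin]
      omega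
    · have h1 : (Finset.univ.filter fun y => mat n (padN n N adj) x y = true) ⊆ {u} := by
        intro y hy
        simp only [Finset.mem_filter, Finset.mem_univ, true_and, mat] at hy
        rw [padN_high (by omega)] at hy
        simp only [decide_eq_true_eq] at hy
        have : (x : ℕ) ≠ n - 1 := fun e => hxu (Fin.ext e)
        exact Finset.mem_singleton.2 (Fin.ext (by simp only [hu]; omega))
      have h2 := Finset.card_le_card h1
      rw [Finset.card_singleton] at h2
      unfold deg
      omega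

end Pad

open Pad

theorem pad_diam (hs : ∀ x y, adj x y = adj y x) (hn : N < n) :
    SimpleConnDiamTwo (mat n (padN n N adj)) := by
  set u : Fin n := ⟨n - 1, by omega⟩ with hu
  have h1 : ∀ x, x ≠ u → mat n (padN n N adj) x u = true := by
    intro x hx
    have : (x : ℕ) ≠ n - 1 := fun e => hx (Fin.ext e)
    simp [mat, padN, hu, this]
  have h2 : ∀ x, x ≠ u → mat n (padN n N adj) u x = true := by
    intro x hx
    have : n - 1 ≠ (x : ℕ) := fun e => hx (Fin.ext e.symm)
    simp [mat, padN, hu, this]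
  refine ⟨⟨fun v w => ?_, fun v => by simp [mat, padN]⟩, ?_, fun v w hvw => ?_⟩
  · simp only [mat, padN, eq_comm (a := (w : ℕ)) (b := v), or_comm (a := (w : ℕ) = n - 1),
      and_comm (a := (w : ℕ) < N), hs w v]
  · have h3 : ∀ x, (adjGraph (mat n (padN n N adj))).Reachable x u := by
      intro x
      by_cases hx : x = u
      · rw [hx]
      · exact SimpleGraph.Adj.reachable ((SimpleGraph.fromRel_adj _ _ _).2 ⟨hx, Or.inl (h1 x hx)⟩)
    have : Nonempty (Fin n) := ⟨u⟩
    exact ⟨fun x y => (h3 x).trans (h3 y).symm⟩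
  · by_cases hv : v = u
    · exact Or.inl (hv ▸ h2 w fun e => hvw (hv.trans e.symm))
    · by_cases hw : w = u
      · exact Or.inl (hw ▸ h1 v hv)
      · exact Or.inr ⟨u, h1 v hv, h2 w hw⟩

theorem pad_pequiv (hn : N < n) (hi : ∀ x, adj x x = false) (hi' : ∀ x, adj' x x = false)
    (h : PEquiv (mat N adj) (mat N adj') K) :
    PEquiv (mat n (padN n N adj)) (mat n (padN n N adj')) K := by
  obtain ⟨P, hP⟩ := h
  refine ⟨{q | (∀ a ∈ q, ((a.1 : ℕ) < N ∧ (a.2 : ℕ) < N) ∨ (N ≤ (a.1 : ℕ) ∧ a.2 = a.1)) ∧
    (Finset.univ.filter fun a => emb hn a ∈ q) ∈ P}, ⟨by simp, by simpa using hP.empty⟩,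
    fun p hp q hq => ⟨fun a ha => hp.1 a (hq ha), hP.sub _ hp.2 _ fun a ha => ?_⟩,
    fun p hp a ha b hb => ?_, fun p hp hc => ?_⟩
  · simp only [Finset.mem_filter, Finset.mem_univ, true_and] at ha ⊢
    exact hq ha
  · simp only [mat, Fin.ext_iff]
    rcases hp.1 a ha with h1 | ⟨h1, h1'⟩ <;> rcases hp.1 b hb with h2 | ⟨h2, h2'⟩
    · have := hP.iso _ hp.2 (⟨a.1, h1.1⟩, ⟨a.2, h1.2⟩) (by simpa [emb_apply] using ha)
        (⟨b.1, h2.1⟩, ⟨b.2, h2.2⟩) (by simpa [emb_apply] using hb)
      rw [padN_low hn hi h1.1 h2.1, padN_low hn hi' h1.2 h2.2]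
      simpa only [mat, Fin.ext_iff] using this
    · rw [h2', padN_high (by omega), padN_high (by omega), decide_eq_decide]
      omega
    · rw [h1', padN_high (by omega), padN_high (by omega), decide_eq_decide]
      omega
    · rw [h1', h2', padN_high (by omega), padN_high (by omega)]
      exact ⟨Iff.rfl, rfl⟩
  · have hc' : (Finset.univ.filter fun a => emb hn a ∈ p).card < K := by
      refine lt_of_le_of_lt (Finset.card_le_card_of_injOn (emb hn) (fun a ha => ?_)
        (emb hn).injective.injOn) hc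
      simpa using ha
    obtain ⟨φ, hφ⟩ := hP.ext _ hp.2 hc'
    refine ⟨Equiv.Perm.viaEmbedding φ (Fin.castLEEmb hn.le), fun z => ?_⟩
    by_cases hz : (z : ℕ) < N
    · have e : Equiv.Perm.viaEmbedding φ (Fin.castLEEmb hn.le) z =
          Fin.castLE hn.le (φ ⟨z, hz⟩) :=
        Equiv.Perm.viaEmbedding_apply φ (Fin.castLEEmb hn.le) ⟨z, hz⟩
      rw [e]
      refine ⟨fun a ha => ?_, ?_⟩
      · rcases Finset.mem_insert.1 ha with rfl | ha
        · exact Or.inl ⟨hz, (φ ⟨z, hz⟩).2⟩
        · exact hp.1 a ha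
      · convert hφ ⟨z, hz⟩ using 1
        ext a
        simp only [Finset.mem_filter, Finset.mem_univ, true_and, Finset.mem_insert]
        exact or_congr_left ((emb hn).injective.eq_iff (b := (⟨z, hz⟩, φ ⟨z, hz⟩)))
    · have e : Equiv.Perm.viaEmbedding φ (Fin.castLEEmb hn.le) z = z := by
        refine Equiv.Perm.viaEmbedding_apply_of_notMem φ _ z ?_
        rintro ⟨w, rfl⟩
        exact hz w.2
      rw [e]
      refine ⟨fun a ha => ?_, ?_⟩
      · rcases Finset.mem_insert.1 ha with rfl | ha
        · exact Or.inr ⟨not_lt.1 hz, rfl⟩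
        · exact hp.1 a ha
      · convert hp.2 using 1
        ext a
        simp only [Finset.mem_filter, Finset.mem_univ, true_and, Finset.mem_insert]
        refine or_iff_right fun e => hz ?_
        have : z = Fin.castLE hn.le a.1 := (congrArg Prod.fst e).symm
        rw [this]
        exact a.1.2

theorem pequiv_of_pad (hn : N < n) (h6 : 6 ≤ n) (hK : 2 ≤ K) (hi : ∀ x, adj x x = false)
    (hi' : ∀ x, adj' x x = false) (hd : MaxDegLeThree (mat N adj)) (hd' : MaxDegLeThree (mat N adj'))
    (hp : ∀ x, ∃ y, mat N adj x y = true) (hp' : ∀ x, ∃ y, mat N adj' x y = true)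
    (h : PEquiv (mat n (padN n N adj)) (mat n (padN n N adj')) K) :
    PEquiv (mat N adj) (mat N adj') K := by
  obtain ⟨P, hP⟩ := h
  refine ⟨{p | p.map (emb hn) ∈ P}, by simpa using hP.empty,
    fun p h q hq => hP.sub _ h _ (Finset.map_subset_map.2 hq),
    fun p h a ha b hb => ?_, fun p h hc => ?_⟩
  · have := hP.iso _ h _ (Finset.mem_map_of_mem _ ha) _ (Finset.mem_map_of_mem _ hb)
    simp only [emb_apply, mat, Fin.val_castLE, Fin.ext_iff] at this ⊢
    rwa [padN_low hn hi a.1.2 b.1.2, padN_low hn hi' a.2.2 b.2.2] at this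
  · obtain ⟨φ, hφ⟩ := hP.ext _ h (by rwa [Finset.card_map])
    have h1 : ∀ z : Fin n, (z : ℕ) < N ↔ (φ z : ℕ) < N := by
      intro z
      rw [low_iff hn h6 hi hd hp, low_iff hn h6 hi' hd' hp',
        deg_eq hP hK (hP.sub _ (hφ z) {(z, φ z)} (by simp))]
    refine ⟨⟨fun z => ⟨φ (Fin.castLE hn.le z), (h1 _).1 z.2⟩,
      fun w => ⟨φ.symm (Fin.castLE hn.le w), (h1 _).2 (by simp)⟩, fun z => ?_, fun w => ?_⟩,
      fun z => ?_⟩
    · apply Fin.ext
      simp [Fin.castLE]
    · apply Fin.ext
      simp [Fin.castLE]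
    · simp only [Set.mem_ofPred_eq, Finset.map_insert]
      exact hφ (Fin.castLE hn.le z)

end Crest.Agent.R290
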