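import Crest.Agent.R290.CoreSound
import Crest.Agent.R290.CoreComp
import Crest.Agent.R290.NeckStruct
import Crest.Agent.R290.Pad
import Crest.Agent.R290.Digits
import Crest.Agent.R290.Tableau

/-!
# Row 290: the reduction from runs of table machines to pairs of graphs
-/

set_option autoImplicit false

namespace Crest.Agent.R290

open Crest.WLRefine

namespace CS

variable (S : CS) (m : ℕ)

/-- The numbering of the constraints. -/
def conEquiv : S.Con m ≃ Fin (S.nC m) :=
  (Equiv.prodCongr (Equiv.refl _)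
    ((Equiv.prodCongr (Equiv.refl _) finProdFinEquiv).trans finProdFinEquiv)).trans finProdFinEquiv

theorem sl_symm (c : Fin (S.nC m)) : S.sl m ((S.conEquiv m).symm c) = sl3 (S.nC m) (S.sv m) c := by
  have e0 : 3 * (c : ℕ) / 3 = c := by omega
  have e1 : (3 * (c : ℕ) + 1) / 3 = c := by omega
  have e2 : (3 * (c : ℕ) + 2) / 3 = c := by omega
  have f0 : 3 * (c : ℕ) % 3 = 0 := by omega
  have f1 : (3 * (c : ℕ) + 1) % 3 = 1 := by omega
  have f2 : (3 * (c : ℕ) + 2) % 3 = 2 := by omega
  simp only [sl3, sv, e0, e1, e2, f0, f1, f2]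
  rfl

theorem bst_symm (c : Fin (S.nC m)) :
    S.bst m ((S.conEquiv m).symm c) = S.bN m false c + S.bN m true c := by
  have key : ∀ X Y n : ℕ, 0 < m * X → X = Y * n →
      ((c : ℕ) / (m * X) = 0 ∧ (c : ℕ) % (m * X) / X = 0 ∧ (c : ℕ) % (m * X) % X % n = 0 ↔
        (c : ℕ) < X ∧ (c : ℕ) % n = 0) := by
    intro X Y n h hX
    have hX0 : 0 < X := Nat.pos_of_mul_pos_left h
    have hm0 : 0 < m := Nat.pos_of_mul_pos_right h
    have hle : X ≤ m * X := Nat.le_mul_of_pos_left X hm0
    rw [Nat.div_eq_zero_iff_lt h, Nat.div_eq_zero_iff_lt hX0]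
    constructor
    · rintro ⟨h1, h2, h3⟩
      rw [Nat.mod_eq_of_lt h1] at h2 h3
      rw [Nat.mod_eq_of_lt h2] at h3
      exact ⟨h2, h3⟩
    · rintro ⟨h1, h2⟩
      have h3 : (c : ℕ) < m * X := lt_of_lt_of_le h1 hle
      rw [Nat.mod_eq_of_lt h3, Nat.mod_eq_of_lt h1]
      exact ⟨h3, h1, h2⟩
  have hpos : 0 < m * (S.nA * ncol m) := Nat.pos_of_mul_pos_left (Fin.pos c)
  have := key (S.nA * ncol m) S.nA (ncol m) hpos rfl
  simp only [bN, Bool.false_eq_true, false_and, if_false, zero_add, true_and, ← this]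
  rfl

variable {S m}

theorem consistent_sl3 {K : ℕ} (h : Consistent (S.sl m) (S.bst m) K) :
    Consistent (sl3 (S.nC m) (S.sv m)) (fun c => S.bN m false c + S.bN m true c) K := by
  have := h.reindex (S.conEquiv m).symm
  simp only [sl_symm, bst_symm] at this
  exact this

theorem sl_eq (z : S.Con m) : sl3 (S.nC m) (S.sv m) (S.conEquiv m z) = S.sl m z := by
  rw [← sl_symm, Equiv.symm_apply_apply]

theorem not_solvable_sl3 (h : ¬ Solvable (S.sl m) (S.bst m)) :
    ¬ Solvable (sl3 (S.nC m) (S.sv m)) (fun c => S.bN m false c + S.bN m true c) := by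
  intro h'
  have := h'.reindex (S.conEquiv m)
  simp only [sl_eq, ← bst_symm, Equiv.symm_apply_apply] at this
  exact h this

theorem solvable_sl3 {K : ℕ} (h : ∀ b : S.Con m → ZMod 2, Consistent (S.sl m) b K → Solvable (S.sl m) b)
    {b : Fin (S.nC m) → ZMod 2} (hb : Consistent (sl3 (S.nC m) (S.sv m)) b K) :
    Solvable (sl3 (S.nC m) (S.sv m)) b := by
  have h1 := hb.reindex (S.conEquiv m)
  simp only [sl_eq] at h1
  have h2 := (h _ h1).reindex (S.conEquiv m).symm
  simp only [sl_symm, Equiv.apply_symm_apply] at h2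
  exact h2

end CS

variable {M : Tbl} {w : List Bool} {nA d m n T : ℕ}

theorem redN_le (M : Tbl) (w : List Bool) (nA d m : ℕ) : redN M w nA d m ≤
    (1 + (w.length + 14 * (M.length + 1) ^ 4) * (d * d)) * (m * (nA * (2 * m + 15))) * 31 := by
  have := length_brules M w
  change (1 + (brules M w).length * (d * d)) * (m * (nA * (2 * m + 15))) * 31 ≤ _
  gcongr

theorem red_nC_pos (hA : 2 ≤ nA) (hd : 1 ≤ d) (hm : 32 * d ≤ m) : 0 < (redS M w nA d).nC m := by
  change 0 < (1 + (brules M w).length * (d * d)) * (m * (nA * (2 * m + 15)))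
  have : 0 < m := by omega
  have : 0 < nA := by omega
  positivity

theorem redN_pos (hA : 2 ≤ nA) (hd : 1 ≤ d) (hm : 32 * d ≤ m) : 0 < redN M w nA d m :=
  Nat.mul_pos (red_nC_pos hA hd hm) (by norm_num)

theorem red_subcubic (hA : 2 ≤ nA) (hd : 1 ≤ d) (hm : 32 * d ≤ m) (tw : Bool) :
    SimpleConnSubcubic (redG M w nA d m tw) :=
  neckN_subcubic (red_nC_pos hA hd hm) _ _

theorem red_biso (M : Tbl) (w : List Bool) (nA d m : ℕ) (tw : Bool) :
    BIso (neckG ((redS M w nA d).nC m) ((redS M w nA d).sv m) ((redS M w nA d).bN m tw))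
      (redG M w nA d m tw) :=
  biso_neckN _ _ _

theorem red_wf (hM : M.WF) (hA : 2 ≤ nA) (hd : 1 ≤ d) : (redS M w nA d).WF :=
  csB_wf hA hd (brules_wf hM w)

theorem red_k (hm : 32 * d ≤ m) : 16 * (redS M w nA d).k ≤ m := by
  change 16 * (2 * d) ≤ m
  omega

theorem red_not_iso (hM : M.WF) (hA : 2 ≤ nA) (hd : 1 ≤ d) (hm : 32 * d ≤ m) :
    ¬ BIso (redG M w nA d m false) (redG M w nA d m true) := fun h =>
  CS.not_solvable_sl3 (core_unsat (red_wf hM hA hd) (red_k hm))
    (solvable_of_neck_iso (((red_biso M w nA d m false).trans h).trans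
      (red_biso M w nA d m true).symm))

theorem red_reject (hM : M.WF) (hA : 2 ≤ nA) (hd : 1 ≤ d) (hm : 32 * d ≤ m)
    (hB : w.length + T < nA ^ d) (h : M.Halts w T false) :
    PEquiv (redG M w nA d m false) (redG M w nA d m true) (m + 5) :=
  (neck_sound (CS.consistent_sl3 (core_sound (red_wf hM hA hd) (red_k hm)
    (csB_noGoal hA hd (brules_reject hM hB h))))).congr (red_biso M w nA d m false)
    (red_biso M w nA d m true)

theorem red_accept (hM : M.WF) (hA : 2 ≤ nA) (hd : 1 ≤ d) (hm : 32 * d ≤ m)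
    (hB : w.length + T < nA ^ d) (h : M.Halts w T true) {W : Type} [DecidableEq W]
    {H : W → W → Bool} (hH : PEquiv (redG M w nA d m false) H (m + 4)) :
    BIso (redG M w nA d m false) H := by
  have h1 := hH.congr (red_biso M w nA d m false).symm (BIso.refl H)
  obtain ⟨b', hb'⟩ := neck_struct (h1.mono (by omega))
  have h2 := neck_complete (K := m + 2) (h1.congr (BIso.refl _) hb'.symm)
  have h3 := CS.solvable_sl3 (fun b hb => core_sat (red_wf hM hA hd) (red_k hm)
    (csB_allTrue hA hd (brules_accept hM hB h)) hb) h2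
  exact ((red_biso M w nA d m false).symm.trans (neck_iso h3)).trans hb'

theorem redP_diam (hn : redN M w nA d m < n) (tw : Bool) :
    SimpleConnDiamTwo (redP M w nA d m n tw) :=
  pad_diam (neckN_symm _ _) hn

theorem redP_reject (hM : M.WF) (hA : 2 ≤ nA) (hd : 1 ≤ d) (hm : 32 * d ≤ m)
    (hB : w.length + T < nA ^ d) (h : M.Halts w T false) (hn : redN M w nA d m < n) :
    PEquiv (redP M w nA d m n false) (redP M w nA d m n true) (m + 5) :=
  pad_pequiv hn (neckN_irrefl _ _) (neckN_irrefl _ _) (red_reject hM hA hd hm hB h)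

theorem redP_accept (hM : M.WF) (hA : 2 ≤ nA) (hd : 1 ≤ d) (hm : 32 * d ≤ m)
    (hB : w.length + T < nA ^ d) (h : M.Halts w T true) (hn : redN M w nA d m < n) :
    ¬ PEquiv (redP M w nA d m n false) (redP M w nA d m n true) (m + 4) := fun hP => by
  have h0 := red_nC_pos (M := M) (w := w) hA hd hm
  have h6 : 6 ≤ n := by unfold redN at hn; omega
  exact red_not_iso hM hA hd hm (red_accept hM hA hd hm hB h
    (pequiv_of_pad hn h6 (by omega) (neckN_irrefl _ _) (neckN_irrefl _ _)
      (red_subcubic hA hd hm false).2.2 (red_subcubic hA hd hm true).2.2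
      (neckN_deg_pos _ _ _) (neckN_deg_pos _ _ _) hP))

end Crest.Agent.R290
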