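import Crest.Agent.R290.Defs

/-!
# Row 290: every multi-stack machine on bit strings is simulated by a table machine
-/

set_option autoImplicit false

namespace Crest.Agent.R290

namespace TMAux

open Turing Turing.TM2 Function

lemma exists_table (nS nG nQ : ℕ) (hG : 0 < nG) (stk : ℕ → ℕ) (op nxt : ℕ → ℕ → ℕ) :
    ∃ N : Tbl, N.nS = nS ∧ N.nG = nG ∧ N.nQ = nQ ∧ (∀ q < nQ, N.stk q = stk q) ∧
      ∀ q < nQ, ∀ γ < nG, N.op q γ = op q γ ∧ N.nxt q γ = nxt q γ := by
  let F : ℕ → ℕ := fun i => if i = 0 then nS else if i = 1 then nG else if i = 2 then nQ else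
    if i < 3 + nQ then stk (i - 3) else
    if (i - (3 + nQ)) % 2 = 0 then op ((i - (3 + nQ)) / 2 / nG) ((i - (3 + nQ)) / 2 % nG)
    else nxt ((i - (3 + nQ)) / 2 / nG) ((i - (3 + nQ)) / 2 % nG)
  let L := 3 + nQ + 2 * (nQ * nG) + nS + nG
  have hget : ∀ i < L, ((List.range L).map F).getD i 0 = F i := fun i hi => by
    simp [List.getD_eq_getElem?_getD, hi]
  have hlen : ((List.range L).map F).length = L := by simp
  have h1 : Tbl.nG ((List.range L).map F) = nG := by
    rw [Tbl.nG, hget 1 (by omega), hlen]; simp only [F]; simp; omega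
  have h2 : Tbl.nQ ((List.range L).map F) = nQ := by
    rw [Tbl.nQ, hget 2 (by omega), hlen]; simp only [F]; simp; omega
  refine ⟨(List.range L).map F, ?_, h1, h2, fun q hq => ?_, fun q hq γ hγ => ?_⟩
  · rw [Tbl.nS, hget 0 (by omega), hlen]; simp only [F]; simp; omega
  · rw [Tbl.stk, hget _ (by omega)]
    simp only [F]
    rw [if_neg (by omega), if_neg (by omega), if_neg (by omega), if_pos (by omega)]
    simp
  · have h3 : q * nG + γ < nQ * nG := by
      calc q * nG + γ < (q + 1) * nG := by rw [add_mul, one_mul]; omega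
        _ ≤ nQ * nG := Nat.mul_le_mul_right _ hq
    have h4 : (q * nG + γ) / nG = q := by
      rw [add_comm, Nat.add_mul_div_right _ _ hG, Nat.div_eq_of_lt hγ, zero_add]
    have h5 : (q * nG + γ) % nG = γ := by
      rw [add_comm, Nat.add_mul_mod_self_right, Nat.mod_eq_of_lt hγ]
    rw [Tbl.op, Tbl.nxt, h1, h2]
    generalize q * nG + γ = j at h3 h4 h5
    rw [hget _ (by omega), hget _ (by omega)]
    simp only [F]
    constructor
    · rw [if_neg (by omega), if_neg (by omega), if_neg (by omega), if_neg (by omega),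
        if_pos (by omega), show (3 + nQ + 2 * j - (3 + nQ)) / 2 = j by omega, h4, h5]
    · rw [if_neg (by omega), if_neg (by omega), if_neg (by omega), if_neg (by omega),
        if_neg (by omega), show (3 + nQ + 2 * j + 1 - (3 + nQ)) / 2 = j by omega, h4, h5]

lemma getD_idxOf {α : Type} [DecidableEq α] {l : List α} {a : α} (h : a ∈ l) (d : α) :
    l.getD (l.idxOf a) d = a := by
  rw [List.getD_eq_getElem _ _ (List.idxOf_lt_length_of_mem h), List.getElem_idxOf]

lemma idxOf_inj' {α : Type} [DecidableEq α] {l : List α} {a b : α} (h : a ∈ l)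
    (hab : l.idxOf a = l.idxOf b) : a = b := by
  have hb : b ∈ l := List.idxOf_lt_length_iff.1 (hab ▸ List.idxOf_lt_length_of_mem h)
  rw [← getD_idxOf h a, hab, getD_idxOf hb]

variable {K : Type} {Γ : K → Type} {Λ σ : Type}

/-- The direct substatements. -/
def kids : Stmt Γ Λ σ → List (Stmt Γ Λ σ)
  | .push _ _ q => [q]
  | .peek _ _ q => [q]
  | .pop _ _ q => [q]
  | .load _ q => [q]
  | .branch _ q₁ q₂ => [q₁, q₂]
  | .goto _ => []
  | .halt => []

/-- All substatements. -/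
def sub : Stmt Γ Λ σ → List (Stmt Γ Λ σ)
  | .push k f q => .push k f q :: sub q
  | .peek k f q => .peek k f q :: sub q
  | .pop k f q => .pop k f q :: sub q
  | .load f q => .load f q :: sub q
  | .branch f q₁ q₂ => .branch f q₁ q₂ :: (sub q₁ ++ sub q₂)
  | .goto f => [.goto f]
  | .halt => [.halt]

lemma sub_self (q : Stmt Γ Λ σ) : q ∈ sub q := by cases q <;> simp [sub]

lemma sub_kids {q q' c : Stmt Γ Λ σ} (h : q' ∈ sub q) (hc : c ∈ kids q') : c ∈ sub q := by
  induction q with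
  | branch f q₁ q₂ ih₁ ih₂ =>
    simp only [sub, List.mem_cons, List.mem_append] at h ⊢
    rcases h with rfl | h | h
    · simp only [kids, List.mem_cons, List.not_mem_nil, or_false] at hc
      rcases hc with rfl | rfl <;> simp [sub_self]
    · exact Or.inr (Or.inl (ih₁ h))
    · exact Or.inr (Or.inr (ih₂ h))
  | goto f => simp only [sub, List.mem_singleton] at h; subst h; simp [kids] at hc
  | halt => simp only [sub, List.mem_singleton] at h; subst h; simp [kids] at hc
  | load _ q ih | _ _ _ q ih =>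
    simp only [sub, List.mem_cons] at h ⊢
    rcases h with rfl | h
    · simp only [kids, List.mem_singleton] at hc
      subst hc; exact Or.inr (sub_self _)
    · exact Or.inr (ih h)

/-- States of the simulating machine. -/
inductive St (Γ : K → Type) (Λ σ : Type) : Type
  | rej | acc | start | fin
  | run (q : Stmt Γ Λ σ) (v : σ)

/-- The data of the simulation. -/
structure Dat (Γ : K → Type) (Λ σ : Type) where
  k₀ : K
  k₁ : K
  m : Λ → Stmt Γ Λ σ
  main : Λ
  v₀ : σ
  yes : Γ k₁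
  LK : List K
  LG : List (Σ k, Γ k)
  LQ : List (St Γ Λ σ)
  hK : ∀ k, k ∈ LK
  hm : ∀ l v, St.run (m l) v ∈ LQ
  hkids : ∀ q v, St.run q v ∈ LQ → ∀ c ∈ kids q, ∀ v', St.run c v' ∈ LQ
  hpush : ∀ k f q v, St.run (.push k f q) v ∈ LQ → (⟨k, f v⟩ : Σ k, Γ k) ∈ LG

namespace Dat
open scoped Classical

variable (d : Dat Γ Λ σ)

/-- All states. -/
def Q : List (St Γ Λ σ) := .rej :: .acc :: .start :: .fin :: d.LQ
/-- Code of a state. -/
noncomputable def cq (a : St Γ Λ σ) : ℕ := d.Q.idxOf a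
/-- Code of a stack. -/
noncomputable def ck (k : K) : ℕ := (d.k₀ :: d.LK).idxOf k
/-- Code of a symbol. -/
noncomputable def cg (k : K) (x : Γ k) : ℕ := d.LG.idxOf ⟨k, x⟩ + 1
/-- Decoding of a symbol. -/
noncomputable def dg (k : K) (n : ℕ) : Option (Γ k) :=
  if h : ∃ x, d.cg k x = n then some h.choose else none

/-- The stack used. -/
def stkA : St Γ Λ σ → K
  | .run (.push k _ _) _ => k
  | .run (.peek k _ _) _ => k
  | .run (.pop k _ _) _ => k
  | .fin => d.k₁
  | _ => d.k₀

/-- The operation. -/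
noncomputable def opA : St Γ Λ σ → ℕ
  | .run (.push k f _) v => d.cg k (f v) + 1
  | .run (.pop _ _ _) _ => 1
  | _ => 0

/-- The next state. -/
noncomputable def nxtA : St Γ Λ σ → ℕ → St Γ Λ σ
  | .run (.push _ _ q) v, _ => .run q v
  | .run (.peek k f q) v, γ => .run q (f v (d.dg k γ))
  | .run (.pop k f q) v, γ => .run q (f v (d.dg k γ))
  | .run (.load f q) v, _ => .run q (f v)
  | .run (.branch f q₁ q₂) v, _ => .run (cond (f v) q₁ q₂) v
  | .run (.goto f) v, _ => .run (d.m (f v)) v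
  | .run .halt _, _ => .fin
  | .rej, _ => .rej
  | .acc, _ => .acc
  | .start, _ => .run (d.m d.main) d.v₀
  | .fin, γ => if γ = d.cg d.k₁ d.yes then .acc else .rej

/-- The table realises the abstract machine. -/
structure Real (N : Tbl) : Prop where
  nS : N.nS = d.LK.length + 2
  nG : N.nG = d.LG.length + 3
  nQ : N.nQ = d.Q.length + 1
  stk : ∀ q < d.Q.length + 1, N.stk q = d.ck (d.stkA (d.Q.getD q .rej))
  tab : ∀ q < d.Q.length + 1, ∀ γ < d.LG.length + 3,
    N.op q γ = d.opA (d.Q.getD q .rej) ∧ N.nxt q γ = d.cq (d.nxtA (d.Q.getD q .rej) γ)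

lemma exists_real : ∃ N, d.Real N := by
  obtain ⟨N, h1, h2, h3, h4, h5⟩ := exists_table (d.LK.length + 2) (d.LG.length + 3)
    (d.Q.length + 1) (by omega) (fun q => d.ck (d.stkA (d.Q.getD q .rej)))
    (fun q _ => d.opA (d.Q.getD q .rej)) (fun q γ => d.cq (d.nxtA (d.Q.getD q .rej) γ))
  exact ⟨N, h1, h2, h3, h4, h5⟩

lemma cq_lt (a : St Γ Λ σ) : d.cq a < d.Q.length + 1 := Nat.lt_succ_of_le List.idxOf_le_length
lemma ck_lt (k : K) : d.ck k < d.LK.length + 2 := Nat.lt_succ_of_le List.idxOf_le_length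
lemma cg_le (k : K) (x : Γ k) : d.cg k x ≤ d.LG.length + 1 :=
  Nat.succ_le_succ List.idxOf_le_length

lemma cq_rej : d.cq .rej = 0 := by simp [cq, Q]
lemma cq_acc : d.cq .acc = 1 := by simp [cq, Q]
lemma cq_start : d.cq .start = 2 := by simp [cq, Q]
lemma ck_zero : d.ck d.k₀ = 0 := by simp [ck]

lemma ck_inj {k k' : K} (h : d.ck k = d.ck k') : k = k' :=
  idxOf_inj' (List.mem_cons_of_mem _ (d.hK k)) h

lemma cg_inj {k : K} {x y : Γ k} (hx : (⟨k, x⟩ : Σ k, Γ k) ∈ d.LG) (h : d.cg k x = d.cg k y) :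
    x = y := by
  have := idxOf_inj' hx (Nat.succ_injective h)
  simpa using this

lemma opA_le (a : St Γ Λ σ) : d.opA a ≤ d.LG.length + 3 := by
  rcases a with _ | _ | _ | _ | ⟨q, v⟩
  all_goals try (simp [opA]; done)
  cases q with
  | push k f q => have := d.cg_le k (f v); simp only [opA]; omega
  | _ => simp [opA]

variable {d}

lemma Real.wf {N : Tbl} (h : d.Real N) : N.WF := by
  have hQ : 4 ≤ d.Q.length := by simp [Q]
  refine ⟨by rw [h.nS]; omega, by rw [h.nG]; omega, by rw [h.nQ]; omega, ?_, ?_, ?_, ?_⟩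
  · rw [h.nQ, h.nS]; intro q hq; rw [h.stk q hq]; exact d.ck_lt _
  · rw [h.nQ, h.nG]; intro q hq γ hγ; rw [(h.tab q hq γ hγ).1]; exact d.opA_le _
  · rw [h.nQ, h.nG]; intro q hq γ hγ; rw [(h.tab q hq γ hγ).2]; exact d.cq_lt _
  · rw [h.nG]; intro q hq γ hγ
    rw [(h.tab q (by omega) γ hγ).1, (h.tab q (by omega) γ hγ).2]
    interval_cases q
    · exact ⟨rfl, d.cq_rej⟩
    · exact ⟨rfl, d.cq_acc⟩

variable (d) in
/-- The stacks of the table machine code those of the given machine. -/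
structure Rel (t : List (List ℕ)) (S : ∀ k, List (Γ k)) : Prop where
  len : t.length = d.LK.length + 2
  get : ∀ k, t.getD (d.ck k) [] = (S k).map (d.cg k)
  mem : ∀ k, ∀ x ∈ S k, (⟨k, x⟩ : Σ k, Γ k) ∈ d.LG

lemma Rel.update [DecidableEq K] {t : List (List ℕ)} {S : ∀ k, List (Γ k)} (h : d.Rel t S)
    (k : K) (s : List (Γ k)) (hs : ∀ x ∈ s, (⟨k, x⟩ : Σ k, Γ k) ∈ d.LG) :
    d.Rel (t.set (d.ck k) (s.map (d.cg k))) (update S k s) := by
  refine ⟨by rw [List.length_set, h.len], fun k' => ?_, fun k' => ?_⟩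
  · by_cases hk : k' = k
    · subst hk
      have := d.ck_lt k'
      rw [← h.len] at this
      simp [List.getD_eq_getElem?_getD, this]
    · have : d.ck k ≠ d.ck k' := fun e => hk (d.ck_inj e).symm
      rw [update_of_ne hk, ← h.get]
      simp [List.getD_eq_getElem?_getD, this]
  · by_cases hk : k' = k
    · subst hk; rwa [update_self]
    · rw [update_of_ne hk]; exact h.mem k'

lemma Rel.same {t : List (List ℕ)} {S : ∀ k, List (Γ k)} (h : d.Rel t S) (k : K) :
    d.Rel (t.set (d.ck k) ((S k).map (d.cg k))) S := by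
  have := h.update k (S k) (h.mem k)
  rwa [update_eq_self] at this

lemma Rel.dg {t : List (List ℕ)} {S : ∀ k, List (Γ k)} (h : d.Rel t S) (k : K) :
    d.dg k (((S k).map (d.cg k)).headD 0) = (S k).head? := by
  have hm := h.mem k
  rcases hS : S k with _ | ⟨x, s⟩
  · rw [Dat.dg, dif_neg]
    · rfl
    · rintro ⟨x, hx⟩; simp [cg] at hx
  · rw [hS] at hm
    have he : ∃ y, d.cg k y = ((x :: s).map (d.cg k)).headD 0 := ⟨x, rfl⟩
    rw [Dat.dg, dif_pos he]
    exact congrArg some (d.cg_inj (hm x (by simp)) he.choose_spec.symm).symm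

lemma Real.step {N : Tbl} (h : d.Real N) {a : St Γ Λ σ} (ha : a ∈ d.Q) {t : List (List ℕ)}
    {S : ∀ k, List (Γ k)} (hr : d.Rel t S) :
    N.step (d.cq a, t) = (d.cq (d.nxtA a (((S (d.stkA a)).map (d.cg _)).headD 0)),
      t.set (d.ck (d.stkA a)) (Tbl.app (d.opA a) ((S (d.stkA a)).map (d.cg _)))) := by
  have h1 : d.Q.getD (d.cq a) .rej = a := getD_idxOf ha _
  have h2 : N.stk (d.cq a) = d.ck (d.stkA a) := by rw [h.stk _ (d.cq_lt a), h1]
  have h3 : ((S (d.stkA a)).map (d.cg _)).headD 0 < d.LG.length + 3 := by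
    rcases S (d.stkA a) with _ | ⟨x, s⟩
    · simp
    · have := d.cg_le _ x
      simp only [List.map_cons, List.headD_cons]; omega
  have h4 := h.tab _ (d.cq_lt a) _ h3
  rw [h1] at h4
  simp only [Tbl.step, Tbl.top, h2, hr.get, h4.1, h4.2]

lemma Real.step0 {N : Tbl} (h : d.Real N) {a : St Γ Λ σ} (ha : a ∈ d.Q) (h0 : d.opA a = 0)
    {t : List (List ℕ)} {S : ∀ k, List (Γ k)} (hr : d.Rel t S) :
    ∃ t', d.Rel t' S ∧
      N.step (d.cq a, t) = (d.cq (d.nxtA a (((S (d.stkA a)).map (d.cg _)).headD 0)), t') := by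
  refine ⟨_, hr.same (d.stkA a), ?_⟩
  rw [h.step ha hr, h0, Tbl.app, if_pos rfl]

lemma mem_Q {a : St Γ Λ σ} (h : a ∈ d.LQ) : a ∈ d.Q := by simp [Q, h]

variable (d) in
/-- The state attached to a configuration. -/
def st (c : Cfg Γ Λ σ) : St Γ Λ σ :=
  match c.l with
  | some l => .run (d.m l) c.var
  | none => .fin

variable [DecidableEq K]

lemma Real.aux {N : Tbl} (h : d.Real N) (q : Stmt Γ Λ σ) : ∀ (v : σ) (S : ∀ k, List (Γ k))
    (t : List (List ℕ)), St.run q v ∈ d.LQ → d.Rel t S →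
    ∃ n ≤ (sub q).length, ∃ t', d.Rel t' (stepAux q v S).stk ∧
      N.step^[n] (d.cq (.run q v), t) = (d.cq (d.st (stepAux q v S)), t') := by
  induction q with
  | push k f q ih =>
    intro v S t hq hr
    have h1 := h.step (mem_Q hq) hr
    have h2 := hr.update k (f v :: S k) (by
      intro x hx
      rcases List.mem_cons.1 hx with rfl | hx
      exacts [d.hpush k f q v hq, hr.mem k x hx])
    obtain ⟨n, hn, t', h3, h4⟩ := ih v _ _ (d.hkids _ _ hq q (by simp [kids]) v) h2
    refine ⟨n + 1, by simp [sub, hn], t', h3, ?_⟩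
    rw [iterate_succ_apply, h1, stepAux.eq_1, ← h4]
    simp [stkA, opA, nxtA, Tbl.app, cg]
  | peek k f q ih =>
    intro v S t hq hr
    obtain ⟨t₁, h2, h1⟩ := h.step0 (mem_Q hq) rfl hr
    obtain ⟨n, hn, t', h3, h4⟩ := ih (f v (S k).head?) _ _
      (d.hkids _ _ hq q (by simp [kids]) _) h2
    refine ⟨n + 1, by simp [sub, hn], t', h3, ?_⟩
    rw [iterate_succ_apply, h1, stepAux.eq_2, ← h4, ← hr.dg k]
    rfl
  | pop k f q ih =>
    intro v S t hq hr
    have h1 := h.step (mem_Q hq) hr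
    have h2 := hr.update k (S k).tail fun x hx => hr.mem k x (List.mem_of_mem_tail hx)
    obtain ⟨n, hn, t', h3, h4⟩ := ih (f v (S k).head?) _ _
      (d.hkids _ _ hq q (by simp [kids]) _) h2
    refine ⟨n + 1, by simp [sub, hn], t', h3, ?_⟩
    rw [iterate_succ_apply, h1, stepAux.eq_3, ← h4, ← hr.dg k, List.map_tail]
    rfl
  | load f q ih =>
    intro v S t hq hr
    obtain ⟨t₁, h2, h1⟩ := h.step0 (mem_Q hq) rfl hr
    obtain ⟨n, hn, t', h3, h4⟩ := ih (f v) _ _ (d.hkids _ _ hq q (by simp [kids]) _) h2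
    refine ⟨n + 1, by simp [sub, hn], t', h3, ?_⟩
    rw [iterate_succ_apply, h1, stepAux.eq_4, ← h4]
    rfl
  | branch f q₁ q₂ ih₁ ih₂ =>
    intro v S t hq hr
    obtain ⟨t₁, h2, h1⟩ := h.step0 (mem_Q hq) rfl hr
    rw [stepAux.eq_5]
    cases hf : f v
    · obtain ⟨n, hn, t', h3, h4⟩ := ih₂ v _ _ (d.hkids _ _ hq q₂ (by simp [kids]) _) h2
      refine ⟨n + 1, by simp only [sub, List.length_cons, List.length_append]; omega, t', h3, ?_⟩
      rw [iterate_succ_apply, h1]
      simpa only [nxtA, hf, cond_false] using h4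
    · obtain ⟨n, hn, t', h3, h4⟩ := ih₁ v _ _ (d.hkids _ _ hq q₁ (by simp [kids]) _) h2
      refine ⟨n + 1, by simp only [sub, List.length_cons, List.length_append]; omega, t', h3, ?_⟩
      rw [iterate_succ_apply, h1]
      simpa only [nxtA, hf, cond_true] using h4
  | goto f =>
    intro v S t hq hr
    obtain ⟨t₁, h2, h1⟩ := h.step0 (mem_Q hq) rfl hr
    exact ⟨1, by simp [sub], t₁, h2, h1⟩
  | halt =>
    intro v S t hq hr
    obtain ⟨t₁, h2, h1⟩ := h.step0 (mem_Q hq) rfl hr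
    exact ⟨1, by simp [sub], t₁, h2, h1⟩

lemma iter_none {α : Type} (f : α → Option α) (n : ℕ) : (flip bind f)^[n] none = none :=
  iterate_fixed rfl n

lemma Real.iter {N : Tbl} (h : d.Real N) {D : ℕ} (hD : ∀ l, (sub (d.m l)).length ≤ D) (n : ℕ) :
    ∀ (c c' : Cfg Γ Λ σ) (t : List (List ℕ)), (flip bind (TM2.step d.m))^[n] (some c) = some c' →
      d.Rel t c.stk → ∃ n' ≤ D * n, ∃ t', d.Rel t' c'.stk ∧
        N.step^[n'] (d.cq (d.st c), t) = (d.cq (d.st c'), t') := by
  induction n with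
  | zero =>
    intro c c' t hc hr
    obtain rfl : c = c' := Option.some.inj hc
    exact ⟨0, le_rfl, t, hr, rfl⟩
  | succ n ih =>
    rintro ⟨_ | l, v, S⟩ c' t hc hr
    · rw [iterate_succ_apply] at hc
      exact absurd ((iter_none _ n).symm.trans hc) (by simp)
    · rw [iterate_succ_apply] at hc
      obtain ⟨n₁, hn₁, t₁, h1, h2⟩ := h.aux (d.m l) v S t (d.hm l v) hr
      obtain ⟨n₂, hn₂, t₂, h3, h4⟩ := ih _ c' t₁ hc h1
      refine ⟨n₂ + n₁, ?_, t₂, h3, ?_⟩
      · have := hD l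
        rw [Nat.mul_succ]; omega
      · rw [iterate_add_apply, ← h4, ← h2]; rfl

omit [DecidableEq K] in
lemma Real.stay {N : Tbl} (h : d.Real N) (β : Bool) (n : ℕ) : ∀ (t : List (List ℕ))
    (S : ∀ k, List (Γ k)), d.Rel t S →
      (N.step^[n] (d.cq (cond β .acc .rej), t)).1 = if β = true then 1 else 0 := by
  induction n with
  | zero => intro t S _; cases β <;> simp [cq_acc, cq_rej]
  | succ n ih =>
    intro t S hr
    obtain ⟨t', h1, h2⟩ := h.step0 (a := cond β .acc .rej) (by cases β <;> simp [Q])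
      (by cases β <;> rfl) hr
    rw [iterate_succ_apply, h2, ← ih t' S h1]
    cases β <;> rfl

end Dat

end TMAux

open TMAux in
theorem exists_tbl (M : Turing.TM2ComputableAux Bool Bool) :
    ∃ (N : Tbl) (D : ℕ), N.WF ∧ ∀ (w : List Bool) (β : Bool) (T : ℕ),
      Nonempty (Turing.TM2OutputsInTime M.tm (w.map M.inputAlphabet.invFun)
        (some ([β].map M.outputAlphabet.invFun)) T) → N.Halts w (D * T + D) β := by
  classical
  obtain ⟨tm, ia, oa⟩ := M
  let _ := tm.kFin
  let _ := tm.ΛFin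
  let _ := tm.σFin
  let P : List (Turing.TM2.Stmt tm.Γ tm.Λ tm.σ) :=
    (Finset.univ : Finset tm.Λ).toList.flatMap fun l => sub (tm.m l)
  have hP : ∀ q, q ∈ P ↔ ∃ l, q ∈ sub (tm.m l) := fun q => by simp [P]
  let LQ : List (St tm.Γ tm.Λ tm.σ) :=
    P.flatMap fun q => (Finset.univ : Finset tm.σ).toList.map fun v => St.run q v
  have hLQ : ∀ q v, St.run q v ∈ LQ ↔ q ∈ P := fun q v => by simp [LQ]
  let pu : St tm.Γ tm.Λ tm.σ → Option (Σ k, tm.Γ k) := fun a => match a with
    | .run (.push k f _) v => some ⟨k, f v⟩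
    | _ => none
  let d : Dat tm.Γ tm.Λ tm.σ :=
    { k₀ := tm.k₀, k₁ := tm.k₁, m := tm.m, main := tm.main, v₀ := tm.initialState
      yes := oa.symm true
      LK := Finset.univ.toList
      LG := ⟨tm.k₀, ia.symm false⟩ :: ⟨tm.k₀, ia.symm true⟩ :: LQ.filterMap pu
      LQ := LQ
      hK := fun k => by simp
      hm := fun l v => (hLQ _ _).2 ((hP _).2 ⟨l, sub_self _⟩)
      hkids := fun q v hq c hc v' => by
        obtain ⟨l, hl⟩ := (hP _).1 ((hLQ _ _).1 hq)
        exact (hLQ _ _).2 ((hP _).2 ⟨l, sub_kids hl hc⟩)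
      hpush := fun k f q v hq => List.mem_cons_of_mem _ (List.mem_cons_of_mem _
        (List.mem_filterMap.2 ⟨_, hq, rfl⟩)) }
  obtain ⟨N, hN⟩ := d.exists_real
  refine ⟨N, (∑ l, (sub (tm.m l)).length) + 2, hN.wf, ?_⟩
  rintro w β T ⟨⟨⟨n, hn⟩, hT⟩⟩
  have hcg : ∀ b, d.cg tm.k₀ (ia.symm b) = Tbl.sym b := fun b => by
    cases b <;> simp [Dat.cg, d, Tbl.sym]
  have hr : d.Rel (w.map Tbl.sym :: List.replicate (N.nS - 1) [])
      (Turing.initList tm (w.map ia.invFun)).stk := by
    refine ⟨by simp [hN.nS], fun k => ?_, fun k x hx => ?_⟩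
    · by_cases hk : k = tm.k₀
      · subst hk
        have h0 : d.ck tm.k₀ = 0 := d.ck_zero
        have h1 : (Turing.initList tm (w.map ia.invFun)).stk tm.k₀ = w.map ia.invFun :=
          dif_pos rfl
        rw [h0, h1, List.map_map]
        exact List.map_congr_left fun b _ => (hcg b).symm
      · have h0 : d.ck k ≠ 0 := fun e => hk (d.ck_inj (e.trans d.ck_zero.symm))
        have h1 : (Turing.initList tm (w.map ia.invFun)).stk k = [] := dif_neg hk
        obtain ⟨j, hj⟩ := Nat.exists_eq_succ_of_ne_zero h0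
        rw [h1, hj, List.getD_cons_succ, List.getD_eq_getElem?_getD, List.getElem?_replicate]
        split_ifs <;> rfl
    · by_cases hk : k = tm.k₀
      · subst hk
        have h1 : (Turing.initList tm (w.map ia.invFun)).stk tm.k₀ = w.map ia.invFun :=
          dif_pos rfl
        rw [h1] at hx
        obtain ⟨b, -, rfl⟩ := List.mem_map.1 hx
        cases b
        · exact List.mem_cons_self
        · exact List.mem_cons_of_mem _ List.mem_cons_self
      · have h1 : (Turing.initList tm (w.map ia.invFun)).stk k = [] := dif_neg hk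
        rw [h1] at hx
        exact absurd hx List.not_mem_nil
  obtain ⟨t₁, hr₁, h1⟩ := hN.step0 (a := .start) (by simp [Dat.Q]) rfl hr
  obtain ⟨n', hn', t₂, hr₂, h2⟩ := hN.iter (D := ∑ l, (sub (tm.m l)).length)
    (fun l => Finset.single_le_sum (f := fun l => (sub (tm.m l)).length)
      (fun _ _ => Nat.zero_le _) (Finset.mem_univ l)) n _ _ t₁ hn hr₁
  obtain ⟨t₃, hr₃, h3⟩ := hN.step0 (a := .fin) (by simp [Dat.Q]) rfl hr₂
  have h4 : (Turing.haltList tm ([β].map oa.invFun)).stk tm.k₁ = [oa.symm β] := dif_pos rfl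
  have h5 : d.nxtA .fin ((((Turing.haltList tm ([β].map oa.invFun)).stk (d.stkA .fin)).map
      (d.cg _)).headD 0) = cond β .acc .rej := by
    have hm := hr₂.mem tm.k₁ (oa.symm β) (by rw [h4]; simp)
    show (if (((Turing.haltList tm ([β].map oa.invFun)).stk tm.k₁).map (d.cg tm.k₁)).headD 0 =
      d.cg tm.k₁ (oa.symm true) then St.acc else St.rej) = _
    rw [h4]
    cases β
    · rw [if_neg]
      · rfl
      · intro e
        simpa using d.cg_inj hm e
    · exact if_pos rfl
  rw [h5] at h3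
  obtain ⟨r, hr'⟩ : ∃ r, ((∑ l, (sub (tm.m l)).length) + 2) * T +
      ((∑ l, (sub (tm.m l)).length) + 2) = r + (1 + (n' + 1)) := by
    refine ⟨_, (Nat.sub_add_cancel ?_).symm⟩
    have h6 : (∑ l, (sub (tm.m l)).length) * n ≤ ((∑ l, (sub (tm.m l)).length) + 2) * T :=
      Nat.mul_le_mul (Nat.le_add_right _ _) hT
    omega
  rw [Tbl.Halts, Tbl.run, Tbl.init, hr', Function.iterate_add_apply, Function.iterate_add_apply,
    Function.iterate_add_apply, ← d.cq_start, Function.iterate_one, h1]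
  erw [h2, h3]
  exact hN.stay β r t₃ _ hr₃

end Crest.Agent.R290
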