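import Crest.Agent.R290.Codes
import Crest.Agent.Lib.PolyTime.More

/-!
# Row 290: deciding Weisfeiler-Leman equivalence in time polynomial in the number of tuples
-/

set_option autoImplicit false

namespace Crest.Agent.R290

open Crest.WLRefine Crest.Agent.Lib.PolyTime

namespace WLA

/-! ### Abstract refinement -/

theorem map_eq_of_imp {α β γ : Type} {f : α → β} {g : α → γ} (h : ∀ a b, f a = f b → g a = g b)
    {s t : Multiset α} (e : s.map f = t.map f) : s.map g = t.map g := by
  rw [← Multiset.rel_eq, Multiset.rel_map] at e ⊢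
  exact e.mono fun a _ b _ => h a b

section abstract
variable {ι κ : Type} {Col Col' : ℕ → Type}

/-- The colours `col` refine along the neighbourhoods `nb`. -/
def Ref (nb : ι → Multiset (κ → ι)) (col : ∀ s, ι → Col s) : Prop :=
  ∀ s x y, col (s + 1) x = col (s + 1) y ↔
    col s x = col s y ∧ ((nb x).map fun u => col s ∘ u) = (nb y).map fun u => col s ∘ u

variable {nb : ι → Multiset (κ → ι)} {col : ∀ s, ι → Col s} {col' : ∀ s, ι → Col' s}

theorem Ref.succ (h : Ref nb col) (h' : Ref nb col') {s t : ℕ}
    (e : ∀ x y, col s x = col s y → col' t x = col' t y) (x y : ι)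
    (hxy : col (s + 1) x = col (s + 1) y) : col' (t + 1) x = col' (t + 1) y := by
  rw [h] at hxy
  exact (h' _ _ _).2 ⟨e _ _ hxy.1,
    map_eq_of_imp (fun u v huv => funext fun i => e _ _ (congrFun huv i)) hxy.2⟩

theorem Ref.unique (h : Ref nb col) (h' : Ref nb col')
    (e : ∀ x y, col 0 x = col 0 y → col' 0 x = col' 0 y) (s : ℕ) :
    ∀ x y, col s x = col s y → col' s x = col' s y := by
  induction s with
  | zero => exact e
  | succ s ih => exact h.succ h' ih

theorem Ref.anti (h : Ref nb col) {s t : ℕ} (hst : s ≤ t) (x y : ι) (e : col t x = col t y) :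
    col s x = col s y := by
  induction hst with
  | refl => exact e
  | step _ ih => exact ih ((h _ _ _).1 e).1

theorem Ref.exists_stable [Fintype ι] (h : Ref nb col) :
    ∃ s, s ≤ Fintype.card ι * Fintype.card ι ∧
      ∀ x y, col s x = col s y → col (s + 1) x = col (s + 1) y := by
  classical
  by_contra hc
  push Not at hc
  have key : ∀ s, s ≤ Fintype.card ι * Fintype.card ι + 1 →
      (Finset.univ.filter fun p : ι × ι => col s p.1 = col s p.2).card + s ≤
        Fintype.card ι * Fintype.card ι := by
    intro s hs
    induction s with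
    | zero => exact (Finset.card_le_univ _).trans (by simp)
    | succ s ih =>
      obtain ⟨x, y, h1, h2⟩ := hc s (by omega)
      have := Finset.card_lt_card
        (s := Finset.univ.filter fun p : ι × ι => col (s + 1) p.1 = col (s + 1) p.2)
        (t := Finset.univ.filter fun p : ι × ι => col s p.1 = col s p.2)
        ⟨fun p hp => by
          simp only [Finset.mem_filter, Finset.mem_univ, true_and] at hp ⊢
          exact ((h _ _ _).1 hp).1,
        fun hh => h2 (by simpa using @hh (x, y) (by simpa using h1))⟩
      have := ih (by omega)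
      omega
  have := key _ le_rfl
  omega

theorem Ref.stable [Fintype ι] (h : Ref nb col) {T : ℕ} (hT : Fintype.card ι * Fintype.card ι ≤ T)
    (t : ℕ) (x y : ι) (e : col T x = col T y) : col t x = col t y := by
  obtain ⟨s, hs, h1⟩ := h.exists_stable
  have h2 : ∀ d x y, col (s + d) x = col (s + d) y → col (s + d + 1) x = col (s + d + 1) y := by
    intro d
    induction d with
    | zero => exact h1
    | succ d ih => exact h.succ h ih
  have h3 : ∀ d, col (s + d) x = col (s + d) y := fun d => by
    induction d with
    | zero => exact h.anti (hs.trans hT) _ _ e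
    | succ d ih => exact h2 _ _ _ ih
  exact h.anti (Nat.le_add_left t s) _ _ (h3 t)

end abstract

/-! ### The algorithm on lists -/

section alg
variable {I K : Type} [DecidableEq I] [DecidableEq K]

omit [DecidableEq I] in
theorem findIdx_congr {X : List I} {p q : I → Bool} (h : ∀ x ∈ X, p x = q x) :
    X.findIdx p = X.findIdx q := by
  induction X with
  | nil => rfl
  | cons x X ih =>
    rw [List.findIdx_cons, List.findIdx_cons, h x (by simp), ih fun y hy => h y (by simp [hy])]

omit [DecidableEq I] in
theorem findIdx_eq_iff {C : Type} {X : List I} {c : I → C} {p : I → I → Bool}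
    (hp : ∀ a ∈ X, ∀ b ∈ X, p a b = true ↔ c b = c a) {a b : I} (ha : a ∈ X) (hb : b ∈ X) :
    X.findIdx (p a) = X.findIdx (p b) ↔ c a = c b := by
  constructor
  · intro e
    have h1 : X.findIdx (p a) < X.length := List.findIdx_lt_length_of_exists ⟨a, ha, (hp a ha a ha).2 rfl⟩
    have h2 : X.findIdx (p b) < X.length := e ▸ h1
    have h3 := (hp a ha _ (List.getElem_mem h1)).1 List.findIdx_getElem
    have h4 := (hp b hb _ (List.getElem_mem h2)).1 List.findIdx_getElem
    simp only [e] at h3
    rw [← h3, h4]
  · intro e
    refine findIdx_congr fun x hx => ?_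
    rw [Bool.eq_iff_iff, hp a ha x hx, hp b hb x hx, e]

/-- One round of renaming. -/
def rnd (X : List I) (nb : I → List (List I)) (f : I → ℕ) (a : I) : ℕ :=
  X.findIdx fun b => decide (f b = f a ∧ ((nb b).map (List.map f)).Perm ((nb a).map (List.map f)))

/-- The names at round `s`. -/
def nm (X : List I) (c0 : I → K) (nb : I → List (List I)) (s : ℕ) : I → ℕ :=
  (rnd X nb)^[s] fun a => X.findIdx fun b => decide (c0 b = c0 a)

/-- One round on the table of names. -/
def step (X : List I) (nb : I → List (List I)) (t : List ℕ) : List ℕ :=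
  X.map (rnd X nb fun a => t.getD (X.idxOf a) 0)

/-- The final table. -/
def table (X : List I) (c0 : I → K) (nb : I → List (List I)) : List ℕ :=
  (step X nb)^[X.length * X.length] (X.map fun a => X.findIdx fun b => decide (c0 b = c0 a))

/-- The test. -/
def test (X₁ X₂ : List I) (c0 : I → K) (nb : I → List (List I)) : Bool :=
  decide (((table (X₁ ++ X₂) c0 nb).take X₁.length).Perm ((table (X₁ ++ X₂) c0 nb).drop X₁.length))

theorem getD_map_idxOf {X : List I} (f : I → ℕ) {a : I} (ha : a ∈ X) :
    (X.map f).getD (X.idxOf a) 0 = f a := by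
  have := List.idxOf_lt_length_of_mem ha
  simp [List.getD_eq_getElem?_getD, this]

theorem step_map {X : List I} {nb : I → List (List I)} (hX : ∀ a ∈ X, ∀ u ∈ nb a, ∀ b ∈ u, b ∈ X)
    (f : I → ℕ) : step X nb (X.map f) = X.map (rnd X nb f) := by
  have h : ∀ a ∈ X, (nb a).map (List.map fun a => (X.map f).getD (X.idxOf a) 0) =
      (nb a).map (List.map f) := fun a ha =>
    List.map_congr_left fun u hu => List.map_congr_left fun b hb => getD_map_idxOf f (hX a ha u hu b hb)
  refine List.map_congr_left fun a ha => findIdx_congr fun b hb => ?_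
  simp only [getD_map_idxOf f ha, getD_map_idxOf f hb, h a ha, h b hb]

theorem table_eq {X : List I} {nb : I → List (List I)} (hX : ∀ a ∈ X, ∀ u ∈ nb a, ∀ b ∈ u, b ∈ X)
    (c0 : I → K) : table X c0 nb = X.map (nm X c0 nb (X.length * X.length)) := by
  unfold table nm
  generalize X.length * X.length = s
  induction s with
  | zero => rfl
  | succ s ih => rw [Function.iterate_succ_apply', Function.iterate_succ_apply', ih, step_map hX]

theorem test_iff {ι : Type} [Fintype ι] {k : ℕ} {Col : ℕ → Type} (code : ι → I) (A B : Multiset ι)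
    {X₁ X₂ : List I} {c0 : I → K} {nb : I → List (List I)} (h1 : (X₁ : Multiset I) = A.map code)
    (h2 : (X₂ : Multiset I) = B.map code) (hall : ∀ x, x ∈ A + B)
    (nb' : ι → Multiset (Fin k → ι))
    (hnb : ∀ x, (nb (code x) : Multiset (List I)) = (nb' x).map fun u => List.ofFn (code ∘ u))
    (col : ∀ s, ι → Col s) (h0 : ∀ x y, col 0 x = col 0 y ↔ c0 (code x) = c0 (code y))
    (hcol : Ref nb' col) : test X₁ X₂ c0 nb = true ↔ ∀ s, A.map (col s) = B.map (col s) := by
  classical
  have hX : ((X₁ ++ X₂ : List I) : Multiset I) = (A + B).map code := by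
    rw [Multiset.map_add, ← h1, ← h2, Multiset.coe_add]
  set X := X₁ ++ X₂ with hXd
  have hmem : ∀ x, code x ∈ X := fun x => by
    rw [← Multiset.mem_coe, hX]; exact Multiset.mem_map_of_mem _ (hall x)
  have hsurj : ∀ a ∈ X, ∃ x, code x = a := fun a ha => by
    rw [← Multiset.mem_coe, hX, Multiset.mem_map] at ha
    exact ha.imp fun _ h => h.2
  have hcl : ∀ a ∈ X, ∀ u ∈ nb a, ∀ b ∈ u, b ∈ X := fun a ha u hu b hb => by
    obtain ⟨x, rfl⟩ := hsurj a ha
    rw [← Multiset.mem_coe, hnb, Multiset.mem_map] at hu
    obtain ⟨v, _, rfl⟩ := hu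
    obtain ⟨i, rfl⟩ := List.mem_ofFn.1 hb
    exact hmem _
  have href : Ref (Col := fun _ => ℕ) nb' fun s x => nm X c0 nb s (code x) := fun s x y => by
    have e : ∀ x, (((nb (code x)).map (List.map (nm X c0 nb s)) : List _) : Multiset (List ℕ)) =
        ((nb' x).map fun u => (fun x => nm X c0 nb s (code x)) ∘ u).map List.ofFn := fun x => by
      rw [← Multiset.map_coe, hnb, Multiset.map_map, Multiset.map_map]
      exact Multiset.map_congr rfl fun u _ => by simp [List.map_ofFn, Function.comp_def]
    have := findIdx_eq_iff (X := X) (c := fun a => (nm X c0 nb s a,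
      (((nb a).map (List.map (nm X c0 nb s)) : List _) : Multiset (List ℕ))))
      (p := fun a b => decide (nm X c0 nb s b = nm X c0 nb s a ∧
        ((nb b).map (List.map (nm X c0 nb s))).Perm ((nb a).map (List.map (nm X c0 nb s)))))
      (fun a _ b _ => by simp only [decide_eq_true_iff, Prod.mk.injEq, Multiset.coe_eq_coe])
      (hmem x) (hmem y)
    simp only [Prod.mk.injEq, e, (Multiset.map_injective List.ofFn_injective).eq_iff] at this
    rw [← this]
    simp only [nm, Function.iterate_succ_apply']
    rfl
  have h00 : ∀ x y, nm X c0 nb 0 (code x) = nm X c0 nb 0 (code y) ↔ col 0 x = col 0 y :=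
    fun x y => by
      rw [h0]
      exact findIdx_eq_iff (X := X) (c := c0) (p := fun a b => decide (c0 b = c0 a))
        (fun a _ b _ => by simp) (hmem x) (hmem y)
  have hcard : Fintype.card ι ≤ X.length := by
    rw [← Multiset.coe_card, hX, Multiset.card_map]
    refine le_trans (le_of_eq ?_) (Multiset.toFinset_card_le (A + B))
    rw [Finset.eq_univ_of_forall (s := (A + B).toFinset) fun x => Multiset.mem_toFinset.2 (hall x)]
    rfl
  rw [test, decide_eq_true_iff, ← hXd, table_eq hcl]
  set T := X.length * X.length
  generalize hf : nm X c0 nb T = f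
  rw [hXd, List.map_append, List.take_left' (by simp), List.drop_left' (by simp),
    ← Multiset.coe_eq_coe, ← Multiset.map_coe, ← Multiset.map_coe, h1, h2, Multiset.map_map,
    Multiset.map_map, ← hf]
  constructor
  · intro e s
    exact map_eq_of_imp (fun x y hxy => hcol.stable (Nat.mul_le_mul hcard hcard) s x y
      (href.unique hcol (fun x y => (h00 x y).1) T x y hxy)) e
  · intro e
    exact map_eq_of_imp (hcol.unique href (fun x y => (h00 x y).2) T) (e T)

variable {α : Type} [PEnc α] [PEnc I] [PEnc K]

theorem poly_table {X : α → List I} {c0 : α → I → K} {nb : α → I → List (List I)} (hX : Poly X)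
    (hc : Poly fun p : α × I => c0 p.1 p.2) (hnb : Poly fun p : α × I => nb p.1 p.2) :
    Poly fun a => table (X a) (c0 a) (nb a) := by
  unfold table
  have hc' : ∀ {β : Type} [PEnc β] {f : β → α} {g : β → I}, Poly f → Poly g →
      Poly fun b => c0 (f b) (g b) := fun hf hg => hc.comp (hf.pair hg)
  have hnb' : ∀ {β : Type} [PEnc β] {f : β → α} {g : β → I}, Poly f → Poly g →
      Poly fun b => nb (f b) (g b) := fun hf hg => hnb.comp (hf.pair hg)
  refine Poly.iterate_inv (by fun_prop) (by fun_prop) ?_ ?_
    (fun a t => t.length = (X a).length ∧ ∀ y ∈ t, y ≤ (X a).length) (fun a => ?_) (fun a t _ => ?_)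
    (B := fun a => (X a).length * (4 * (X a).length + 1 + 1) + 1) (by fun_prop) fun a t ht => ?_
  · refine hX.map (Poly.findIdx (by fun_prop) (Poly.decide_eq ?_ ?_))
    · exact hc' (by fun_prop) (by fun_prop)
    · exact hc' (by fun_prop) (by fun_prop)
  · unfold step rnd
    refine Lib.PolyTime.Poly.map (by fun_prop) (Poly.findIdx (by fun_prop) (Poly.decide_and (by fun_prop)
      (Poly.decide_perm (Lib.PolyTime.Poly.map ?_ (by fun_prop))
        (Lib.PolyTime.Poly.map ?_ (by fun_prop)))))
    · exact hnb' (by fun_prop) (by fun_prop)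
    · exact hnb' (by fun_prop) (by fun_prop)
  · refine ⟨by simp, fun y hy => ?_⟩
    obtain ⟨b, _, rfl⟩ := List.mem_map.1 hy
    exact List.findIdx_le_length
  · refine ⟨by simp [step], fun y hy => ?_⟩
    obtain ⟨b, _, rfl⟩ := List.mem_map.1 hy
    exact List.findIdx_le_length
  · rw [← ht.1]
    exact sz_list_le fun y hy => (sz_le_self y).trans (by have := ht.2 y hy; have := ht.1; omega)

theorem poly_test {X₁ X₂ : α → List I} {c0 : α → I → K} {nb : α → I → List (List I)}
    (h₁ : Poly X₁) (h₂ : Poly X₂) (hc : Poly fun p : α × I => c0 p.1 p.2)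
    (hnb : Poly fun p : α × I => nb p.1 p.2) : Poly fun a => test (X₁ a) (X₂ a) (c0 a) (nb a) := by
  have h := poly_table (h₁.append h₂) hc hnb
  exact Poly.decide_perm (h₁.length.take h) (h₁.length.drop h)

end alg

/-! ### The two instances -/

/-- All `k`-tuples over `n`, within the budget `F`. -/
def tup (F n k : ℕ) (b : Bool) : List (Bool × List ℕ) :=
  (List.range (min (n ^ min k F) F)).map fun x =>
    (b, (List.range (min k F)).map fun i => x / n ^ i % n)

theorem tup_eq {F n k : ℕ} (b : Bool) (h : (n + 2) ^ k ≤ F) :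
    (tup F n k b : Multiset (Bool × List ℕ)) =
      Finset.univ.val.map fun v : Fin k → Fin n => (b, List.ofFn fun i => (v i : ℕ)) := by
  have h1 : k ≤ F := (Nat.lt_two_pow_self.le.trans (Nat.pow_le_pow_left (by omega) k)).trans h
  have h2 : n ^ k ≤ F := (Nat.pow_le_pow_left (by omega) k).trans h
  rw [tup, min_eq_left h1, min_eq_left h2, ← Multiset.map_univ_val_equiv finFunctionFinEquiv.symm,
    Multiset.map_map, Fin.univ_val_map, ← ofFn_eq_map_range]
  simp only [← ofFn_eq_map_range]
  rfl

/-- The matrix selected by the tag. -/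
def pick (G H : List (List Bool)) (b : Bool) : List (List Bool) := bif b then H else G

/-- An entry of a matrix. -/
def ent (G : List (List Bool)) (p q : ℕ) : Bool := (G.getD p []).getD q false

/-- Initial key of a tuple. -/
def keyJ (G H : List (List Bool)) (a : Bool × List ℕ) : List (List (Bool × Bool)) :=
  a.2.map fun p => a.2.map fun q => (decide (p = q), ent (pick G H a.1) p q)

/-- Neighbourhood of a tuple. -/
def nbJ (G H : List (List Bool)) (a : Bool × List ℕ) : List (List (Bool × List ℕ)) :=
  (List.range (pick G H a.1).length).map fun z =>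
    (List.range a.2.length).map fun i => (a.1, a.2.set i z)

/-- Neighbourhood of a vertex. -/
def nbC (G H : List (List Bool)) (a : Bool × ℕ) : List (List (Bool × ℕ)) :=
  ((List.range (pick G H a.1).length).filter fun w => ent (pick G H a.1) a.2 w).map
    fun w => [(a.1, w)]

variable {k n m : ℕ}

theorem ent_rows (G : Fin n → Fin n → Bool) (i j : Fin n) : ent (rows G) i j = G i j := by
  simp [ent, rows]

theorem coe_range_map {β : Type} (n : ℕ) (f : ℕ → β) :
    (((List.range n).map f : List β) : Multiset β) = Finset.univ.val.map fun i : Fin n => f i := by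
  rw [Fin.univ_val_map, ofFn_eq_map_range]

theorem keyJ_aux (G : Fin n → Fin n → Bool) (v : Fin k → Fin n) :
    ((List.ofFn fun i => (v i : ℕ)).map fun p => (List.ofFn fun i => (v i : ℕ)).map fun q =>
      (decide (p = q), ent (rows G) p q)) =
    List.ofFn fun i => List.ofFn fun j => ((atomicType G v).1 i j, (atomicType G v).2 i j) := by
  simp [List.map_ofFn, Function.comp_def, atomicType, ent_rows, Fin.ext_iff]

theorem nbJ_aux (b : Bool) (v : Fin k → Fin n) :
    (((List.range n).map fun z => (List.range (List.ofFn fun i => (v i : ℕ)).length).map fun i =>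
      (b, (List.ofFn fun i => (v i : ℕ)).set i z) : List _) : Multiset (List (Bool × List ℕ))) =
    Finset.univ.val.map fun z : Fin n => List.ofFn fun i =>
      (b, List.ofFn fun j => (Function.update v i z j : ℕ)) := by
  rw [coe_range_map, List.length_ofFn]
  refine Multiset.map_congr rfl fun z _ => ?_
  rw [← ofFn_eq_map_range]
  congr 1
  funext i
  congr 1
  apply List.ext_getElem
  · simp
  · intro j h1 h2
    simp only [List.getElem_set, List.getElem_ofFn, Function.update_apply, Fin.ext_iff]
    split_ifs <;> first | rfl | omega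

theorem testJ (G : Fin n → Fin n → Bool) (H : Fin m → Fin m → Bool) {F : ℕ}
    (h : (n + 2) ^ k + (m + 2) ^ k ≤ F) :
    test (tup F n k false) (tup F m k true) (keyJ (rows G) (rows H)) (nbJ (rows G) (rows H)) = true ↔
      JEquiv k G H := by
  have := test_iff (ι := (Fin k → Fin n) ⊕ (Fin k → Fin m)) (k := k)
    (Sum.elim (fun v => (false, List.ofFn fun i => (v i : ℕ)))
      fun v => (true, List.ofFn fun i => (v i : ℕ)))
    (Finset.univ.val.map Sum.inl) (Finset.univ.val.map Sum.inr) (X₁ := tup F n k false)
    (X₂ := tup F m k true) (c0 := keyJ (rows G) (rows H)) (nb := nbJ (rows G) (rows H))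
    (by rw [tup_eq _ (by omega), Multiset.map_map]; rfl)
    (by rw [tup_eq _ (by omega), Multiset.map_map]; rfl) (fun x => by cases x <;> simp)
    (Sum.elim (fun v => Finset.univ.val.map fun z i => Sum.inl (Function.update v i z))
      fun v => Finset.univ.val.map fun z i => Sum.inr (Function.update v i z))
    (fun x => by
      cases x <;> simp only [nbJ, pick, Sum.elim_inl, Sum.elim_inr, cond_true, cond_false,
        length_rows, nbJ_aux, Multiset.map_map] <;> rfl)
    (fun s => Sum.elim (jcolor G k s) (jcolor H k s)) (fun x y => ?_) (fun s x y => ?_)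
  · simp only [Multiset.map_map] at this
    exact this
  · have e : ∀ x : (Fin k → Fin n) ⊕ (Fin k → Fin m), keyJ (rows G) (rows H)
        (Sum.elim (fun v => (false, List.ofFn fun i => (v i : ℕ)))
          (fun v => (true, List.ofFn fun i => (v i : ℕ))) x) =
        List.ofFn fun i => List.ofFn fun j => ((Sum.elim (jcolor G k 0) (jcolor H k 0) x).1 i j,
          (Sum.elim (jcolor G k 0) (jcolor H k 0) x).2 i j) := fun x => by
      cases x <;> exact keyJ_aux _ _
    rw [e, e]
    simp only [List.ofFn_inj, funext_iff, Prod.ext_iff, forall_and]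
  · cases x <;> cases y <;>
      simp only [Sum.elim_inl, Sum.elim_inr, jcolor, Multiset.map_map, Prod.mk.injEq] <;> rfl

theorem nbC_aux (G : Fin n → Fin n → Bool) (b : Bool) (v : Fin n) :
    ((((List.range n).filter fun w => ent (rows G) v w).map fun w => [(b, w)] : List _) :
      Multiset (List (Bool × ℕ))) =
    (Finset.univ.filter fun w => G v w = true).val.map fun w : Fin n => [(b, (w : ℕ))] := by
  have := Multiset.filter_coe (fun w => ent (rows G) v w = true) ((List.range n).map id)
  simp only [Bool.decide_eq_true] at this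
  rw [← Multiset.map_coe, ← List.map_id (List.range n), ← this, coe_range_map,
    Multiset.filter_map, Multiset.map_map]
  simp [ent_rows]

theorem testC (G : Fin n → Fin n → Bool) (H : Fin m → Fin m → Bool) :
    test ((List.range n).map fun v => (false, v)) ((List.range m).map fun v => (true, v))
      (fun _ => ()) (nbC (rows G) (rows H)) = true ↔ CREquiv G H := by
  have := test_iff (ι := Fin n ⊕ Fin m) (k := 1)
    (Sum.elim (fun v => (false, (v : ℕ))) fun v => (true, (v : ℕ)))
    (Finset.univ.val.map Sum.inl) (Finset.univ.val.map Sum.inr)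
    (X₁ := (List.range n).map fun v => (false, v)) (X₂ := (List.range m).map fun v => (true, v))
    (c0 := fun _ => ()) (nb := nbC (rows G) (rows H))
    (by rw [coe_range_map, Multiset.map_map]; rfl) (by rw [coe_range_map, Multiset.map_map]; rfl)
    (fun x => by cases x <;> simp)
    (Sum.elim (fun v => (Finset.univ.filter fun w => G v w = true).val.map fun w _ => Sum.inl w)
      fun v => (Finset.univ.filter fun w => H v w = true).val.map fun w _ => Sum.inr w)
    (fun x => by
      cases x <;> simp only [nbC, pick, Sum.elim_inl, Sum.elim_inr, cond_true, cond_false,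
        length_rows, nbC_aux, Multiset.map_map] <;> rfl)
    (fun s => Sum.elim (crcolor G s) (crcolor H s)) (fun x y => by simp) (fun s x y => ?_)
  · simp only [Multiset.map_map] at this
    exact this
  · have hi : Function.Injective fun (c : CRColor s) (_ : Fin 1) => c := fun a b h => congrFun h 0
    cases x <;> cases y <;>
      simp only [Sum.elim_inl, Sum.elim_inr, crcolor, Prod.mk.injEq,
        ← (Multiset.map_injective hi).eq_iff, Multiset.map_map] <;> rfl

end WLA

open WLA in
theorem exists_wlAlg : ∃ g : (ℕ × List (List Bool) × List (List Bool)) × Un → Bool, Poly g ∧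
    ∀ (k n m : ℕ) (G : Fin n → Fin n → Bool) (H : Fin m → Fin m → Bool) (F : ℕ), 1 ≤ k →
      (n + 2) ^ k + (m + 2) ^ k ≤ F →
      (g ((k, rows G, rows H), ⟨F⟩) = true ↔ WLEquiv k G H) := by
  refine ⟨fun a => if a.1.1 = 1 then
    test ((List.range a.1.2.1.length).map fun v => (false, v))
      ((List.range a.1.2.2.length).map fun v => (true, v)) (fun _ => ()) (nbC a.1.2.1 a.1.2.2)
    else test (tup a.2.n a.1.2.1.length a.1.1 false) (tup a.2.n a.1.2.2.length a.1.1 true)
      (keyJ a.1.2.1 a.1.2.2) (nbJ a.1.2.1 a.1.2.2), ?_, fun k n m G H F _ hF => ?_⟩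
  · refine Poly.ite (by fun_prop) (poly_test (by fun_prop) (by fun_prop) (by fun_prop) ?_)
      (poly_test ?_ ?_ ?_ ?_)
    · unfold nbC ent pick; fun_prop
    · unfold tup; fun_prop
    · unfold tup; fun_prop
    · unfold keyJ ent pick; fun_prop
    · unfold nbJ pick; fun_prop
  · simp only [WLEquiv, length_rows]
    split_ifs with hk
    · exact testC G H
    · exact testJ G H hF

end Crest.Agent.R290
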