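import Crest.Agent.R290.Game

/-!
# Row 290: the pebble game on systems of parity constraints
-/

set_option autoImplicit false

namespace Crest.Agent.R290

variable {Con Con' X : Type} [DecidableEq Con] [DecidableEq Con'] {sl : Con → Multiset X}
  {b : Con → ZMod 2} {K K' : ℕ}

theorem Consistent.mono (h : Consistent sl b K) (hK : K' ≤ K) : Consistent sl b K' :=
  let ⟨A, hA⟩ := h
  ⟨A, hA.ne, hA.sub, hA.sat, fun S α hS hc => hA.ext S α hS (lt_of_lt_of_le hc hK)⟩

theorem Consistent.reindex (h : Consistent sl b K) (e : Con' ≃ Con) :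
    Consistent (fun c => sl (e c)) (fun c => b (e c)) K := by
  obtain ⟨A, hA⟩ := h
  refine ⟨{q | (q.1.image e, q.2) ∈ A}, ?_, ?_, ?_, ?_⟩
  · obtain ⟨α, hα⟩ := hA.ne
    exact ⟨α, by simpa using hα⟩
  · intro S α hS S' hS'
    exact hA.sub _ _ hS _ (Finset.image_subset_image hS')
  · intro S α hS c hc
    exact hA.sat _ _ hS (e c) (Finset.mem_image_of_mem _ hc)
  · intro S α hS hc c
    obtain ⟨α', h1, h2⟩ := hA.ext _ _ hS (lt_of_le_of_lt Finset.card_image_le hc) (e c)
    refine ⟨α', ?_, fun c' hc' x hx => h2 (e c') (Finset.mem_image_of_mem _ hc') x hx⟩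
    show ((insert c S).image e, α') ∈ A
    rw [Finset.image_insert]
    exact h1

omit [DecidableEq Con] [DecidableEq Con'] in
theorem Solvable.reindex (h : Solvable sl b) (e : Con' → Con) :
    Solvable (fun c => sl (e c)) (fun c => b (e c)) :=
  let ⟨α, hα⟩ := h; ⟨α, fun c => hα (e c)⟩

theorem consistent_of_solvable (h : Solvable sl b) (K : ℕ) : Consistent sl b K := by
  obtain ⟨α₀, h₀⟩ := h
  refine ⟨{q | q.2 = α₀}, ⟨α₀, rfl⟩, fun S α hS S' _ => hS, ?_, ?_⟩
  · intro S α hS c _
    have : α = α₀ := hS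
    rw [this]
    exact h₀ c
  · intro S α hS _ c
    exact ⟨α, hS, fun _ _ _ _ => rfl⟩

/-- Every winning position extends to any larger set of at most `K` constraints. -/
theorem Cons.exists_ext {A : Set (Finset Con × (X → ZMod 2))} (h : Cons sl b K A) {S S' : Finset Con}
    {α : X → ZMod 2} (hS : (S, α) ∈ A) (hSS : S ⊆ S') (hS' : S'.card ≤ K) :
    ∃ α', (S', α') ∈ A ∧ ∀ c ∈ S, ∀ x ∈ sl c, α' x = α x := by
  have key : ∀ T : Finset Con, (S ∪ T).card ≤ K →
      ∃ α', (S ∪ T, α') ∈ A ∧ ∀ c ∈ S, ∀ x ∈ sl c, α' x = α x := by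
    intro T
    induction T using Finset.induction_on with
    | empty =>
      intro _
      exact ⟨α, by simpa using hS, fun _ _ _ _ => rfl⟩
    | insert c T _ ih =>
      intro hc
      rw [Finset.union_insert] at hc ⊢
      by_cases hm : c ∈ S ∪ T
      · rw [Finset.insert_eq_of_mem hm] at hc ⊢
        exact ih hc
      · rw [Finset.card_insert_of_notMem hm] at hc
        obtain ⟨α₁, h1, h2⟩ := ih (by omega)
        obtain ⟨α₂, h3, h4⟩ := h.ext _ _ h1 (by omega) c
        exact ⟨α₂, h3, fun c' hc' x hx =>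
          (h4 c' (Finset.mem_union_left _ hc') x hx).trans (h2 c' hc' x hx)⟩
  have hu : S ∪ S' = S' := Finset.union_eq_right.2 hSS
  have := key S' (by rw [hu]; exact hS')
  rwa [hu] at this

/-- Every set of at most `K` constraints is part of a winning position. -/
theorem Cons.exists_mem {A : Set (Finset Con × (X → ZMod 2))} (h : Cons sl b K A) (S : Finset Con)
    (hS : S.card ≤ K) : ∃ α, (S, α) ∈ A := by
  obtain ⟨α, hα⟩ := h.ne
  obtain ⟨α', h', -⟩ := h.exists_ext hα (Finset.empty_subset S) hS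
  exact ⟨α', h'⟩

theorem solvable_of_consistent [Fintype Con] (h : Consistent sl b K) (hK : Fintype.card Con ≤ K) :
    Solvable sl b := by
  obtain ⟨A, hA⟩ := h
  obtain ⟨α, hα⟩ := hA.exists_mem Finset.univ (by rw [Finset.card_univ]; exact hK)
  exact ⟨α, fun c => hA.sat _ _ hα c (Finset.mem_univ c)⟩

omit [DecidableEq Con] in
/-- The sum of the values of the selected constraints, in terms of `bd`. `T` is any finite set
containing all variables with nonzero coefficient. -/
theorem sum_ev_eq [Fintype Con] [DecidableEq X] (U : Con → ZMod 2) (α : X → ZMod 2) (T : Finset X)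
    (hT : ∀ x, x ∉ T → bd sl U x = 0) : ∑ c, U c * ev sl α c = ∑ x ∈ T, bd sl U x * α x := by
  have h1 : ∀ c, ev sl α c = ∑ x ∈ T ∪ Finset.univ.biUnion (fun c => (sl c).toFinset),
      ((sl c).count x : ZMod 2) * α x := by
    intro c
    unfold ev
    rw [Finset.sum_multiset_map_count]
    simp only [nsmul_eq_mul]
    refine Finset.sum_subset ?_ ?_
    · intro x hx
      exact Finset.mem_union_right _ (Finset.mem_biUnion.2 ⟨c, Finset.mem_univ _, hx⟩)
    · intro x _ hx
      rw [Multiset.mem_toFinset] at hx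
      rw [Multiset.count_eq_zero_of_notMem hx, Nat.cast_zero, zero_mul]
  calc ∑ c, U c * ev sl α c
      = ∑ c, ∑ x ∈ T ∪ Finset.univ.biUnion (fun c => (sl c).toFinset),
          U c * ((sl c).count x : ZMod 2) * α x := by
        refine Finset.sum_congr rfl fun c _ => ?_
        rw [h1 c, Finset.mul_sum]
        exact Finset.sum_congr rfl fun x _ => (mul_assoc _ _ _).symm
    _ = ∑ x ∈ T ∪ Finset.univ.biUnion (fun c => (sl c).toFinset), bd sl U x * α x := by
        rw [Finset.sum_comm]
        refine Finset.sum_congr rfl fun x _ => ?_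
        unfold bd
        rw [Finset.sum_mul]
    _ = _ := by
        symm
        refine Finset.sum_subset Finset.subset_union_left fun x _ hx => ?_
        rw [hT x hx, zero_mul]

/-- A functional vanishing on the common kernel (inside `L`) of finitely many functionals is a
combination of them on `L`. -/
theorem xor_span {M Y : Type} [AddCommGroup M] [Module (ZMod 2) M] (L : Submodule (ZMod 2) M)
    (φ : M →ₗ[ZMod 2] ZMod 2) (f : Y → M →ₗ[ZMod 2] ZMod 2) (T : Finset Y)
    (h : ∀ U ∈ L, (∀ x ∈ T, f x U = 0) → φ U = 0) :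
    ∃ β : Y → ZMod 2, ∀ U ∈ L, φ U = ∑ x ∈ T, f x U * β x := by
  classical
  have h1 : φ.domRestrict L ∈
      Submodule.span (ZMod 2) (Set.range fun x : T => (f x.1).domRestrict L) := by
    refine mem_span_of_iInf_ker_le_ker fun U hU => ?_
    rw [Submodule.mem_iInf] at hU
    exact h U.1 U.2 fun x hx => hU ⟨x, hx⟩
  obtain ⟨β, hβ⟩ := (Submodule.mem_span_range_iff_exists_fun (ZMod 2)).1 h1
  refine ⟨fun x => if hx : x ∈ T then β ⟨x, hx⟩ else 0, fun U hU => ?_⟩
  have h2 := LinearMap.congr_fun hβ ⟨U, hU⟩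
  rw [LinearMap.sum_apply] at h2
  rw [← Finset.sum_coe_sort T]
  refine h2.symm.trans (Finset.sum_congr rfl fun x _ => ?_)
  dsimp only
  rw [dif_pos x.2, LinearMap.smul_apply, smul_eq_mul, mul_comm]
  rfl

/-- The pairing with a fixed vector. -/
def xorDot [Fintype Con] (b : Con → ZMod 2) : (Con → ZMod 2) →ₗ[ZMod 2] ZMod 2 where
  toFun U := ∑ c, U c * b c
  map_add' U U' := by simp only [Pi.add_apply, add_mul, Finset.sum_add_distrib]
  map_smul' t U := by
    simp only [Pi.smul_apply, smul_eq_mul, RingHom.id_apply, Finset.mul_sum, mul_assoc]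

omit [DecidableEq Con] in
theorem xorDot_apply [Fintype Con] (b U : Con → ZMod 2) : xorDot b U = ∑ c, U c * b c := rfl

/-- `bd` as a linear functional. -/
def xorBd [Fintype Con] [DecidableEq X] (sl : Con → Multiset X) (x : X) :
    (Con → ZMod 2) →ₗ[ZMod 2] ZMod 2 := xorDot fun c => ((sl c).count x : ZMod 2)

omit [DecidableEq Con] in
theorem xorBd_apply [Fintype Con] [DecidableEq X] (x : X) (U : Con → ZMod 2) :
    xorBd sl x U = bd sl U x := rfl

/-- The variables of a set of constraints. -/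
def xorVars [DecidableEq X] (sl : Con → Multiset X) (S : Finset Con) : Finset X :=
  S.biUnion fun c => (sl c).toFinset

omit [DecidableEq Con] in
theorem mem_xorVars [DecidableEq X] {S : Finset Con} {x : X} :
    x ∈ xorVars sl S ↔ ∃ c ∈ S, x ∈ sl c := by
  simp only [xorVars, Finset.mem_biUnion, Multiset.mem_toFinset]

omit [DecidableEq Con] in
theorem xor_bd_eq_zero [Fintype Con] [DecidableEq X] (U : Con → ZMod 2) {x : X}
    (hx : x ∉ xorVars sl Finset.univ) : bd sl U x = 0 := by
  refine Finset.sum_eq_zero fun c _ => ?_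
  rw [Multiset.count_eq_zero_of_notMem fun h => hx (mem_xorVars.2 ⟨c, Finset.mem_univ _, h⟩),
    Nat.cast_zero, mul_zero]

theorem xor_sum_single [Fintype Con] (c : Con) (g : Con → ZMod 2) :
    ∑ c', (Pi.single c 1 : Con → ZMod 2) c' * g c' = g c := by
  rw [Finset.sum_eq_single c]
  · rw [Pi.single_eq_same, one_mul]
  · intro c' _ hc'
    rw [Pi.single_eq_of_ne hc', zero_mul]
  · intro h
    exact absurd (Finset.mem_univ c) h

omit [DecidableEq Con] in
/-- The Fredholm alternative. -/
theorem solvable_of_closed [Fintype Con] [DecidableEq X]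
    (h : ∀ U : Con → ZMod 2, (∀ x, bd sl U x = 0) → ∑ c, U c * b c = 0) : Solvable sl b := by
  classical
  obtain ⟨β, hβ⟩ := xor_span (⊤ : Submodule (ZMod 2) (Con → ZMod 2)) (xorDot b) (xorBd sl)
    (xorVars sl Finset.univ) (by
      intro U _ hU
      refine h U fun x => ?_
      by_cases hx : x ∈ xorVars sl Finset.univ
      · exact hU x hx
      · exact xor_bd_eq_zero U hx)
  refine ⟨β, fun c => ?_⟩
  have h1 := hβ (Pi.single c 1) Submodule.mem_top
  have h2 := sum_ev_eq (sl := sl) (Pi.single c 1) β (xorVars sl Finset.univ)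
    (fun x hx => xor_bd_eq_zero _ hx)
  rw [xor_sum_single] at h2
  rw [xorDot_apply, xor_sum_single] at h1
  rw [h1, h2]
  rfl

/-- The dual criterion for consistency: `D S` is a subspace of combinations of constraints. -/
theorem consistent_of_dual [Fintype Con] [DecidableEq X]
    (D : Finset Con → (Con → ZMod 2) → Prop) (hzero : ∀ S, D S 0)
    (hadd : ∀ S U U', S.card ≤ K → Zs sl S U → Zs sl S U' → D S U → D S U' → D S (U + U'))
    (hax : ∀ S c, c ∈ S → S.card ≤ K → D S (Pi.single c 1))
    (hiff : ∀ S S' U, S ⊆ S' → S'.card ≤ K → Zs sl S U → (D S U ↔ D S' U))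
    (hend : ∀ U, Zs sl ∅ U → D ∅ U → ∑ c, U c * b c = 0) : Consistent sl b K := by
  refine ⟨{q | q.1.card ≤ K ∧ ∀ U, Zs sl q.1 U → D q.1 U →
    ∑ c, U c * ev sl q.2 c = ∑ c, U c * b c}, ?_, ?_, ?_, ?_⟩
  · refine ⟨0, Nat.zero_le _, fun U hZ hD => ?_⟩
    rw [hend U hZ hD, sum_ev_eq U _ ∅ (fun x _ => hZ x (by simp)), Finset.sum_empty]
  · rintro S α ⟨hc, hS⟩ S' hS'
    refine ⟨(Finset.card_le_card hS').trans hc, fun U hZ hD => ?_⟩
    exact hS U (fun x hx => hZ x fun c hc' => hx c (hS' hc')) ((hiff S' S U hS' hc hZ).1 hD)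
  · rintro S α ⟨hc, hS⟩ c hcS
    have hZ : Zs sl S (Pi.single c 1) := by
      intro x hx
      unfold bd
      rw [xor_sum_single, Multiset.count_eq_zero_of_notMem (hx c hcS), Nat.cast_zero]
    have := hS _ hZ (hax S c hcS hc)
    rwa [xor_sum_single, xor_sum_single] at this
  · rintro S α ⟨-, hS⟩ hlt c
    have hc' : (insert c S).card ≤ K := (Finset.card_insert_le _ _).trans hlt
    have hsub : xorVars sl S ⊆ xorVars sl (insert c S) :=
      Finset.biUnion_subset_biUnion_of_subset_left _ (Finset.subset_insert _ _)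
    let L : Submodule (ZMod 2) (Con → ZMod 2) :=
      { carrier := {U | Zs sl (insert c S) U ∧ D (insert c S) U}
        add_mem' := by
          rintro U U' ⟨h1, h2⟩ ⟨h3, h4⟩
          refine ⟨fun x hx => ?_, hadd _ U U' hc' h1 h3 h2 h4⟩
          rw [← xorBd_apply, map_add, xorBd_apply, xorBd_apply, h1 x hx, h3 x hx, add_zero]
        zero_mem' := ⟨fun x _ => by rw [← xorBd_apply, map_zero], hzero _⟩
        smul_mem' := by
          intro t U hU
          have ht : t = 0 ∨ t = 1 := by revert t; decide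
          rcases ht with rfl | rfl
          · rw [zero_smul]
            exact ⟨fun x _ => by rw [← xorBd_apply, map_zero], hzero _⟩
          · rw [one_smul]
            exact hU }
    obtain ⟨β, hβ⟩ := xor_span L (xorDot b - ∑ x ∈ xorVars sl S, α x • xorBd sl x) (xorBd sl)
      (xorVars sl (insert c S) \ xorVars sl S) (by
        rintro U ⟨h1, h2⟩ hU
        have hZ : Zs sl S U := by
          intro x hx
          by_cases hx' : x ∈ xorVars sl (insert c S)
          · exact hU x (Finset.mem_sdiff.2 ⟨hx', fun h => by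
              obtain ⟨c', h3, h4⟩ := mem_xorVars.1 h
              exact hx c' h3 h4⟩)
          · exact h1 x fun c' h3 h4 => hx' (mem_xorVars.2 ⟨c', h3, h4⟩)
        have h3 := hS U hZ ((hiff S _ U (Finset.subset_insert _ _) hc' hZ).2 h2)
        rw [sum_ev_eq U α (xorVars sl S)
          (fun x hx => hZ x fun c' h4 h5 => hx (mem_xorVars.2 ⟨c', h4, h5⟩))] at h3
        rw [LinearMap.sub_apply, xorDot_apply, ← h3, LinearMap.sum_apply, sub_eq_zero]
        refine Finset.sum_congr rfl fun x _ => ?_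
        rw [LinearMap.smul_apply, xorBd_apply, smul_eq_mul, mul_comm])
    refine ⟨fun x => if x ∈ xorVars sl S then α x else β x, ⟨hc', fun U hZ hD => ?_⟩, ?_⟩
    · have h1 := hβ U ⟨hZ, hD⟩
      rw [LinearMap.sub_apply, xorDot_apply, LinearMap.sum_apply, sub_eq_iff_eq_add] at h1
      rw [h1, sum_ev_eq U _ (xorVars sl (insert c S))
        (fun x hx => hZ x fun c' h4 h5 => hx (mem_xorVars.2 ⟨c', h4, h5⟩)),
        ← Finset.sum_sdiff hsub]
      congr 1
      · refine Finset.sum_congr rfl fun x hx => ?_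
        dsimp only
        rw [if_neg (Finset.mem_sdiff.1 hx).2, xorBd_apply]
      · refine Finset.sum_congr rfl fun x hx => ?_
        dsimp only
        rw [if_pos hx, LinearMap.smul_apply, xorBd_apply, smul_eq_mul, mul_comm]
    · intro c' hc'' x hx
      exact if_pos (mem_xorVars.2 ⟨c', hc'', hx⟩)

/-- From the game on constraints to the game on graphs. Every vertex is owned by a constraint;
`R α v w` says that the shift `α` moves `v` to `w`. -/
theorem pequiv_of_consistent {V W : Type} [DecidableEq V] [DecidableEq W] {G : V → V → Bool}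
    {H : W → W → Bool} (h : Consistent sl b K) (own : V → Con) (own' : W → Con)
    (R : (X → ZMod 2) → V → W → Prop)
    (hbij : ∀ c α, ev sl α c = b c →
      ∃ e : {v // own v = c} ≃ {w // own' w = c}, ∀ v, R α v.1 (e v).1)
    (hloc : ∀ α α' v w, R α v w → (∀ x ∈ sl (own v), α' x = α x) → R α' v w)
    (hiso : ∀ α v w v' w', ev sl α (own v) = b (own v) → ev sl α (own v') = b (own v') →
      R α v w → R α v' w' → (v = v' ↔ w = w') ∧ G v v' = H w w') :
    PEquiv G H K := by
  obtain ⟨A, hA⟩ := h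
  refine ⟨{p | ∃ α, (p.image (fun a => own a.1), α) ∈ A ∧ ∀ a ∈ p, R α a.1 a.2}, ?_, ?_, ?_, ?_⟩
  · obtain ⟨α, hα⟩ := hA.ne
    exact ⟨α, by simpa using hα, by simp⟩
  · rintro p ⟨α, h1, h2⟩ q hq
    exact ⟨α, hA.sub _ _ h1 _ (Finset.image_subset_image hq), fun a ha => h2 a (hq ha)⟩
  · rintro p ⟨α, h1, h2⟩ a ha a' ha'
    exact hiso α _ _ _ _ (hA.sat _ _ h1 _ (Finset.mem_image_of_mem _ ha))
      (hA.sat _ _ h1 _ (Finset.mem_image_of_mem _ ha')) (h2 a ha) (h2 a' ha')
  · rintro p ⟨α, h1, h2⟩ hp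
    choose γ hγ1 hγ2 using hA.ext _ _ h1 (lt_of_le_of_lt Finset.card_image_le hp)
    choose e he using fun c => hbij c (γ c) (hA.sat _ _ (hγ1 c) c (Finset.mem_insert_self _ _))
    refine ⟨Equiv.ofFiberEquiv e, fun z => ⟨γ (own z), ?_, ?_⟩⟩
    · rw [Finset.image_insert]
      exact hγ1 (own z)
    · intro a ha
      rcases Finset.mem_insert.1 ha with rfl | ha
      · exact he (own z) ⟨z, rfl⟩
      · exact hloc α _ _ _ (h2 a ha)
          (hγ2 (own z) (own a.1) (Finset.mem_image_of_mem (fun a => own a.1) ha))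

end Crest.Agent.R290
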